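import Crest.Agent.N255.Dg.Top
import Crest.Agent.N255.Fa.Hyp
import Crest.Agent.N255.En.Defs
import Crest.Agent.N255.Md.Mod
import Crest.Agent.N255.Ch.Main
import Crest.Agent.N255.Lv.Top
import Crest.Agent.N255.Md.Da
import Crest.Agent.N255.En.Deg
import Crest.Agent.N255.Gs.Cx
import Crest.Agent.N255.Gs.Far
import Crest.Agent.N255.Ce.Res
import Crest.Agent.N255.Lv.Pt
import Crest.Agent.N255.Uc.Av
import Crest.Agent.N255.En.Lev
import Crest.Agent.N255.Lv.TmT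
import Crest.Agent.N255.Tp.ProNe
import Crest.Agent.N255.Nv.Ne
import Crest.Agent.N255.Nv.Ctg
import Crest.Agent.N255.Tp.Sm
import Crest.Agent.N255.Ma.Master
import Crest.Agent.N255.En.LevG
import Crest.Agent.N255.En.MyD

-- ▼ part N255/Dg/Met
section

/-!
# Row 255 (helper10): the degree lemma with metric hypotheses
-/

set_option autoImplicit false
set_option linter.unusedSectionVars false
open Set Finsupp
open scoped Pointwise

noncomputable section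

namespace Crest.Agent.N255.Dg

open Nv Ra Ce Ce.Mir Ce.Mir.Cell Gs Tp Uc Fa

variable {S K F Nd Ed : Type} [DecidableEq S] [Group F] [MulAction F Nd] [MulAction F Ed]
  {M : Mir S K F Nd Ed}

/-- the gate in the core lies on all initial mirrors -/
theorem gate {x z : Vt M} (hz : z.1 = 1) (hd : dl M z x = rad M x) {a : S} (ha : a ∈ Init x.1) :
    a ∈ M.sp z.2 := by
  have e : Sep (dev M) (KV M univ) x = Sep (dev M) {z} x :=
    eq_of_subset_of_ncard_le (Sep.anti (singleton_subset_iff.2 (mem_core.2 hz)))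
      ((sep_pt (Fa.lab M) z _ x rfl).2.trans hd.le) (sep_pt (Fa.lab M) z _ x rfl).1
  have key : ∀ n (u : Vt M), dl M z u = n → u.1 = 1 → a ∈ M.sp u.2 → a ∈ M.sp z.2 := fun n => by
    induction n with
    | zero => intro u h _ k; rw [eq_of_dl h]; exact k
    | succ n ih =>
      intro u h hu k
      obtain ⟨b, u', h1, h2, h3⟩ := step' (Fa.lab M) h
      have i : ∀ s, s ∉ Init u.1 := fun s => by simp [hu, Init_eq]
      have r : ∀ s, s ∈ M.sp u.2 → hp (dev M) u (.inl s) = ra M s := fun s hs =>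
        (hp_eq_ra (b := .inl s) (y := (u.1 * gen M.Γ s, u.2)) ⟨hs, rfl⟩).2 (by simp [hu])
      rcases b with s | b
      · rw [r s h1.1, sd_ra_ne (i s), hz] at h3
        simp [Init_eq] at h3
      have h4 : sd (dev M) (hp (dev M) u (.inr b)) u ≠ sd (dev M) (hp (dev M) u (.inr b)) x := fun c => by
        have : hp (dev M) u (.inr b) ∈ Sep (dev M) {z} x := fun y hy => by rw [hy, ← c]; exact h3
        exact h3 (Sep.vert (e ▸ this) u (mem_core.2 hu) z (mem_core.2 hz))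
      have h5 : (cg M).Adj (.inr b) (.inl a) :=
        adj_of_sep h4 (by rw [r a k]; exact (sd_ra_ne (i a)).2 ha) (by simp)
      exact ih u' h2 (h1.1.trans hu) (h1.2.elim (fun c => c.2 ▸ h5.2) fun c => c.2 ▸ h5.1)
  exact key _ (bs M a) rfl rfl ((hmir M).Tne a).some_mem

theorem ball_fin' {B : Set (Vt M)} (hB : B.Finite) (R : ℕ) : {y | ∃ x ∈ B, dl M x y ≤ R}.Finite :=
  (hB.biUnion fun x _ => ball_fin x R).subset fun _ ⟨_, hx, h⟩ => mem_biUnion hx h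

/-- the part of a neighbourhood of the core behind finitely many mirrors is finite -/
theorem fin_init (hT : ∀ a, {t | a ∈ M.sp t}.Finite) {A : Set S} (hA : A.Finite) (R : ℕ) :
    {x : Vt M | rad M x ≤ R ∧ ∃ a ∈ A, a ∈ Init x.1}.Finite := by
  refine (ball_fin' ((hA.biUnion fun a _ => hT a).image fun t => ((1, t) : Vt M)) R).subset ?_
  rintro x ⟨h, a, ha, k⟩
  obtain ⟨z, hz, e⟩ := exists_dl univ x
  exact ⟨z, ⟨z.2, mem_biUnion ha (gate (mem_core.1 hz) e k), Prod.ext (mem_core.1 hz).symm rfl⟩,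
    e.le.trans h⟩

variable [LinearOrder K]

/-- a vertex of a cell -/
def vt (y : M.Cell) : Vt M := (y.w, M.nd true y.c)

/-- the top vertex -/
def tv (y : M.Cell) : M.Cell :=
  ⟨top y.w y.τ, ∅, .inl (M.nd true y.c), by simp, by simp, by simp⟩

theorem tv_le (y : M.Cell) : tv y ≤ y := ⟨Finset.empty_subset _, tle_nd _ _, y.has_top⟩

variable [Finite K] {G' : Subgroup M.G} [G'.FiniteIndex] (L : Lab G' (M.ug.res G').X)

theorem vc_vt {x y : M.Cell} (h : x ≤ y) : Vc (vt x) y := ⟨h.2.2, (tle_nd _ _).trans h.2.1⟩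

/-- the label of a cell -/
def ll (y : M.Cell) : G' := L.l y.dim ⟨y, rfl⟩

theorem ll_fin {B : Set G'} (hB : B.Finite) : {y | ll L y ∈ B}.Finite :=
  ((finite_le_nat 4).biUnion
    (t := fun n => (fun x : (M.ug.res G').X n => (x.1 : M.Cell)) '' {a | L.l n a ∈ B})
    fun n _ => (L.fin (M.ug.res G').fr n hB).image _).subset fun y hy =>
    mem_iUnion₂.2 ⟨y.dim, y.dim_le, ⟨y, rfl⟩, hy, rfl⟩

theorem ll_dl (o : Vt M) {B : Set G'} (hB : B.Finite) :
    ∃ d, ∀ y, ∀ x ≤ y, ∀ s ∈ B, dl M ((ll L y * s).1.1 • o) (vt x) ≤ d := by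
  obtain ⟨d, hd⟩ := lab_near G' o L
  obtain ⟨d', hd'⟩ := orb_lip G' o hB
  refine ⟨d' + d, fun y x h s hs => (dl_tri' _ ((ll L y).1.1 • o) _).trans (add_le_add ?_ ?_)⟩
  · rw [dl_comm']; exact hd' _ s hs
  · exact hd _ ⟨y, rfl⟩ _ (vc_vt h)

include L in
theorem vt_fin {B : Set (Vt M)} (hB : B.Finite) : {y : M.Cell | ∃ x ≤ y, vt x ∈ B}.Finite := by
  obtain ⟨o, -⟩ := (cvx (M := M) univ).ne
  obtain ⟨d, hd⟩ := ll_dl L o (finite_singleton 1)
  refine (ll_fin L (orb_fin G' o (ball_fin' hB d))).subset fun y ⟨x, h, k⟩ => ⟨_, k, ?_⟩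
  rw [dl_comm']
  simpa using hd y x h 1 rfl

variable {k : Type} [Field k] (H : M.Cham) {T : Type} [TopologicalSpace T] [MulAction G' T]
  [ContinuousConstSMul G' T] {K0 : Set T} {h : FD 4 G' K0} {L}

omit [MulAction G' T] [ContinuousConstSMul G' T] in
theorem cob_pb {n : ℕ} {lab : T → S} {Far : Set T} {ω : Tu S n → k} {σ : Sx (n + 1) T}
    (h1 : range σ ⊆ Far → linearCombination k ω (tb k n (single (vl lab σ) 1)) = 0)
    {A : Set S} (hA : ∀ x, ω x ≠ 0 → ∃ i, x i ∈ A)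
    (h2 : ∀ p ∈ range σ, ∀ q ∈ range σ, p ∉ Far → q ∈ Far → lab q ∉ A) :
    cob k (pb lab Far ω) σ = 0 := by
  by_cases e : range σ ⊆ Far
  · rw [← ev_sg (k := k) (cob k _), ← ev_bd, ev_pb lab ω (Sb.bd_mem (Sb.sg_mem (P := On Far) e)),
      ← tb_lb, lb_sg, h1 e]
  · obtain ⟨p, hp, hp'⟩ := not_subset.1 e
    rw [cob_apply]
    refine Finset.sum_eq_zero fun i _ => smul_eq_zero_of_right _ ?_
    rw [pb]
    split_ifs with c
    · by_contra c'
      obtain ⟨j, hj⟩ := hA _ c'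
      exact h2 p hp _ (range_fc σ i ⟨_, rfl⟩) hp' (c ⟨_, rfl⟩) hj
    · rfl

include h in
theorem dl_K0 (o : Vt M) : ∃ d, ∀ (p : T) (γ γ' : G'), γ⁻¹ • p ∈ K0 → γ'⁻¹ • p ∈ K0 →
    dl M (γ.1.1 • o) (γ'.1.1 • o) ≤ d := by
  obtain ⟨d, hd⟩ := orb_lip G' o (h.gm.shs_finite h.cpt h.cpt)
  refine ⟨d, fun p γ γ' a b => ?_⟩
  simpa using hd γ (γ⁻¹ * γ') ⟨_, a, by simpa [mul_smul] using b⟩

/-- **the degree lemma** -/
theorem deg_met (hT : ∀ a, {t | a ∈ M.sp t}.Finite) (g : Mp (cell (M.ug.res G').fr k L) (h.sing k))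
    (hc : LFc (m := 3) (M.ug.res G').fr fun x => (H.oc x.1 : k)) (o : Vt M) :
    ∃ d : ℕ, ∀ (lab : T → S) (Far : Set T) (R : ℕ),
      (∀ p ∈ Far, ∃ γ : G', γ⁻¹ • p ∈ K0 ∧ ∀ y, dl M (γ.1.1 • o) y ≤ d → lab p ∈ Init y.1) →
      (∀ p ∉ Far, ∃ γ : G', γ⁻¹ • p ∈ K0 ∧ rad M (γ.1.1 • o) ≤ R) → ∀ A : Set S, A.Finite →
      ∃ C0, IsCompact C0 ∧ ∀ ω : Tu S 3 → k, (∀ x : Tu S 4, M.Γ.IsClique (range x) →
        linearCombination k ω (tb k 3 (single x 1)) = 0) → (∀ x, ω x ≠ 0 → ∃ i, x i ∈ A) →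
        (∀ C, C0 ⊆ C → cob k (pb lab Far ω) ∈ ((On Cᶜ).inf (Sm (FD.cvr G' K0))).van k k 4) ∧
        ∀ 𝒰 : Set (Set T), (∀ V ∈ 𝒰, IsOpen V) → univ ⊆ ⋃₀ 𝒰 → ∀ C, IsCompact C →
          cob k (pb lab Far ω) ∈ ((On Cᶜ).inf (Sm 𝒰)).van k k 4 →
          deg 𝒰 (ori g hc) (pb lab Far ω) C = dg H ω ∧
          ∀ z ∈ (Sm 𝒰).ch k 4, (ori g hc).Fund C z → ev k (pb lab Far ω) (bd k z) = dg H ω := by
  choose B hB hg using g_mem g
  obtain ⟨d0, h0⟩ := dl_K0 (h := h) o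
  obtain ⟨d, hd⟩ := ll_dl L o ((finite_le_nat 4).biUnion fun n _ => hB n)
  have hd' : ∀ y : M.Cell, ∀ p ∈ cor K0 (ll L y • B y.dim), ∀ γ : G', γ⁻¹ • p ∈ K0 → ∀ x ≤ y,
      dl M (γ.1.1 • o) (vt x) ≤ d := fun y p hp γ hγ x hx => by
    obtain ⟨s, hs, rfl⟩ := hp γ hγ
    exact hd y x hx s (mem_biUnion y.dim_le hs)
  obtain ⟨d1, h1⟩ := ll_dl L o (finite_singleton 1)
  refine ⟨max d d0, fun lab Far R hl hR A hA => ?_⟩
  have hl' : ∀ p ∈ Far, ∀ γ : G', γ⁻¹ • p ∈ K0 → lab p ∈ Init (γ.1.1 • o).1 := fun p hp γ hγ => by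
    obtain ⟨γ', a, b⟩ := hl p hp
    exact b _ ((h0 p γ' γ a hγ).trans (le_max_right _ _))
  have f := orb_fin G' o (fin_init hT hA (R + d0))
  refine ⟨_, isCompact_sat f h.cpt, fun ω hω hs => ⟨fun C hC0 => ?_, fun 𝒰 u1 u2 C hC v => ?_⟩⟩
  · rintro σ ⟨a, _, ⟨γ, rfl⟩, b⟩
    have c : ∀ p ∈ range σ, γ⁻¹ • p ∈ K0 := fun p hp => by
      obtain ⟨_, rfl, e⟩ := b hp
      exact interior_subset e
    refine cob_pb (fun e => hω _ ((Init_clique (γ.1.1 • o).1).subset ?_)) hs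
      fun p hp q hq p' q' e => ?_
    · rintro _ ⟨i, rfl⟩
      exact hl' _ (e ⟨_, rfl⟩) γ (c _ ⟨_, rfl⟩)
    · obtain ⟨γ', a1, a2⟩ := hR p p'
      exact a hq (hC0 ⟨γ, ⟨(rad_lip _ _).trans (add_le_add a2 (h0 p γ' γ a1 (c p hp))), _, e,
        hl' q q' γ (c q hq)⟩, c q hq⟩)
  have e := deg_top H g hc u1 u2 (U := fun y => cor K0 (ll L y • B y.dim))
    (lab := lab) (Far := Far) (fun n x => by obtain ⟨y, rfl⟩ := x; exact hg _ _)
    (fun y p hp hp' => by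
      obtain ⟨γ, a, b⟩ := hl p hp'
      exact b (vt (tv y)) ((hd' y p hp γ a _ (tv_le y)).trans (le_max_left _ _))) hω hs
    ((vt_fin L (fin_init hT hA (R + d + d1 + d1))).subset fun y ⟨⟨x, a1, a2⟩, a, a3, a4⟩ => by
      obtain ⟨p, hp, hp'⟩ := not_subset.1 a2
      obtain ⟨γ, b1, b2⟩ := hR p hp'
      have c1 := hd' x p hp γ b1 x le_rfl
      have c2 := h1 y x a1 1 rfl
      have c3 := h1 y _ (tv_le y) 1 rfl
      have c4 := rad_lip (γ.1.1 • o) (vt x)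
      have c5 := rad_lip (vt x) ((ll L y * 1).1.1 • o)
      have c6 := rad_lip ((ll L y * 1).1.1 • o) (vt (tv y))
      rw [dl_comm'] at c2
      exact ⟨_, tv_le y, by omega, a, a4, a3⟩) hC v
  exact ⟨e, fun z hz hz' => (deg_eq u1 u2 hC v hz hz').trans e⟩

end Crest.Agent.N255.Dg
end
end

-- ▼ part N255/Dg/Wall
section

/-!
# Row 255 (helper10): the degree of the labelling on the windows
-/

set_option autoImplicit false
set_option linter.unusedSectionVars false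
open Set Finsupp

noncomputable section

namespace Crest.Agent.N255.Dg

open Nv Tp

section comb
variable {S k : Type} [CommRing k] {n : ℕ} {R : S → S → Prop} {T B : Set S} {γ : Tu S n → k}

open Classical in
/-- extension by zero -/
def z0 (T : Set S) (γ : Tu S n → k) : Tu S n → k := fun v => if range v ⊆ T then γ v else 0

open Classical in
/-- the part of the coboundary of the extension by zero on the side `B` -/
def om (T B : Set S) (γ : Tu S n → k) : Tu S (n + 1) → k :=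
  fun v => if ∃ i, v i ∈ B then td k (z0 T γ) v else 0

theorem z0_ne {v : Tu S n} (h : z0 T γ v ≠ 0) : range v ⊆ T := by_contra fun e => h (if_neg e)

theorem om_ne {v : Tu S (n + 1)} (h : om T B γ v ≠ 0) : (∃ i, v i ∈ B) ∧ ∃ i, v i ∈ T := by
  have h1 : ∃ i, v i ∈ B := by_contra fun e => h (if_neg e)
  rw [om, if_pos h1, td_apply] at h
  obtain ⟨i, -, h⟩ := Finset.exists_ne_zero_of_sum_ne_zero h
  exact ⟨h1, _, z0_ne (right_ne_zero_of_smul h) ⟨0, rfl⟩⟩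

theorem om_eq (hγ : ∀ v ∈ CT R T (n + 1), td k γ v = 0) {v : Tu S (n + 1)}
    (h : v ∈ CT R (T ∪ B) (n + 1)) : om T B γ v = td k (z0 T γ) v := by
  rw [om]
  split_ifs with e
  · rfl
  have h1 : range v ⊆ T := by
    rintro _ ⟨i, rfl⟩
    exact (h.1 ⟨i, rfl⟩).resolve_right fun b => e ⟨i, b⟩
  rw [← hγ v ⟨h1, h.2⟩, td_apply, td_apply]
  exact Finset.sum_congr rfl fun i _ => by rw [z0, if_pos ((range_tf v i).trans h1)]

theorem om_coc (hγ : ∀ v ∈ CT R T (n + 1), td k γ v = 0) (hB : ∀ a b, R a b → a ∈ B → b ∈ T ∪ B)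
    {v : Tu S (n + 2)} (h : Cq R (range v)) : td k (om T B γ) v = 0 := by
  by_cases e : ∃ i, v i ∈ B
  · obtain ⟨i, e⟩ := e
    have h1 : v ∈ CT R (T ∪ B) (n + 2) := ⟨fun b hb => hB _ b (h _ ⟨i, rfl⟩ b hb) e, h⟩
    refine Eq.trans ?_ (congrFun (td_td (k := k) (z0 T γ)) v)
    rw [td_apply, td_apply]
    exact Finset.sum_congr rfl fun j _ => by rw [om_eq hγ (CT.tf h1 j)]
  · rw [td_apply]
    refine Finset.sum_eq_zero fun j _ => smul_eq_zero_of_right _ (if_neg fun ⟨_, c⟩ => e ⟨_, c⟩)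

end comb

section lev
open En Pt Lv

variable {ι S : Type} [DecidableEq ι] [MulAction (FreeGroup ι) S] {w : Wl ι S}
  {F : Subgroup (FreeGroup ι)} {X : Type} [TopologicalSpace X] [MulAction F X] {k : Type} [Field k]

/-- the degree property of the labelling -/
def DT (N : Lev w F X) (O : Ori k 3 X) (dgf : (Tu S 3 → k) → k) : Prop :=
  ∃ R1 : ℝ, ∀ R, R1 ≤ R → ∀ A : Set S, A.Finite → ∀ ω : Tu S 3 → k,
    (∀ v : Tu S 4, Cq (Cl w.Γ) (range v) → td k ω v = 0) → (∀ x, ω x ≠ 0 → ∃ i, x i ∈ A) →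
    ∀ C, IsCompact C → cob k (pb N.lab {x | R < N.r x} ω) ∈ (N.Sb Cᶜ).van k k 4 →
    ∀ z ∈ (Sm N.cv).ch k 4, O.Fund C z → ev k (pb N.lab {x | R < N.r x} ω) (bd k z) = dgf ω

theorem t2_coc (M : Md w) (e : Ed ι) :
    ∀ v ∈ w.Ct (w.T e) 3, td k (t2 k (M.mer e) (M.mer (rev e))) v = 0 := fun v hv => by
  have a : ∀ i, v i ∉ w.B e := fun i => w.TB e _ (hv.1 ⟨i, rfl⟩)
  have b : ∀ i, v i ∉ w.B (rev e) := fun i => w.TB _ _ (w.T_rev e ▸ hv.1 ⟨i, rfl⟩)
  have c : ∀ i j, Cl w.Γ (v i) (v j) := fun i j => hv.2 _ ⟨i, rfl⟩ _ ⟨j, rfl⟩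
  rw [td2]
  simp only [t2, Matrix.cons_val_zero, Matrix.cons_val_one, Matrix.cons_val]
  rw [M.mer_add e _ _ _ (a 0) (a 1) (a 2) (c _ _) (c _ _) (c _ _),
    M.mer_add (rev e) _ _ _ (b 1) (b 2) (b 3) (c _ _) (c _ _) (c _ _)]
  push_cast
  ring

/-- **(L3)** from the degree property -/
theorem degA_of {N : Lev w F X} {O : Ori k 3 X} {dgf : (Tu S 3 → k) → k} (hD : DT N O dgf) (M : Md w)
    (u : kˣ) (hu : ∀ e, dgf (om (w.T e) (w.B (rev e)) (t2 k (M.mer e) (M.mer (rev e)))) = -u) :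
    N.DegA M O u 3 := by
  classical
  intro e l l' h0 hl h1
  obtain ⟨R1, hD⟩ := hD
  obtain ⟨D, hL⟩ := N.r_lip
  obtain ⟨R2, s1⟩ := N.lab_side (1 - l') (by linarith)
  obtain ⟨R3, s2⟩ := N.lab_side l h0
  let R := max (max R1 N.R0) (max R2 R3)
  have r1 : R1 ≤ R := (le_max_left _ _).trans (le_max_left _ _)
  have r0 : N.R0 ≤ R := (le_max_right _ _).trans (le_max_left _ _)
  have r2 : R2 ≤ R := (le_max_left _ _).trans (le_max_right _ _)
  have r3 : R3 ≤ R := (le_max_right _ _).trans (le_max_right _ _)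
  refine ⟨R + max D 0, fun R' hR C z₁ z₂ σ c hC hK hz a1 a2 eb a3 a4 a5 => ?_⟩
  set γ := t2 k (M.mer e) (M.mer (rev e))
  let Far : Set X := {x | R < N.r x}
  have hγ := t2_coc (k := k) M e
  have b1 : ∀ x ∈ Far, N.s e x < l' → N.lab x ∈ w.T e ∪ w.B (rev e) := fun x hx h =>
    (w.tri e _).elim .inl fun t => .inr (t.resolve_left (s1 e x (r2.trans_lt hx) (by linarith)))
  have b2 : ∀ x ∈ Far, l < N.s e x → N.lab x ∉ w.B (rev e) := fun x hx h =>
    s2 (rev e) x (r3.trans_lt hx) (by rw [N.s_rev]; linarith)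
  have b3 : ∀ {n} (τ : Sx n X), τ ∈ (Sm N.cv).S n → range τ ⊆ Far → Cq (Cl w.Γ) (range (vl N.lab τ)) := by
    rintro n τ ⟨U, hU, h⟩ h' _ ⟨i, rfl⟩ _ ⟨j, rfl⟩
    exact N.lab_cl U hU _ (h ⟨_, rfl⟩) _ (h ⟨_, rfl⟩) (r0.trans_lt (h' ⟨_, rfl⟩))
      (r0.trans_lt (h' ⟨_, rfl⟩))
  have b4 : ∀ {n} (τ : Sx n X), τ ∈ (N.Sb Cᶜ).S n → ∀ p ∈ range τ, ∀ q ∈ range τ, p ∉ Far → q ∈ Far →
      N.lab q ∉ w.T e := by
    rintro n τ ⟨h, U, hU, h'⟩ p hp q hq p' q' t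
    have c1 := hL U hU p (h' hp) q (h' hq)
    have c2 := abs_le.1 (N.lab_T e q (r0.trans_lt q') t)
    have c3 : N.r p ≤ R := not_lt.1 p'
    have := le_max_left D 0
    exact h hq (hK ⟨by linarith, by linarith, by linarith⟩)
  have hω : ∀ v : Tu S 4, Cq (Cl w.Γ) (range v) → td k (om (w.T e) (w.B (rev e)) γ) v = 0 :=
    fun v hv => om_coc hγ (fun a b h ha => (w.tri e b).elim .inl fun t => .inr
      (t.resolve_left fun t => w.BB e b a t ha h.symm)) hv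
  have key := hD R r1 _ (w.T_fin e) _ hω (fun x h => (om_ne h).2) C hC (fun τ hτ =>
    cob_pb (fun h => (td_eq _ _).symm.trans (hω _ (b3 τ hτ.2 h))) (fun x h => (om_ne h).2) (b4 τ hτ))
    _ (add_mem (Sb.ch_mono Sb.inf_le_right a1) (Sb.ch_mono Sb.inf_le_right a2)) hz
  have v : pb N.lab Far (om (w.T e) (w.B (rev e)) γ) ∈ (On {x | l < N.s e x}).van k k 3 :=
    fun τ hτ => by
      rw [pb]
      split_ifs with h
      · exact if_neg fun ⟨i, t⟩ => b2 _ (h ⟨_, rfl⟩) (hτ ⟨_, rfl⟩) t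
      · rfl
  have v2 : pb N.lab Far (om (w.T e) (w.B (rev e)) γ) - cob k (pb N.lab Far (z0 (w.T e) γ)) ∈
      (N.Sb {x | x ∉ C ∧ N.s e x < l'}).van k k 3 := fun τ hτ => by
    rw [Pi.sub_apply, sub_eq_zero, pb]
    split_ifs with h
    · rw [← ev_sg (k := k) (cob k _), ← ev_bd, ev_pb _ _ (Sb.bd_mem (Sb.sg_mem (P := On Far) h)),
        ← tb_lb, lb_sg, ← td_eq]
      refine om_eq hγ ⟨?_, b3 τ hτ.2 h⟩
      rintro _ ⟨i, rfl⟩
      exact b1 _ (h ⟨_, rfl⟩) (hτ.1 ⟨_, rfl⟩).2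
    · exact (cob_pb (fun t => (h t).elim) (fun x t => ⟨0, z0_ne t ⟨0, rfl⟩⟩)
        (b4 τ ⟨fun x hx => (hτ.1 hx).1, hτ.2⟩)).symm
  have v3 : pb N.lab Far (z0 (w.T e) γ) - rs N.lab γ ∈
      ((N.Sb {x | l < N.s e x ∧ N.s e x < l'}).inf (On {x | R' < N.r x})).van k k 2 := fun τ hτ => by
    have h : range τ ⊆ Far := fun x hx => by
      have : R' < N.r x := hτ.2 hx
      have := le_max_right D 0
      show R < N.r x
      linarith
    rw [Pi.sub_apply, sub_eq_zero, pb, if_pos h]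
    refine if_pos ?_
    rintro _ ⟨i, rfl⟩
    exact (b1 _ (h ⟨_, rfl⟩) (hτ.1.1 ⟨_, rfl⟩).2).resolve_right (b2 _ (h ⟨_, rfl⟩) (hτ.1.1 ⟨_, rfl⟩).1)
  have e1 : bd k c = -bd k σ := eq_neg_of_add_eq_zero_right (by rw [← map_add, ← eb, bd_bd])
  rw [hu, map_add, map_add, eb, map_add,
    Sb.ev_eq_zero v (Sb.bd_mem (Sb.ch_mono Sb.inf_le_left a2)),
    Sb.ev_eq_zero v (ch_mono (fun x hx => hx.1) (Sb.ch_mono Sb.inf_le_left a3)), zero_add, add_zero,
    Sb.ev_congr v2 a4, ← ev_bd, e1, map_neg, neg_inj,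
    Sb.ev_congr v3 (Sml.mem_inf (Sb.bd_mem a3) a5)] at key
  exact key

end lev

section wall
open Ce Ch Md

variable {S K : Type} [DecidableEq S] [LinearOrder K] {Γ : SimpleGraph S} {col : S → K} {U : Finset S}

/-- Stokes with coefficients -/
theorem sum_dA {A : Type} [AddCommGroup A] {n : ℕ} (a : Finset S → A) (z : Finset S → ℤ) :
    ∑ v ∈ Xn Γ U (n + 1), z v • dA col a v =
      ∑ t ∈ Xn Γ U n, pe z (dq Γ col U (single t 1)) • a t := by
  classical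
  have e : ∀ t ∈ Xn Γ U n, pe z (dq Γ col U (single t 1)) =
      ∑ v ∈ Xn Γ U (n + 1), z v * dq Γ col U (single t 1) v := fun t ht => by
    rw [linearCombination_apply, sum_of_support_subset _ (s := Xn Γ U (n + 1)) (fun v hv => ?_) _
      (by simp)]
    · exact Finset.sum_congr rfl fun _ _ => mul_comm _ _
    obtain ⟨hc, s, hs, hn, rfl⟩ := dq_ne (mem_support_iff.1 hv)
    exact mem_Xn.2 ⟨⟨hc, Finset.empty_subset _, Finset.insert_subset hs (mem_Xn.1 ht).1.2.2⟩,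
      by rw [mem_ofPred_eq, Finset.card_insert_of_notMem hn, show t.card = n from (mem_Xn.1 ht).2]⟩
  rw [Finset.sum_congr (s₁ := Xn Γ U n) rfl fun t ht => by rw [e t ht, Finset.sum_smul],
    Finset.sum_comm (s := Xn Γ U n)]
  refine Finset.sum_congr rfl fun v hv => ?_
  have hv' := mem_Xn.1 hv
  simp only [mul_smul, ← Finset.smul_sum]
  congr 1
  simp only [dq_apply, if_pos hv'.1.1, Finset.inter_eq_left.2 hv'.1.2.2, Finset.sum_smul]
  rw [Finset.sum_comm]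
  refine Finset.sum_congr rfl fun s hs => ?_
  simp only [single_apply, mul_ite, mul_one, mul_zero, ite_smul, zero_smul, Finset.sum_ite_eq']
  exact (if_pos (mem_Xn.2 ⟨Q_erase hv'.1 s, by
    rw [mem_ofPred_eq, Finset.card_erase_of_mem hs, show v.card = n + 1 from hv'.2]; rfl⟩)).symm

variable {F Nd Ed : Type} [Group F] [MulAction F Nd] [MulAction F Ed] [Finite K] [DecidableEq Ed]
  {M : Mir S K F Nd Ed} {k : Type} [CommRing k]

theorem srt_of {n : ℕ} {t : Finset S} (h : t ∈ Xn M.Γ U (n + 1)) :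
    ∃ x : Tu S n, StrictMono (M.col ∘ x) ∧ im x = t :=
  exists_srt (fun _ ha _ hb e => Mir.col_inj (mem_Xn.1 h).1.1 ha hb e) (mem_Xn.1 h).2

theorem cq_of {t : Set S} (h : M.Γ.IsClique t) : Cq (En.Cl M.Γ) t := fun _ ha _ hb =>
  or_iff_not_imp_left.2 (h ha hb)

/-- **the degree of the wall cocycle** -/
theorem dg_wal2 (L : Loc M) {H : M.Cham} (hH : H.or = L.or) (e : Ed) {B : Set S}
    (h1 : ∀ a ∈ M.sp (M.src (L.op e)), a ∉ B) (h2 : ∀ a ∈ M.sp (M.src e), a ∈ M.sp (M.tgt e) ∨ a ∈ B)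
    {γ : Tu S 2 → k} (hγ : ∀ v ∈ CT (En.Cl M.Γ) (M.sp (M.tgt e)) 3, td k γ v = 0) :
    dg H (om (M.sp (M.tgt e)) B γ) = -p2 M e (L.ω e) fun a b c => γ ![a, b, c] := by
  classical
  have W := L.wal _ (M.ty_src e)
  let a : Finset S → k := fun t => linearCombination k (z0 (M.sp (M.tgt e)) γ) (Δ k M.col 2 t)
  rw [dg, finsum_mem_eq_sum_of_inter_support_eq
    (t := (Xn M.Γ (M.sp (M.src e)) 4).image fun t => (t, M.src e)),
    Finset.sum_image fun _ _ _ _ h => congrArg Prod.fst h]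
  · have e1 : ∀ t ∈ Xn M.Γ (M.sp (M.src e)) 4, (H.or (t, .inl (M.src e)) : k) *
        linearCombination k (om (M.sp (M.tgt e)) B γ) (Δ k M.col 3 t) =
        L.o (M.src e) t • dA M.col a t := fun t ht => by
      have ht' := mem_Xn.1 ht
      rw [hH, congrFun (L.or_vtx (M.ty_src e)) t, zsmul_eq_mul]
      congr 1
      obtain ⟨x, hx, rfl⟩ := srt_of ht
      rw [Δ_im hx, linearCombination_single, one_smul, om_eq hγ ⟨fun b hb => h2 b (ht'.1.2.2
        (coe_im x ▸ hb : b ∈ (im x : Set S))), coe_im x ▸ cq_of ht'.1.1⟩, td_eq, ← Δ_im hx,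
        tb_Δ (fun _ ha _ hb e => Mir.col_inj ht'.1.1 ha hb e) ht'.2, map_sum]
      refine Finset.sum_congr rfl fun s _ => ?_
      rw [map_smul, eps, Finset.filter_erase, Finset.erase_eq_of_notMem
        (s := (im x).filter fun t => M.col t < M.col s) fun h => lt_irrefl _ (Finset.mem_filter.1 h).2,
        zsmul_eq_mul]
      simp [a]
    rw [Finset.sum_congr rfl e1, sum_dA, p2, pA, ← Finset.sum_neg_distrib,
      ← Finset.sum_subset (s₁ := Xn M.Γ (M.sp (M.tgt e)) 3) (fun t ht => mem_Xn.2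
        ⟨Q_mono (L.wall e) subset_rfl (mem_Xn.1 ht).1, (mem_Xn.1 ht).2⟩) fun t ht hn => ?_,
      ← Finset.sum_subset (s₁ := Xn M.Γ (M.sp (M.tgt e)) 3) (Finset.filter_subset _ _) fun t _ hn => by
        rw [not_ne_iff.1 fun h => hn (mem_Xn.2 ((L.tor e).ω_sup t h)), zero_smul, neg_zero]]
    · refine Finset.sum_congr rfl fun t ht => ?_
      rw [eq_neg_of_add_eq_zero_left (W.st_bd e rfl t (mem_Xn.1 ht).1), neg_smul]
      obtain ⟨p, hp, q, hq, r, hr, -, -, -, l1, l2, rfl⟩ := X3 M.col_ne ht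
      have m : StrictMono (M.col ∘ ![p, q, r]) := Fin.strictMono_iff_lt_succ.2 fun i => by
        fin_cases i <;> assumption
      have i : im ![p, q, r] = {p, q, r} := by
        ext; simp [im, Fin.exists_fin_succ, eq_comm]
      rw [s2_tri _ l1 l2]
      simp only [a]
      rw [← i, Δ_im m, linearCombination_single, one_smul, z0, if_pos (by
        rw [← coe_im, i]; exact (mem_Xn.1 ht).1.2.2)]
    · obtain ⟨x, hx, rfl⟩ := srt_of ht
      simp only [a]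
      rw [Δ_im hx, linearCombination_single, one_smul, not_ne_iff.1 fun h => hn (mem_Xn.2
        ⟨⟨(mem_Xn.1 ht).1.1, Finset.empty_subset _, Finset.coe_subset.1 (coe_im x ▸ z0_ne h)⟩,
          (mem_Xn.1 ht).2⟩), smul_zero]
  · ext ⟨t, n⟩
    refine and_congr_left fun hp => ⟨fun hv => ?_, fun hv => ?_⟩
    · have h3 : L.or (t, .inl n) ≠ 0 := fun z => left_ne_zero_of_mul hp (by rw [hH, z, Int.cast_zero])
      have hn : ¬M.ty n := fun z => h3 (congrFun (L.or_mid z) t)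
      have h4 : t ∈ Xn M.Γ (M.sp n) 4 :=
        mem_Xn.2 ((L.wal n hn).o_sup t (congrFun (L.or_vtx hn) t ▸ h3))
      obtain ⟨x, hx, rfl⟩ := srt_of h4
      have h5 := right_ne_zero_of_mul hp
      rw [Δ_im hx, linearCombination_single, one_smul] at h5
      obtain ⟨⟨i, hi⟩, j, hj⟩ := om_ne h5
      have h6 := (mem_Xn.1 h4).1.2.2
      obtain rfl : n = M.src e := by
        by_contra c
        obtain ⟨e', rfl, c1, c2⟩ := L.w2 n _ _ hn (M.ty_src e) c (h6 (mem_im x j)) (L.wall e hj)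
        rcases L.tgt_eq _ _ (L.w1 _ _ _ hj (c2 (Finset.mem_inter.2 ⟨h6 (mem_im x j), L.wall e hj⟩)))
          with rfl | rfl
        exacts [c rfl, h1 _ (h6 (mem_im x i)) hi]
      exact Finset.mem_coe.2 (Finset.mem_image_of_mem _ h4)
    · obtain ⟨u, hu, h⟩ := Finset.mem_image.1 hv
      obtain ⟨rfl, rfl⟩ := Prod.ext_iff.1 h
      exact ⟨(mem_Xn.1 hu).1.1, (mem_Xn.1 hu).1.2.2, Finset.disjoint_empty_right _⟩

end wall

end Crest.Agent.N255.Dg
end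
end

-- ▼ part N255/Dg/Inst
section

/-!
# Row 255 (helper10): (L3) for the averaged levels
-/

set_option autoImplicit false
set_option linter.unusedSectionVars false
open Set Finsupp

noncomputable section

namespace Crest.Agent.N255.Dg

open Nv Tp Ce Ch Gs Uc Fa Ra En Lv

section gen
variable {S K F Nd Ed : Type} [DecidableEq S] [Group F] [MulAction F Nd] [MulAction F Ed]
  [LinearOrder K] {M : Mir S K F Nd Ed}

/-- mirrors are finite -/
theorem sp_fin [DecidableEq Ed] (L : Loc M) (a : S) : {t | a ∈ M.sp t}.Finite := by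
  by_cases h : ∃ e, a ∈ M.sp (M.tgt e)
  · obtain ⟨e, h⟩ := h
    refine (toFinite {M.tgt e, M.src e, M.src (L.op e)}).subset fun n hn => ?_
    by_cases t : M.ty n
    · obtain ⟨e', rfl⟩ := L.mid n t
      exact .inl (L.w1 _ _ _ hn h)
    by_cases c : n = M.src e
    · exact .inr (.inl c)
    obtain ⟨e', rfl, -, c2⟩ := L.w2 n _ _ t (M.ty_src e) c hn (L.wall e h)
    rcases L.tgt_eq _ _ (L.w1 _ _ _ h (c2 (Finset.mem_inter.2 ⟨hn, L.wall e h⟩))) with rfl | rfl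
    exacts [.inr (.inl rfl), .inr (.inr rfl)]
  · have t : ∀ n, a ∈ M.sp n → ¬M.ty n := fun n hn t => by
      obtain ⟨e, rfl⟩ := L.mid n t
      exact h ⟨e, hn⟩
    refine Set.Subsingleton.finite fun n hn n' hn' => by_contra fun c => ?_
    obtain ⟨e, -, -, c2⟩ := L.w2 n n' _ (t n hn) (t n' hn') c hn hn'
    exact h ⟨e, c2 (Finset.mem_inter.2 ⟨hn, hn'⟩)⟩

theorem p2_congr [DecidableEq Ed] {A : Type} [AddCommGroup A] {e : Ed} {z : Finset S → ℤ} {n : ℕ}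
    (h : Loc.Cyc M e z n) {φ ψ : S → S → S → A} (k : ∀ a ∈ M.sp (M.tgt e), ∀ b ∈ M.sp (M.tgt e),
      ∀ c ∈ M.sp (M.tgt e), M.Γ.Adj a b → M.Γ.Adj b c → φ a b c = ψ a b c) :
    Md.p2 M e z φ = Md.p2 M e z ψ :=
  Md.pA_congr fun t ht => Finset.sum_congr rfl fun a ha => Finset.sum_congr rfl fun b hb =>
    Finset.sum_congr rfl fun c hc => by
    have := (h.sup t ht).1
    split_ifs with l
    · exact k a (this.2.2 ha) b (this.2.2 hb) c (this.2.2 hc) (this.1 ha hb fun e => l.1.ne (e ▸ rfl))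
        (this.1 hb hc fun e => l.2.ne (e ▸ rfl))
    · rfl

theorem p2_cast (k : Type) [CommRing k] (e : Ed) (z : Finset S → ℤ) (φ : S → S → S → ℤ) :
    Md.p2 M e z (fun a b c => (φ a b c : k)) = (Md.p2 M e z φ : ℤ) := by
  simp [Md.p2, Md.pA, Md.s2]

variable [Finite K] {G' : Subgroup M.G} [G'.FiniteIndex] {T : Type} [TopologicalSpace T]
  [MulAction G' T] [ContinuousConstSMul G' T] {K0 : Set T} {h : FD 4 G' K0}
  {L : Lab G' (M.ug.res G').X} {k : Type} [Field k] {ι : Type} [DecidableEq ι]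
  [MulAction (FreeGroup ι) S] {w : Wl ι S} {F1 : Subgroup (FreeGroup ι)} [MulAction F1 T]
  {F' : Subgroup F} [MulAction F' T]

/-- the degree property for averaged levels -/
theorem dt_av (H : M.Cham) (hT : ∀ a, {t | a ∈ M.sp t}.Finite)
    (g : Mp (cell (M.ug.res G').fr k L) (h.sing k))
    (hc : LFc (m := 3) (M.ug.res G').fr fun x => (H.oc x.1 : k)) (E : Av G' F' T) (N : Lev w F1 T)
    (hΓ : w.Γ = M.Γ) (hr : ∀ x, N.r x = E.rr x)
    (hl : ∀ d, ∃ R, ∀ x y, R < rad M (E.v x) → dl M (E.v x) y ≤ d → N.lab x ∈ Init y.1) :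
    DT N (ori g hc) (dg H) := by
  classical
  obtain ⟨d, hd⟩ := deg_met H hT g hc E.o
  obtain ⟨d1, h1⟩ := orb_lip G' E.o (E.P.lf.finite_nonempty_inter_compact h.cpt)
  have h2 : ∀ p (γ : G'), γ⁻¹ • p ∈ K0 → dl M (γ.1.1 • E.o) (E.v p) ≤ d1 := fun p γ a => by
    simpa [Av.v, ob] using h1 γ (γ⁻¹ * E.g p) ⟨_, (E.P.mem_lab_smul γ⁻¹ _ p).2 (E.mem p), a⟩
  obtain ⟨d2, h3⟩ := E.rr_near E.P.cpt
  have h4 := fun x => abs_le.1 (h3 x x (E.nr_self x) _ (E.v_mem x))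
  obtain ⟨R, hR⟩ := hl (d1 + d)
  refine ⟨R + d2, fun R' r A hA ω hω hs C hC v z z1 z2 => ?_⟩
  obtain ⟨_, -, k1⟩ := hd N.lab {x | R' < N.r x} (⌈R'⌉₊ + d2 + d1) (fun p hp => by
    obtain ⟨γ, a⟩ := h.cov' p
    refine ⟨γ, a, fun y b => hR p y ?_ ((dl_tri' _ (γ.1.1 • E.o) _).trans
      (add_le_add ((dl_comm' _ _).trans_le (h2 p γ a)) b))⟩
    have : R' < E.rr p := hr p ▸ hp
    exact_mod_cast (show (R : ℝ) < rad M (E.v p) by linarith [(h4 p).2])) (fun p hp => by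
    obtain ⟨γ, a⟩ := h.cov' p
    have b : E.rr p ≤ R' := hr p ▸ not_lt.1 hp
    have c : rad M (E.v p) ≤ ⌈R'⌉₊ + d2 := by
      exact_mod_cast (show (rad M (E.v p) : ℝ) ≤ ⌈R'⌉₊ + d2 by linarith [(h4 p).1, Nat.le_ceil R'])
    exact ⟨γ, a, (rad_lip (E.v p) _).trans (add_le_add c ((dl_comm' _ _).trans_le (h2 p γ a)))⟩) A hA
  exact ((k1 ω (fun x hx => (td_eq _ _).symm.trans (hω x (hΓ ▸ cq_of hx))) hs).2 N.cv N.cv_open
    N.cv_cover C hC v).2 z z1 z2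

/-- **(L3)** for any mirror model with a local structure -/
theorem degA_loc [DecidableEq Ed] (Lo : Loc M) {H : M.Cham} (hH : H.or = Lo.or) {N : Lev w F1 T}
    {O : Ori k 3 T} (hD : DT N O (dg H)) (hΓ : w.Γ = M.Γ) (m : En.Md w) (u : ℤˣ)
    (hw : ∀ e, ∃ e', w.T e = M.sp (M.tgt e') ∧ (∀ a ∈ M.sp (M.src (Lo.op e')), a ∉ w.B (rev e)) ∧
      (∀ a ∈ M.sp (M.src e'), a ∉ w.B e) ∧
      Md.p2 M e' (Lo.ω e') (fun a b c => m.mer e a b * m.mer (rev e) b c) = u) :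
    N.DegA m O (Units.map (Int.castRingHom k).toMonoidHom u) 3 := by
  refine degA_of hD m _ fun e => ?_
  obtain ⟨e', a1, a2, a3, a4⟩ := hw e
  have := t2_coc (k := k) m e
  rw [Wl.Ct, a1, hΓ] at this
  rw [a1, dg_wal2 Lo hH e' a2 (fun a ha => (w.tri e a).imp (fun t => by rwa [a1] at t)
    fun t => t.resolve_left (a3 a ha)) this]
  exact congrArg Neg.neg ((p2_cast k _ _ _).trans (congrArg Int.cast a4))

end gen

open Pt Da

variable {G' : Subgroup D.mir.G} [G'.FiniteIndex] {T : Type} [TopologicalSpace T]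
  [MulAction G' T] [ContinuousConstSMul G' T] {K0 : Set T} {h : FD 4 G' K0}
  {L : Lab G' (D.mir.ug.res G').X} {k : Type} [Field k]
  {w : Wl (Fin 3) (St (Fin 3) (Fin 112) (Fin 16))} {F' : Subgroup (FreeGroup (Fin 3))} [MulAction F' T]

/-- **(L3)** for the model -/
theorem degA_D (g : Mp (cell (D.mir.ug.res G').fr k L) (h.sing k))
    (hc : LFc (m := 3) (D.mir.ug.res G').fr fun x => (cham.oc x.1 : k)) (E : Av G' F' T)
    (N : Lev w F' T) (hΓ : w.Γ = D.Gt) (hT : ∀ e, w.T e = supE e) (hB : ∀ e, w.B e = A e)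
    (hr : ∀ x, N.r x = E.rr x) (hl : ∀ x, N.lab x = E.lab x) (m : En.Md w)
    (hm : ∀ e, ∀ a ∈ supE e, ∀ b ∈ supE e, Md.Cl D.Gt a b → m.mer e a b = Md.sE e.k.2 a b) :
    N.DegA m (ori g hc) (-1) 3 := by
  have := degA_loc loc (H := cham) rfl (dt_av cham (sp_fin loc) g hc E N hΓ hr fun d =>
    ⟨4 * d, fun x y a b => hl x ▸ lb_init' D b a⟩) hΓ m (-1) fun e => ⟨e, (hT e).trans
      (coe_sp (tgt e)).symm, fun a ha => ?_, fun a ha => ?_, ?_⟩
  · simpa using this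
  · obtain ⟨b, rfl⟩ := mem_sp.1 ha
    exact hB _ ▸ cp_nmem_A (hs_hd e) b
  · obtain ⟨b, rfl⟩ := mem_sp.1 ha
    rw [hB, ← rev_rev e]
    exact cp_nmem_A (by simpa using hs_hd (rev e)) b
  · rw [p2_congr (loc.cω e) (ψ := fun a b c => Md.sE e.k.2 a b * Md.sE (!e.k.2) b c)
      fun a ha b hb c hc h1 h3 => ?_, Md.p2_sE]
    · rfl
    rw [hm e a (mem_sp.1 ha) b (mem_sp.1 hb) (.inr h1), hm (rev e) b (supE_rev e ▸ mem_sp.1 hb) c
      (supE_rev e ▸ mem_sp.1 hc) (.inr h3)]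
    rfl

theorem deg_D (g : Mp (cell (D.mir.ug.res G').fr k L) (h.sing k))
    (hc : LFc (m := 3) (D.mir.ug.res G').fr fun x => (cham.oc x.1 : k)) (E : Av G' F' T)
    (N : Lev w F' T) (hΓ : w.Γ = D.Gt) (hT : ∀ e, w.T e = supE e) (hB : ∀ e, w.B e = A e)
    (hr : ∀ x, N.r x = E.rr x) (hl : ∀ x, N.lab x = E.lab x) (m : En.Md w)
    (hm : ∀ e, ∀ a ∈ supE e, ∀ b ∈ supE e, Md.Cl D.Gt a b → m.mer e a b = Md.sE e.k.2 a b) :
    N.Deg m (ori g hc) (-1) := (degA_D g hc E N hΓ hT hB hr hl m hm).deg (by norm_num)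

end Crest.Agent.N255.Dg
end
end

-- ▼ part N255/Fa/Bar
section

/-!
# Row 255 (helper44): the complex of tuples of `G`, maps of sets act on it, controlled homotopies
-/

set_option autoImplicit false
open Set Finsupp
open scoped Pointwise

noncomputable section

namespace Crest.Agent.N255.Fa

open Crest.Agent.N255.Gs

/-- tuples of length `n + 1` -/
def Bt (G : Type) : ℕ → Type
  | 0 => G
  | n + 1 => G × Bt G n

namespace Bt

variable {G : Type}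

/-- the set of entries -/
def ent : ∀ {n : ℕ}, Bt G n → Set G
  | 0, g => {g}
  | _ + 1, x => insert x.1 (ent x.2)

/-- the first entry -/
def hd : ∀ {n : ℕ}, Bt G n → G
  | 0, g => g
  | _ + 1, x => x.1

/-- entrywise maps -/
def mp (φ : G → G) : ∀ {n : ℕ}, Bt G n → Bt G n
  | 0, g => φ g
  | _ + 1, x => (φ x.1, mp φ x.2)

theorem hd_mem : ∀ {n : ℕ} (x : Bt G n), hd x ∈ ent x
  | 0, _ => rfl
  | _ + 1, _ => mem_insert _ _

theorem hd_mp (φ : G → G) : ∀ {n : ℕ} (x : Bt G n), hd (mp φ x) = φ (hd x)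
  | 0, _ => rfl
  | _ + 1, _ => rfl

theorem ent_fin : ∀ {n : ℕ} (x : Bt G n), (ent x).Finite
  | 0, _ => finite_singleton _
  | _ + 1, x => (ent_fin x.2).insert _

theorem ent_mp (φ : G → G) : ∀ {n : ℕ} (x : Bt G n), ent (mp φ x) = φ '' ent x
  | 0, _ => image_singleton.symm
  | _ + 1, x => by
    show insert (φ x.1) (ent (mp φ x.2)) = φ '' insert x.1 (ent x.2)
    rw [ent_mp, image_insert_eq]

theorem mp_id : ∀ {n : ℕ} (x : Bt G n), mp (fun g => g) x = x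
  | 0, _ => rfl
  | _ + 1, x => Prod.ext rfl (mp_id x.2)

theorem mp_mp (φ ψ : G → G) : ∀ {n : ℕ} (x : Bt G n), mp φ (mp ψ x) = mp (fun g => φ (ψ g)) x
  | 0, _ => rfl
  | _ + 1, x => Prod.ext rfl (mp_mp φ ψ x.2)

instance act [Group G] (n : ℕ) : MulAction G (Bt G n) where
  smul g := mp (g * ·)
  one_smul x := by
    show mp (fun h => 1 * h) x = x
    simp only [one_mul, mp_id]
  mul_smul g h x := by
    show mp (fun a => g * h * a) x = mp (g * ·) (mp (h * ·) x)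
    simp only [mp_mp, mul_assoc]

theorem smul_def [Group G] {n : ℕ} (g : G) (x : Bt G n) : g • x = mp (g * ·) x := rfl

/-- shadows -/
def sh (G : Type) [Group G] (n : ℕ) : Sh G (Bt G n) where
  sh := ent
  fin := ent_fin
  ne x := ⟨_, hd_mem x⟩
  smul g x := ent_mp _ x
  free g x e := by
    have := congrArg hd e
    rw [smul_def, hd_mp] at this
    exact mul_eq_right.1 this

/-- a vertex -/
def pt (a : G) : Bt G 0 := a

/-- adding an entry -/
def cons {n : ℕ} (a : G) (x : Bt G n) : Bt G (n + 1) := (a, x)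



theorem mp_pt (φ : G → G) (a : G) : mp φ (pt a) = pt (φ a) := rfl

theorem mp_cons (φ : G → G) {n : ℕ} (a : G) (x : Bt G n) :
    mp φ (cons a x) = cons (φ a) (mp φ x) := rfl

theorem exists_cons {n : ℕ} (x : Bt G (n + 1)) : ∃ a y, x = cons a y := ⟨x.1, x.2, rfl⟩

variable (k : Type) [CommRing k]

/-- cone -/
def cn (a : G) (n : ℕ) : (Bt G n →₀ k) →ₗ[k] (Bt G (n + 1) →₀ k) := lmapDomain k k (cons a)

/-- the chain map of a map of sets -/
def mc (φ : G → G) (n : ℕ) : (Bt G n →₀ k) →ₗ[k] (Bt G n →₀ k) := lmapDomain k k (mp φ)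

/-- boundary -/
def d : ∀ n, (Bt G (n + 1) →₀ k) →ₗ[k] (Bt G n →₀ k)
  | 0 => linearCombination k fun x => single x.2 1 - single (pt x.1) 1
  | n + 1 => linearCombination k fun x => single x.2 1 - cn k x.1 n (d n (single x.2 1))

/-- chains with entries in `S` -/
def W (S : Set G) (n : ℕ) : Submodule k (Bt G n →₀ k) := supported k k {x | ent x ⊆ S}

variable {k}

theorem cn_single (a : G) {n : ℕ} (x : Bt G n) (r : k) :
    cn k a n (single x r) = single (cons a x) r := mapDomain_single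

theorem mc_single (φ : G → G) {n : ℕ} (x : Bt G n) (r : k) :
    mc k φ n (single x r) = single (mp φ x) r := mapDomain_single

theorem ext1 {A V : Type} [AddCommGroup V] [Module k V] {S T : (A →₀ k) →ₗ[k] V}
    (h : ∀ a, S (single a 1) = T (single a 1)) (c : A →₀ k) : S c = T c :=
  LinearMap.congr_fun (lhom_ext' fun a => LinearMap.ext_ring (h a)) c

theorem ext2 {n : ℕ} {V : Type} [AddCommGroup V] [Module k V] {S T : (Bt G (n + 1) →₀ k) →ₗ[k] V}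
    (h : ∀ a x, S (cn k a n (single x 1)) = T (cn k a n (single x 1))) (c : Bt G (n + 1) →₀ k) :
    S c = T c := ext1 (fun x => by
  obtain ⟨a, y, rfl⟩ := exists_cons x
  rw [← cn_single, h]) c

theorem d_zero (a : G) (x : Bt G 0) :
    d k 0 (single (cons a x) 1) = single x 1 - single (pt a) 1 :=
  (linearCombination_single k (1 : k) _).trans (one_smul _ _)

theorem d_succ {n : ℕ} (a : G) (x : Bt G (n + 1)) :
    d k (n + 1) (single (cons a x) 1) = single x 1 - cn k a n (d k n (single x 1)) :=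
  (linearCombination_single k (1 : k) _).trans (one_smul _ _)

theorem d_cn0 (a : G) (c : Bt G 0 →₀ k) :
    d k 0 (cn k a 0 c) = c - au k _ c • single (pt a) 1 :=
  ext1 (S := d k 0 ∘ₗ cn k a 0) (T := LinearMap.id - (au k _).smulRight _) (fun x => by
    show d k 0 (cn k a 0 (single x 1)) = single x 1 - au k _ (single x 1) • single (pt a) 1
    rw [cn_single, d_zero, au_single, one_smul]) c

theorem d_cn (a : G) {n : ℕ} (c : Bt G (n + 1) →₀ k) :
    d k (n + 1) (cn k a (n + 1) c) = c - cn k a n (d k n c) :=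
  ext1 (S := d k (n + 1) ∘ₗ cn k a (n + 1)) (T := LinearMap.id - cn k a n ∘ₗ d k n) (fun x => by
    show d k (n + 1) (cn k a (n + 1) (single x 1)) = single x 1 - cn k a n (d k n (single x 1))
    rw [cn_single, d_succ]) c

theorem au_d (c : Bt G 1 →₀ k) : au k _ (d k 0 c) = 0 :=
  ext2 (S := au k _ ∘ₗ d k 0) (T := 0) (fun a x => by
    show au k _ (d k 0 (cn k a 0 (single x 1))) = 0
    rw [d_cn0, map_sub, map_smul, au_single, au_single, smul_eq_mul, mul_one, sub_self]) c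

theorem d_d : ∀ (n : ℕ) (c : Bt G (n + 2) →₀ k), d k n (d k (n + 1) c) = 0
  | 0 => ext2 (S := d k 0 ∘ₗ d k 1) (T := 0) fun a x => by
    show d k 0 (d k (0 + 1) (cn k a (0 + 1) (single x 1))) = 0
    rw [d_cn, map_sub, d_cn0, au_d, zero_smul, sub_zero, sub_self]
  | n + 1 => ext2 (S := d k (n + 1) ∘ₗ d k (n + 2)) (T := 0) fun a x => by
    show d k (n + 1) (d k (n + 1 + 1) (cn k a (n + 1 + 1) (single x 1))) = 0
    rw [d_cn, map_sub, d_cn, d_d n, map_zero, sub_zero, sub_self]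

theorem mc_cn (φ : G → G) (a : G) {n : ℕ} (c : Bt G n →₀ k) :
    mc k φ (n + 1) (cn k a n c) = cn k (φ a) n (mc k φ n c) :=
  ext1 (S := mc k φ (n + 1) ∘ₗ cn k a n) (T := cn k (φ a) n ∘ₗ mc k φ n) (fun x => by
    show mc k φ (n + 1) (cn k a n (single x 1)) = cn k (φ a) n (mc k φ n (single x 1))
    rw [cn_single, mc_single, mc_single, cn_single, mp_cons]) c

theorem au_mc (φ : G → G) {n : ℕ} (c : Bt G n →₀ k) : au k _ (mc k φ n c) = au k _ c :=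
  ext1 (S := au k _ ∘ₗ mc k φ n) (T := au k _) (fun x => by
    show au k _ (mc k φ n (single x 1)) = _
    rw [mc_single, au_single, au_single]) c

theorem d_mc (φ : G → G) : ∀ (n : ℕ) (c : Bt G (n + 1) →₀ k),
    d k n (mc k φ (n + 1) c) = mc k φ n (d k n c)
  | 0 => ext2 (S := d k 0 ∘ₗ mc k φ 1) (T := mc k φ 0 ∘ₗ d k 0) fun a x => by
    show d k 0 (mc k φ (0 + 1) (cn k a 0 (single x 1))) = mc k φ 0 (d k 0 (cn k a 0 (single x 1)))
    rw [mc_cn, d_cn0, d_cn0, map_sub, map_smul, au_mc, mc_single φ (pt a), mp_pt]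
  | n + 1 => ext2 (S := d k (n + 1) ∘ₗ mc k φ (n + 2)) (T := mc k φ (n + 1) ∘ₗ d k (n + 1))
    fun a x => by
      show d k (n + 1) (mc k φ (n + 1 + 1) (cn k a (n + 1) (single x 1))) =
        mc k φ (n + 1) (d k (n + 1) (cn k a (n + 1) (single x 1)))
      rw [mc_cn, d_cn, d_cn, map_sub, mc_cn, d_mc φ n]

theorem W_mono {S S' : Set G} (h : S ⊆ S') (n : ℕ) : W k S n ≤ W k S' n :=
  supported_mono fun _ hx => hx.trans h

theorem single_mem {S : Set G} {n : ℕ} {x : Bt G n} (h : ent x ⊆ S) : single x 1 ∈ W k S n :=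
  single_mem_supported k 1 h

theorem cn_mem {S : Set G} {a : G} (ha : a ∈ S) {n : ℕ} {c : Bt G n →₀ k} (hc : c ∈ W k S n) :
    cn k a n c ∈ W k S (n + 1) :=
  map_mem_of (fun x hx => by rw [cn_single]; exact single_mem (insert_subset ha hx)) hc

theorem mc_mem (φ : G → G) {S : Set G} {n : ℕ} {c : Bt G n →₀ k} (hc : c ∈ W k S n) :
    mc k φ n c ∈ W k (φ '' S) n :=
  map_mem_of (fun x hx => by
    rw [mc_single]; exact single_mem (by rw [ent_mp]; exact image_mono hx)) hc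

theorem d_mem {S : Set G} : ∀ {n : ℕ} {c : Bt G (n + 1) →₀ k}, c ∈ W k S (n + 1) →
    d k n c ∈ W k S n
  | 0, _, hc => map_mem_of (fun x hx => by
    obtain ⟨a, y, rfl⟩ := exists_cons x
    rw [d_zero]
    exact sub_mem (single_mem ((subset_insert a _).trans hx))
      (single_mem (singleton_subset_iff.2 (hx (mem_insert _ _))))) hc
  | _ + 1, _, hc => map_mem_of (fun x hx => by
    obtain ⟨a, y, rfl⟩ := exists_cons x
    rw [d_succ]
    have h2 := single_mem (k := k) (x := y) ((subset_insert a _).trans hx)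
    exact sub_mem h2 (cn_mem (hx (mem_insert _ _)) (d_mem h2))) hc

/-- the homotopy from the identity to the chain map of `φ` -/
def ht (k : Type) [CommRing k] (φ : G → G) : ∀ n, (Bt G n →₀ k) →ₗ[k] (Bt G (n + 1) →₀ k)
  | 0 => linearCombination k fun x => cn k (hd x) 0 (single x 1 - mc k φ 0 (single x 1))
  | n + 1 => linearCombination k fun x => cn k (hd x) (n + 1)
      (single x 1 - mc k φ (n + 1) (single x 1) - ht k φ n (d k n (single x 1)))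

theorem ht_zero (φ : G → G) (x : Bt G 0) :
    ht k φ 0 (single x 1) = cn k (hd x) 0 (single x 1 - mc k φ 0 (single x 1)) :=
  (linearCombination_single k (1 : k) x).trans (one_smul _ _)

theorem ht_succ (φ : G → G) {n : ℕ} (x : Bt G (n + 1)) :
    ht k φ (n + 1) (single x 1) = cn k (hd x) (n + 1)
      (single x 1 - mc k φ (n + 1) (single x 1) - ht k φ n (d k n (single x 1))) :=
  (linearCombination_single k (1 : k) x).trans (one_smul _ _)

theorem d_ht0 (φ : G → G) (c : Bt G 0 →₀ k) : d k 0 (ht k φ 0 c) = c - mc k φ 0 c :=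
  ext1 (S := d k 0 ∘ₗ ht k φ 0) (T := LinearMap.id - mc k φ 0) (fun x => by
    show d k 0 (ht k φ 0 (single x 1)) = single x 1 - mc k φ 0 (single x 1)
    rw [ht_zero, d_cn0, map_sub, au_mc, sub_self, zero_smul, sub_zero]) c

theorem d_ht (φ : G → G) : ∀ (n : ℕ) (c : Bt G (n + 1) →₀ k),
    d k (n + 1) (ht k φ (n + 1) c) = c - mc k φ (n + 1) c - ht k φ n (d k n c)
  | 0 => ext1 (S := d k 1 ∘ₗ ht k φ 1) (T := LinearMap.id - mc k φ 1 - ht k φ 0 ∘ₗ d k 0)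
    fun x => by
      show d k (0 + 1) (ht k φ (0 + 1) (single x 1)) =
        single x 1 - mc k φ (0 + 1) (single x 1) - ht k φ 0 (d k 0 (single x 1))
      rw [ht_succ, d_cn, map_sub (d k 0), map_sub (d k 0), d_mc, d_ht0, sub_self, map_zero,
        sub_zero]
  | n + 1 => ext1 (S := d k (n + 2) ∘ₗ ht k φ (n + 2))
    (T := LinearMap.id - mc k φ (n + 2) - ht k φ (n + 1) ∘ₗ d k (n + 1)) fun x => by
      show d k (n + 1 + 1) (ht k φ (n + 1 + 1) (single x 1)) = single x 1 -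
        mc k φ (n + 1 + 1) (single x 1) - ht k φ (n + 1) (d k (n + 1) (single x 1))
      rw [ht_succ, d_cn, map_sub (d k (n + 1)), map_sub (d k (n + 1)), d_mc, d_ht φ n, d_d,
        map_zero, sub_zero, sub_self, map_zero, sub_zero]

theorem ht_mem (φ : G → G) {S : Set G} : ∀ {n : ℕ} {c : Bt G n →₀ k}, c ∈ W k S n →
    ht k φ n c ∈ W k (S ∪ φ '' S) (n + 1) := by
  have h1 : ∀ {n : ℕ} {x : Bt G n}, ent x ⊆ S →
      single x 1 - mc k φ n (single x 1) ∈ W k (S ∪ φ '' S) n := fun {n x} hx =>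
    sub_mem (single_mem (hx.trans subset_union_left))
      (W_mono (subset_union_right (s := S)) n (mc_mem φ (single_mem hx)))
  have h2 : ∀ {n : ℕ} {x : Bt G n}, ent x ⊆ S → hd x ∈ S ∪ φ '' S := fun hx =>
    Or.inl (hx (hd_mem _))
  intro n
  induction n with
  | zero =>
    intro c hc
    refine map_mem_of (fun x hx => ?_) hc
    rw [ht_zero]
    exact cn_mem (h2 hx) (h1 hx)
  | succ n ih =>
    intro c hc
    refine map_mem_of (fun x hx => ?_) hc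
    rw [ht_succ]
    exact cn_mem (h2 hx) (sub_mem (h1 hx) (ih (d_mem (single_mem hx))))

end Bt

/-- the complex of tuples -/
def bar (k : Type) [CommRing k] (G : Type) [Group G] : Cx k G (Bt G) where
  P := Bt.sh G
  d := Bt.d k
  eqv n g c := Bt.d_mc (g * ·) n c
  ctl _ S hS := ⟨S, hS, fun _ hc => Bt.d_mem hc⟩
  dd := Bt.d_d
  aud := Bt.au_d
  uf0 S hS := ⟨insert 1 S, hS.insert 1, fun c hc h0 => ⟨Bt.cn k 1 0 c,
    Bt.cn_mem (mem_insert _ _) (Bt.W_mono (subset_insert _ _) _ hc), by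
      rw [Bt.d_cn0, LinearMap.mem_ker.1 h0, zero_smul, sub_zero]⟩⟩
  uf n S hS := ⟨insert 1 S, hS.insert 1, fun c hc h0 => ⟨Bt.cn k 1 (n + 1) c,
    Bt.cn_mem (mem_insert _ _) (Bt.W_mono (subset_insert _ _) _ hc), by
      rw [Bt.d_cn, LinearMap.mem_ker.1 h0, map_zero, sub_zero]⟩⟩
  ne := ⟨(1 : G)⟩

end Crest.Agent.N255.Fa

end
end

-- ▼ part N255/Fa/Co
section

/-!
# Row 255 (helper44): (FO) a map of sets `φ : G → G` acts on every uniformly acyclic complex,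
with control which depends only on the displacement; transfer of pro-acyclicity along `φ`
-/

set_option autoImplicit false
open Set Finsupp
open scoped Pointwise

noncomputable section

namespace Crest.Agent.N255.Fa

open Crest.Agent.N255.Gs Crest.Agent.N255.Tp Crest.Agent.N255.Uc

variable {G : Type} [Group G]

section alg

variable {k : Type} [CommRing k]

/-- a control function of a controlled equivariant map -/
theorem exists_ct {A B : Type} [MulAction G A] [MulAction G B] {P : Sh G A} {Q : Sh G B}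
    {F : (A →₀ k) →ₗ[k] (B →₀ k)} (h : Ctl P Q F) (he : Eqv G F) :
    ∃ c : Set G → Set G, ∀ S, S.Finite → (c S).Finite ∧
      ∀ g : G, ∀ x ∈ P.W k (g • S), F x ∈ Q.W k (g • c S) := by
  have : ∀ S : Set G, ∃ S' : Set G, S.Finite → S'.Finite ∧
      ∀ g : G, ∀ x ∈ P.W k (g • S), F x ∈ Q.W k (g • S') := fun S => by
    by_cases hS : S.Finite
    · obtain ⟨S', h1, h2, -⟩ := h.unif he hS
      exact ⟨S', fun _ => ⟨h1, h2⟩⟩
    · exact ⟨∅, fun h => (hS h).elim⟩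
  exact ⟨fun S => (this S).choose, fun S => (this S).choose_spec⟩

variable {A : ℕ → Type} [∀ n, MulAction G (A n)]

/-- a chain map near `φ` and a homotopy to the identity -/
structure Fo (X : Cx k G A) (s c : ℕ → Set G → Set G) (φ : G → G) where
  F : ∀ n, (A n →₀ k) →ₗ[k] (A n →₀ k)
  H : ∀ n, (A n →₀ k) →ₗ[k] (A (n + 1) →₀ k)
  ch : ∀ n x, X.d n (F (n + 1) x) = F n (X.d n x)
  au : ∀ x, au k _ (F 0 x) = au k _ x
  h0 : ∀ x, X.d 0 (H 0 x) = x - F 0 x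
  hs : ∀ n x, X.d (n + 1) (H (n + 1) x) + H n (X.d n x) = x - F (n + 1) x
  cF : ∀ n (S D : Set G) (u v : G), S.Finite → D.Finite → φ '' (u • s n S) ⊆ v • D →
    ∀ x ∈ (X.P n).W k (u • S), F n x ∈ (X.P n).W k (v • c n D)
  cH : ∀ n (S D : Set G) (u : G), S.Finite → D.Finite → u • s n S ∪ φ '' (u • s n S) ⊆ u • D →
    ∀ x ∈ (X.P n).W k (u • S), H n x ∈ (X.P (n + 1)).W k (u • c n D)

/-- **(FO)**: the control functions do not depend on `φ` -/
theorem exists_fo [Countable G] (X : Cx k G A) : ∃ s c : ℕ → Set G → Set G,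
    (∀ n S, S.Finite → (s n S).Finite) ∧ (∀ n D, D.Finite → (c n D).Finite) ∧
      ∀ φ : G → G, Nonempty (Fo X s c φ) := by
  obtain ⟨f⟩ := exists_mp X (bar k G)
  obtain ⟨g⟩ := exists_mp (bar k G) X
  obtain ⟨h⟩ := exists_ht (g.comp f) (Mp.id X)
  choose cf hf using fun n => exists_ct (f.ctl n) (f.eqv n)
  choose cg hg using fun n => exists_ct (g.ctl n) (g.eqv n)
  choose ch hh using fun n => exists_ct (h.ctl n) (h.eqv n)
  have gc : ∀ n y, X.d n (g.f (n + 1) y) = g.f n (Bt.d k n y) := g.ch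
  have fc : ∀ n x, Bt.d k n (f.f (n + 1) x) = f.f n (X.d n x) := f.ch
  refine ⟨fun n S => cf n S ∪ ch n S, fun n D => cg n D ∪ cg (n + 1) D ∪ D,
    fun n S hS => (hf n S hS).1.union (hh n S hS).1,
    fun n D hD => ((hg n D hD).1.union (hg (n + 1) D hD).1).union hD, fun φ => ⟨{
      F := fun n => g.f n ∘ₗ Bt.mc k φ n ∘ₗ f.f n
      H := fun n => g.f (n + 1) ∘ₗ Bt.ht k φ n ∘ₗ f.f n - h.h n
      ch := fun n x => ?_
      au := fun x => ?_
      h0 := fun x => ?_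
      hs := fun n x => ?_
      cF := fun n S D u v hS hD e x hx => ?_
      cH := fun n S D u hS hD e x hx => ?_ }⟩⟩
  · show X.d n (g.f (n + 1) (Bt.mc k φ (n + 1) (f.f (n + 1) x))) =
      g.f n (Bt.mc k φ n (f.f n (X.d n x)))
    rw [gc, Bt.d_mc, fc]
  · show au k _ (g.f 0 (Bt.mc k φ 0 (f.f 0 x))) = _
    rw [g.au, Bt.au_mc, f.au]
  · show X.d 0 (g.f (0 + 1) (Bt.ht k φ 0 (f.f 0 x)) - h.h 0 x) =
      x - g.f 0 (Bt.mc k φ 0 (f.f 0 x))
    have e : X.d 0 (h.h 0 x) = g.f 0 (f.f 0 x) - x := h.h0 x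
    rw [map_sub, gc, Bt.d_ht0, e, map_sub]
    abel
  · show X.d (n + 1) (g.f (n + 1 + 1) (Bt.ht k φ (n + 1) (f.f (n + 1) x)) - h.h (n + 1) x) +
      (g.f (n + 1) (Bt.ht k φ n (f.f n (X.d n x))) - h.h n (X.d n x)) =
      x - g.f (n + 1) (Bt.mc k φ (n + 1) (f.f (n + 1) x))
    have e : X.d (n + 1) (h.h (n + 1) x) = g.f (n + 1) (f.f (n + 1) x) - x - h.h n (X.d n x) :=
      eq_sub_of_add_eq (h.hs n x)
    rw [map_sub, gc, Bt.d_ht, e, map_sub, map_sub, fc]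
    abel
  · have h1 : f.f n x ∈ Bt.W k (u • cf n S) n := (hf n S hS).2 u x hx
    have h2 : Bt.mc k φ n (f.f n x) ∈ Bt.W k (v • D) n :=
      Bt.W_mono ((image_mono (smul_set_mono subset_union_left)).trans e) n (Bt.mc_mem φ h1)
    exact (X.P n).W_mono (smul_set_mono (subset_union_left.trans subset_union_left))
      ((hg n D hD).2 v _ h2)
  · have h1 : f.f n x ∈ Bt.W k (u • cf n S) n := (hf n S hS).2 u x hx
    have h2 : Bt.ht k φ n (f.f n x) ∈ Bt.W k (u • D) (n + 1) :=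
      Bt.W_mono ((union_subset_union (smul_set_mono subset_union_left)
        (image_mono (smul_set_mono subset_union_left))).trans e) _ (Bt.ht_mem φ h1)
    refine sub_mem ((X.P _).W_mono (smul_set_mono (subset_union_right.trans subset_union_left))
      ((hg (n + 1) D hD).2 u _ h2)) ((X.P _).W_mono ?_ ((hh n S hS).2 u x hx))
    exact (((smul_set_mono subset_union_right).trans subset_union_left).trans e).trans
      (smul_set_mono subset_union_right)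

end alg

section top

variable {T : Type} [TopologicalSpace T] [MulAction G T] [ContinuousConstSMul G T] {d : ℕ}
  {K : Set T}

omit [ContinuousConstSMul G T] in
theorem small_sh {n : ℕ} {A : Set T} {σ : Sx n T} (hσ : σ ∈ ((On A).inf (Sm (FD.cvr G K))).S n) :
    ∃ g ∈ shs G K A, sh G K σ ⊆ g • shs G K K := by
  obtain ⟨h0, _, ⟨g, rfl⟩, hσ⟩ := hσ
  have h1 : ∀ x ∈ range σ, g⁻¹ • x ∈ K := fun x hx => by
    obtain ⟨g', e, h1⟩ := hσ hx
    rw [show g' = g from e] at h1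
    exact interior_subset h1
  exact ⟨g, ⟨_, h0 ⟨stdSimplex.vertex 0, rfl⟩, h1 _ ⟨_, rfl⟩⟩, fun a ⟨x, hx, ha⟩ =>
    ⟨g⁻¹ * a, ⟨_, h1 x hx, by simpa [smul_smul] using ha⟩, mul_inv_cancel_left g a⟩⟩

omit [ContinuousConstSMul G T] in
theorem zero_small (h : FD d G K) (k : Type) [CommRing k] (A : Set T) :
    (On A).ch k 0 ≤ ((On A).inf (Sm (FD.cvr G K))).ch k 0 :=
  supported_mono fun σ hσ => ⟨hσ, by
    obtain ⟨U, hU, hx⟩ := h.cvr_cover univ (mem_univ (σ (stdSimplex.vertex 0)))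
    exact ⟨U, hU, by rw [Tp.range_zero]; exact singleton_subset_iff.2 hx⟩⟩

/-- **transfer of pro-acyclicity along a map of sets** (degrees `≤ N`) -/
theorem acy_fold_le (h : FD d G K) (k : Type) [Field k] (N : ℕ) :
    ∃ (S : Set G) (c : Set G → Set G), S.Finite ∧ (∀ D, D.Finite → (c D).Finite) ∧
      ∀ (φ : G → G) (A V V' B : Set T), A ⊆ V → A ⊆ B → Acy k V V' →
      (∀ u ∈ shs G K V', ∃ (v : G) (D : Set G), D.Finite ∧ φ '' (u • S) ⊆ v • D ∧
        sat (v • c D) K ⊆ B) →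
      (∀ u ∈ shs G K A, ∃ D : Set G, D.Finite ∧ u • S ∪ φ '' (u • S) ⊆ u • D ∧
        sat (u • c D) K ⊆ B) →
      ∀ n ≤ N, (On A).ch k n ⊓ rcyc k T n ≤ (On B).B k n := by
  have := gm_countable h.gm
  obtain ⟨s, c, hs, hc, hφ⟩ := exists_fo (h.sing k)
  have e1 : ∀ n ≤ N + 1, s n (shs G K K) ⊆ ⋃ n ∈ Iic (N + 1), s n (shs G K K) := fun n hn =>
    subset_biUnion_of_mem (u := fun n => s n (shs G K K)) hn
  have e2 : ∀ D, ∀ n ≤ N + 1, c n D ⊆ ⋃ n ∈ Iic (N + 1), c n D := fun D n hn =>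
    subset_biUnion_of_mem (u := fun n => c n D) hn
  refine ⟨⋃ n ∈ Iic (N + 1), s n (shs G K K), fun D => ⋃ n ∈ Iic (N + 1), c n D,
    (finite_Iic _).biUnion fun n _ => hs n _ h.nb_finite,
    fun D hD => (finite_Iic _).biUnion fun n _ => hc n D hD,
    fun φ A V V' B hAV hAB hV h1 h2 n hn => ?_⟩
  obtain ⟨F⟩ := hφ φ
  have mF : ∀ m ≤ N + 1, ∀ x ∈ ((On V').inf (Sm (FD.cvr G K))).ch k m,
      F.F m x ∈ (On B).ch k m := fun m hm x hx => map_mem_of (fun σ hσ => by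
    obtain ⟨u, hu, e⟩ := small_sh hσ
    obtain ⟨v, D, a1, a2, a3⟩ := h1 u hu
    exact ch_mono ((sat_mono (smul_set_mono (e2 D m hm)) Subset.rfl).trans a3) (h.W_le_On k _
      (F.cF m _ D u v h.nb_finite a1 ((image_mono (smul_set_mono (e1 m hm))).trans a2) _
        ((h.shS m).single_mem e 1)))) hx
  have mH : ∀ m ≤ N + 1, ∀ x ∈ ((On A).inf (Sm (FD.cvr G K))).ch k m,
      F.H m x ∈ (On B).ch k (m + 1) := fun m hm x hx => map_mem_of (fun σ hσ => by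
    obtain ⟨u, hu, e⟩ := small_sh hσ
    obtain ⟨D, a1, a2, a3⟩ := h2 u hu
    exact ch_mono ((sat_mono (smul_set_mono (e2 D m hm)) Subset.rfl).trans a3) (h.W_le_On k _
      (F.cH m _ D u h.nb_finite a1 ((union_subset_union (smul_set_mono (e1 m hm))
        (image_mono (smul_set_mono (e1 m hm)))).trans a2) _ ((h.shS m).single_mem e 1)))) hx
  have key : ∀ z ∈ ((On A).inf (Sm (FD.cvr G K))).ch k n, z ∈ rcyc k T n →
      bd k (F.H n z) = z - F.F n z → z ∈ (On B).B k n := fun z hz h0 e => by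
    obtain ⟨b, hb, e'⟩ := hV n ⟨ch_mono hAV (Sb.ch_mono Sb.inf_le_left hz), h0⟩
    obtain ⟨b', hb', e''⟩ := smChS_holds k T V' _ FD.cvr_open (h.cvr_cover _) n b hb
      (e' ▸ Sb.ch_mono Sb.inf_le_right hz)
    have e3 : bd k b' = z := by
      have : bd k (b - b') = 0 := Sb.B_le_cyc e''
      rwa [map_sub, e', sub_eq_zero, eq_comm] at this
    have e4 : bd k (F.F (n + 1) b') = F.F n (bd k b') := F.ch n b'
    exact ⟨F.H n z + F.F (n + 1) b', add_mem (mH n (by omega) z hz) (mF _ (by omega) b' hb'), by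
      rw [map_add, e, e4, e3, sub_add_cancel]⟩
  rintro z ⟨hz, h0⟩
  rcases n with _ | n
  · exact key z (zero_small h k A hz) h0 (F.h0 z)
  · obtain ⟨z', hz', e⟩ := smChS_holds k T A _ FD.cvr_open (h.cvr_cover _) n z hz
      (by rw [show bd k z = 0 from h0]; exact zero_mem _)
    have e3 : bd k z' = 0 := by
      have : bd k (z - z') = 0 := Sb.B_le_cyc e
      rwa [map_sub, show bd k z = 0 from h0, zero_sub, neg_eq_zero] at this
    have e4 : bd k (F.H (n + 1) z') + F.H n (bd k z') = z' - F.F (n + 1) z' := F.hs n z'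
    rw [e3, map_zero, add_zero] at e4
    have := add_mem (B_mono hAB e) (key z' hz' e3 e4)
    rwa [sub_add_cancel] at this

/-- **transfer of pro-acyclicity along a map of sets** in an oriented manifold -/
theorem acy_fold [T2Space T] {m : ℕ} [ChartedSpace (EE (m + 1)) T] (h : FD d G K) (k : Type)
    [Field k] {O : Ori k m T} (hO : O.ND)
    (h0 : ∀ φ ∈ Cc k (univ : Set T) k 0, cob k φ = 0 → φ = 0) :
    ∃ (S : Set G) (c : Set G → Set G), S.Finite ∧ (∀ D, D.Finite → (c D).Finite) ∧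
      ∀ (φ : G → G) (A V V' B : Set T), IsOpen A → A ⊆ V → A ⊆ B → Acy k V V' →
      (∀ u ∈ shs G K V', ∃ (v : G) (D : Set G), D.Finite ∧ φ '' (u • S) ⊆ v • D ∧
        sat (v • c D) K ⊆ B) →
      (∀ u ∈ shs G K A, ∃ D : Set G, D.Finite ∧ u • S ∪ φ '' (u • S) ⊆ u • D ∧
        sat (u • c D) K ⊆ B) → Acy k A B := by
  obtain ⟨S, c, a1, a2, a3⟩ := acy_fold_le h k m
  refine ⟨S, c, a1, a2, fun φ A V V' B hA b1 b2 b3 b4 b5 n => ?_⟩
  rcases le_or_gt n m with hn | hn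
  · exact a3 φ A V V' B b1 b2 b3 b4 b5 n hn
  · obtain ⟨n, rfl⟩ : ∃ j, n = j + 1 := ⟨n - 1, by omega⟩
    exact fun z hz => B_mono b2 (hi_van hO h0 hA n (by omega) z hz.1 hz.2)

end top

end Crest.Agent.N255.Fa

end
end

-- ▼ part N255/Fa/Pa1
section

/-!
# Row 255 (helper44): (PA1), the far sets cut by a level are pro-acyclic
-/

set_option autoImplicit false
set_option linter.unusedSectionVars false
open Set
open scoped Pointwise

noncomputable section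

namespace Crest.Agent.N255.Fa

open Gs Tp Uc

section orb

/-- a coarsely dense, proper orbit map -/
structure Orb {G V : Type} [Group G] (dl : V → V → ℕ) (ob : G → V) : Prop where
  symm : ∀ x y, dl x y = dl y x
  tri : ∀ x y z, dl x z ≤ dl x y + dl y z
  lip : ∀ A : Set G, A.Finite → ∃ d, ∀ g, ∀ s ∈ A, dl (ob g) (ob (g * s)) ≤ d
  near : ∀ d, ∃ A : Set G, A.Finite ∧ ∀ g g', dl (ob g) (ob g') ≤ d → g⁻¹ * g' ∈ A
  dense : ∃ d, ∀ v, ∃ g, dl (ob g) v ≤ d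

variable {G Vx T : Type} [Group G] [TopologicalSpace T] [MulAction G T] {d : ℕ}
  {dl : Vx → Vx → ℕ} {ob : G → Vx}

/-- labels of one point are close -/
theorem Orb.lab (O : Orb dl ob) (P : Pu G T) :
    ∃ e, ∀ x, ∀ g ∈ P.lab x, ∀ g' ∈ P.lab x, dl (ob g) (ob g') ≤ e := by
  obtain ⟨e, he⟩ := O.lip _ P.finite_diff
  exact ⟨e, fun x g hg g' hg' => by
    simpa using he g (g⁻¹ * g') ⟨x, g, hg, by simpa using hg'⟩⟩

/-- **transfer of pro-acyclicity along a short map** -/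
theorem Orb.acy (O : Orb dl ob) [T2Space T] {m : ℕ} [ChartedSpace (EE (m + 1)) T] (hG : GM d G T)
    (P : Pu G T) (k : Type) [Field k] {Ω : Ori k m T} (hO : Ω.ND)
    (h0 : ∀ φ ∈ Cc k (univ : Set T) k 0, cob k φ = 0 → φ = 0) :
    ∃ c : ℕ → ℕ, Monotone c ∧ ∀ f : Vx → Vx, (∀ x y, dl (f x) (f y) ≤ dl x y) →
      ∀ A V V' B : Set T, IsOpen A → A ⊆ V → A ⊆ B → Acy k V V' →
      (∀ x ∈ V', ∃ u ∈ P.lab x, ∀ y, (∀ g ∈ P.lab y, dl (f (ob u)) (ob g) ≤ c 0) → y ∈ B) →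
      (∀ x ∈ A, ∃ u ∈ P.lab x, ∀ y,
        (∀ g ∈ P.lab y, dl (ob u) (ob g) ≤ c (dl (ob u) (f (ob u)))) → y ∈ B) → Acy k A B := by
  have := hG.cont
  obtain ⟨K, h⟩ := exists_FD hG
  obtain ⟨S, c, hS, hc, H⟩ := acy_fold h k hO h0
  obtain ⟨L, hL⟩ := O.dense
  choose nr hnr using hL
  choose D hD hD' using O.near
  choose b hb using fun n => O.lip _ (hc _ (hD n))
  obtain ⟨s0, hs0⟩ := O.lip _ hS
  obtain ⟨e, he⟩ := O.lip _ (hG.shs_finite P.cpt h.cpt)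
  have he' : ∀ x g u, g⁻¹ • x ∈ K → u ∈ P.lab x → dl (ob g) (ob u) ≤ e := fun x g u h1 h2 => by
    simpa using he g (g⁻¹ * u) ⟨_, h1, by simpa [smul_smul, Pu.lab] using h2⟩
  have hbb : ∀ n N, n ≤ N → b n ≤ (Finset.range (N + 1)).sup b := fun n N hn =>
    Finset.le_sup (Finset.mem_range.2 (by omega))
  have hm : ∀ n (v g : G), dl (ob v) (ob g) ≤ n → g ∈ v • D n := fun n v g hg =>
    ⟨_, hD' n v g hg, mul_inv_cancel_left v g⟩
  refine ⟨fun n => 2 * e + L + (Finset.range (n + 2 * e + s0 + 2 * L + 1)).sup b,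
    fun n n' hn => Nat.add_le_add_left (Finset.sup_mono (Finset.range_mono (by omega))) _,
    fun f hf A V V' B hA a1 a2 a3 a4 a5 => H (fun g => nr (f (ob g))) A V V' B hA a1 a2 a3
      (fun u' ⟨x, hx, hu'⟩ => ?_) fun u' ⟨x, hx, hu'⟩ => ?_⟩
  · obtain ⟨u, hu, hy⟩ := a4 x hx
    refine ⟨nr (f (ob u')), D (2 * L + s0), hD _, ?_, ?_⟩
    · rintro _ ⟨_, ⟨s, hs, rfl⟩, rfl⟩
      refine hm _ _ _ ?_
      have h1 := O.tri (ob (nr (f (ob u')))) (f (ob u')) (ob (nr (f (ob (u' * s)))))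
      have h2 := O.tri (f (ob u')) (f (ob (u' * s))) (ob (nr (f (ob (u' * s)))))
      have h3 := hnr (f (ob u'))
      have h4 := (O.symm _ _).trans_le (hnr (f (ob (u' * s))))
      have h5 := (hf _ _).trans (hs0 u' s hs)
      show dl _ (ob (nr (f (ob (u' * s))))) ≤ _
      omega
    · rintro y ⟨_, ⟨t, ht, rfl⟩, h1⟩
      refine hy y fun g hg => ?_
      have h2 := he' y _ g h1 hg
      have h3 := (hb _ (nr (f (ob u'))) t ht).trans (hbb _ (0 + 2 * e + s0 + 2 * L) (by omega))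
      have h4 := (O.symm _ _).trans_le (hnr (f (ob u')))
      have h5 := (hf _ _).trans ((O.symm _ _).trans_le (he' x u' u hu' hu))
      have h6 := O.tri (f (ob u)) (f (ob u')) (ob g)
      have h7 := O.tri (f (ob u')) (ob (nr (f (ob u')))) (ob g)
      have h8 := O.tri (ob (nr (f (ob u')))) (ob (nr (f (ob u')) * t)) (ob g)
      simp only [smul_eq_mul] at h2
      beta_reduce
      omega
  · obtain ⟨u, hu, hy⟩ := a5 x hx
    have h5 := he' x u' u hu' hu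
    refine ⟨D (dl (ob u) (f (ob u)) + 2 * e + s0 + 2 * L), hD _, union_subset ?_ ?_, ?_⟩
    · rintro _ ⟨s, hs, rfl⟩
      exact hm _ _ _ ((hs0 u' s hs).trans (by omega))
    · rintro _ ⟨_, ⟨s, hs, rfl⟩, rfl⟩
      refine hm _ _ _ ?_
      have h1 := O.tri (ob u') (ob u) (ob (nr (f (ob (u' * s)))))
      have h2 := O.tri (ob u) (f (ob u)) (ob (nr (f (ob (u' * s)))))
      have h3 := O.tri (f (ob u)) (f (ob u')) (ob (nr (f (ob (u' * s)))))
      have h4 := O.tri (f (ob u')) (f (ob (u' * s))) (ob (nr (f (ob (u' * s)))))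
      have h6 := (O.symm _ _).trans_le (hnr (f (ob (u' * s))))
      have h7 := (hf _ _).trans (hs0 u' s hs)
      have h8 := (hf _ _).trans ((O.symm _ _).trans_le h5)
      show dl _ (ob (nr (f (ob (u' * s))))) ≤ _
      omega
    · rintro y ⟨_, ⟨t, ht, rfl⟩, h1⟩
      refine hy y fun g hg => ?_
      have h2 := he' y _ g h1 hg
      have h3 := (hb _ u' t ht).trans (hbb _ _ le_rfl)
      have h4 := (O.symm _ _).trans_le h5
      have h6 := O.tri (ob u) (ob u') (ob g)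
      have h7 := O.tri (ob u') (ob (u' * t)) (ob g)
      simp only [smul_eq_mul] at h2
      beta_reduce
      omega

end orb

section vert

open Ce Ra Lv

variable {S K F Nd Ed : Type} [DecidableEq S] [Group F] [MulAction F Nd] [MulAction F Ed]
  (M : Mir S K F Nd Ed)

theorem orb [LinearOrder K] [Finite K] (G' : Subgroup M.G) [G'.FiniteIndex] (o : Vt M) :
    Orb (dl M) fun g : G' => g.1.1 • o :=
  ⟨dl_comm', dl_tri', fun _ hA => orb_lip G' o hA, orb_near G' o, orb_dense G' o⟩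

variable {c : ℕ → ℕ} (s : Slow c)

/-- the levels along the track of the fold -/
theorem track (C : ℝ) {ε : ℝ} (hε : 0 < ε) (R : ℕ) : ∃ R', ∀ (x y : Vt M) (Z : Set S),
    R' ≤ rad M x → mu M s Z x ≤ C → dl M x y ≤ c (ds M Z x) →
    R ≤ rad M y ∧ mu M s Z y ≤ mu M s Z x + ε ∧
      ∀ a, mu M s Z x + ε ≤ nu M s a x → nu M s a y ≤ C → nu M s a x ≤ nu M s a y + ε := by
  obtain ⟨R1, h1⟩ := s.ratio (⌈C⌉₊ + 2) 2
  obtain ⟨R2, h2⟩ := s.q_slow C hε 1
  obtain ⟨R3, h3⟩ := s.j_top ⌈3 / ε⌉₊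
  refine ⟨R1 + 2 * R2 + R3 + 2 * R, fun x y Z hx hC hd => ?_⟩
  have p := s.j_pos (rad M x)
  have a1 : s.lam (ds M Z x) ≤ ⌈C⌉₊ * s.j (rad M x) := by
    have : (s.lam (ds M Z x) : ℝ) ≤ ⌈C⌉₊ * s.j (rad M x) :=
      (div_le_iff₀ p).1 (hC.trans (Nat.le_ceil C))
    exact_mod_cast this
  have a2 := s.lam_c (ds M Z x) _ le_rfl
  have a3 : 2 * (ds M Z x + c (ds M Z x) + 4 * ds M Z x + 1) < rad M x := by
    by_contra b
    have := h1 _ (by omega) _ (not_lt.1 b)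
    have := s.one_le_j (rad M x)
    nlinarith
  have b1 := rad_lip x y
  have b2 := rad_lip y x
  have b3 := ds_lip Z x y
  rw [dl_comm'] at b2
  refine ⟨by omega, h2 _ (by omega) _ _ _ (s.lam_step le_rfl (by omega)) (s.j_five (by omega)) hC,
    fun a ha hy => h2 _ (by omega) _ _ _ ?_ (s.j_five (by omega)) hy⟩
  have b4 := n_lip a y x
  rw [dl_comm'] at b4
  by_contra b5
  have b6 : ¬n M a x ≤ 5 * n M a y + 1 := fun e => b5 (s.lam_five e)
  have b7 := s.lam_five (n := ds M Z x + c (ds M Z x)) (n' := n M a x) (by omega)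
  have b8 := s.lam_step (n := ds M Z x) (n' := ds M Z x + c (ds M Z x)) le_rfl le_rfl
  have b9 : (s.lam (n M a x) : ℝ) ≤ s.lam (ds M Z x) + 2 := by exact_mod_cast (by omega)
  have c1 := (Nat.le_ceil _).trans (Nat.cast_le.2 (h3 (rad M x) (by omega)))
  rw [div_le_iff₀ hε] at c1
  rw [mu, nu, Slow.q, Slow.q, le_div_iff₀ p, add_mul, div_mul_cancel₀ _ p.ne'] at ha
  linarith

/-- the levels near the image of the fold -/
theorem image_fv (C : ℝ) {ε : ℝ} (hε : 0 < ε) (R d : ℕ) : ∃ R', ∀ (x y : Vt M) (Z : Set S) (a : S),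
    R' ≤ rad M x → a ∉ Z → ε ≤ nu M s a x → dl M (fv Z x) y ≤ d →
    R ≤ rad M y ∧ mu M s Z y ≤ ε ∧ (nu M s a y ≤ C → nu M s a x ≤ nu M s a y + ε) := by
  obtain ⟨R1, h1⟩ := mu_slow M s (max C 0) hε d
  obtain ⟨R2, h2⟩ := s.j_top ⌈(s.lam (R1 + R + d) + 1) / ε⌉₊
  refine ⟨R2, fun x y Z a hx ha he hd => ?_⟩
  have p := s.j_pos (rad M x)
  have a1 : R1 + R + d ≤ n M a x := by
    by_contra b
    have b1 : (s.lam (n M a x) : ℝ) ≤ s.lam (R1 + R + d) := Nat.cast_le.2 (s.lam_mono (by omega))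
    have c1 := (Nat.le_ceil _).trans (Nat.cast_le.2 (h2 _ hx))
    rw [div_le_iff₀ hε] at c1
    rw [nu, Slow.q, le_div_iff₀ p] at he
    linarith
  have a2 := (n_le_fv ha x).trans (n_le_rad a _)
  have a3 := rad_lip y (fv Z x)
  rw [dl_comm'] at a3
  have a4 : mu M s Z (fv Z x) = 0 := by rw [mu, ds_fv, s.q_zero]
  have a5 : nu M s a x ≤ nu M s a (fv Z x) := s.q_mono (n_le_fv ha x) (rad_fv Z x)
  refine ⟨by omega, ?_, fun hy => a5.trans ((h1 _ y (by omega) hd {a}).2 (hy.trans (le_max_left _ _)))⟩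
  simpa [a4] using (h1 _ y (by omega) hd Z).1 (by simp [a4])

end vert

section pa

open Ce Ra Lv En Pt

variable {ι I Tor K : Type} [DecidableEq ι] [Fintype ι] [Fintype I] [Fintype Tor] [DecidableEq I]
  [DecidableEq Tor] [Nonempty I] [LinearOrder K] [Finite K] (D : Dt ι I Tor K)
  (G' : Subgroup D.mir.G) [G'.FiniteIndex] (o : Vt D.mir)
  {T : Type} [TopologicalSpace T] [MulAction G' T] {d : ℕ}


end pa

end Crest.Agent.N255.Fa

end
end

-- ▼ part N255/En/Pa1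
section

/-!
# Row 255 (helper44): the field `pa1` of `Tl`, for any mirror model
-/

set_option autoImplicit false
set_option linter.unusedSectionVars false
open Set

noncomputable section

namespace Crest.Agent.N255.En

open Gs Tp Uc Ce Ra Lv Pt Fa

section gen

variable {S K F0 Nd' Ed' : Type} [DecidableEq S] [Group F0] [MulAction F0 Nd'] [MulAction F0 Ed']
  [LinearOrder K] [Finite K] {M : Mir S K F0 Nd' Ed'} {G' : Subgroup M.G} [G'.FiniteIndex]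
  {T : Type} [TopologicalSpace T] [MulAction G' T] [ContinuousConstSMul G' T] {K₀ : Set T}

/-- **(PA1)** from (PA0) for any slowly varying level `Hh` which agrees with `mu` below `1` -/
theorem pa1_of (hC : M.Cham) (h : FD 4 G' K₀) (P : Pu G' T) (o : Vt M) (k : Type) [Field k] :
    ∃ c1 : ℕ → ℕ, Monotone c1 ∧ ∀ (c : ℕ → ℕ) (s : Slow c), (∀ n, c1 n ≤ c n) →
      ∀ (ι : Type) [DecidableEq ι] [MulAction (FreeGroup ι) S] (w : Wl ι S)
        (F : Subgroup (FreeGroup ι)) [MulAction F T] (N : Lev w F T) (ν : S → C(T, ℝ))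
        (Hh : Ed ι → Vt M → ℝ), w.Γ = M.Γ → SV Hh →
        (∀ e x (a : ℝ), En.pos e → 0 < rad M x → 0 < a → a ≤ 1 →
          (Hh e x < a ↔ mu M s (w.B e) x < a)) →
        (∀ a x, ν a x = P.av (fun g : G' => nu M s a (g.1.1 • o)) x) →
        (∀ x, N.r x = P.av (fun g : G' => (rad M (g.1.1 • o) : ℝ)) x) →
        (∀ e x, N.s e x = P.av (fun g : G' => Hh e (g.1.1 • o)) x) →
        N.PA0 k ν → N.PA1 k ν := by
  have O := orb M G' o
  have := gm_countable h.gm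
  have := h.gm.t2
  obtain ⟨ch⟩ := h.gm.chart
  have q := (qd_univ hC).res G'
  obtain ⟨L⟩ := nonempty_lab (M.ug.res G').fr
  obtain ⟨g0⟩ := exists_mp (cell (M.ug.res G').fr k L) (h.sing k)
  obtain ⟨f0⟩ := exists_mp (h.sing k) (cell (M.ug.res G').fr k L)
  obtain ⟨H0⟩ := exists_ht (g0.comp f0) (Mp.id _)
  obtain ⟨c0, mc, H⟩ := O.acy h.gm P k (q.nd g0) (no_c0 H0 (q.h0 k))
  obtain ⟨e0, he0⟩ := O.lab P
  refine ⟨fun n => c0 (2 * n), fun _ _ h => mc (by omega),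
    fun c s hc ι _ _ w F _ N ν Hh hΓ hsl hlt hν hr hs pa0 C ε R hε => ?_⟩
  have hq : 0 < ε / 4 := by positivity
  -- labels of a far point are far
  have far : ∀ (x : T) (R : ℕ), ((R + e0 : ℕ) : ℝ) < N.r x → ∀ u ∈ P.lab x,
      R ≤ rad M (u.1.1 • o) := fun x R hx u hu => by
    obtain ⟨g, hg, h1⟩ := P.exists_lt (hr x ▸ hx)
    have h2 := rad_lip (u.1.1 • o) (g.1.1 • o)
    have h3 : dl M (u.1.1 • o) (g.1.1 • o) ≤ e0 := he0 x u hu g hg
    have h4 := Nat.cast_lt.1 h1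
    omega
  -- membership in the target
  have tgt : ∀ e, En.pos e → ∀ t : ℝ, ε ≤ t → t + ε ≤ 1 → ∀ (σ : Finset S)
      (th : S → ℝ), ∀ a ∈ σ, ∀ y : T, (∀ g ∈ P.lab y, ⌈R⌉₊ + 1 ≤ rad M (g.1.1 • o) ∧
        mu M s (w.B e) (g.1.1 • o) < t + ε ∧ th a < nu M s a (g.1.1 • o)) →
      y ∈ N.U ν σ th R ∩ {x | N.s e x < t + ε} := fun e he t h1 h2 σ th a ha y hy => by
    refine ⟨⟨⟨a, ha, ?_⟩, ?_⟩, ?_⟩
    · rw [hν]; exact P.lt_av fun g hg => (hy g hg).2.2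
    · show R < N.r y
      rw [hr]
      exact P.lt_av fun g hg => (Nat.le_ceil R).trans_lt (Nat.cast_lt.2 (hy g hg).1)
    · show N.s e y < t + ε
      rw [hs]
      exact P.av_lt fun g hg => (hlt e _ _ he (by have := (hy g hg).1; omega) (by linarith) h2).2
        (hy g hg).2.1
  obtain ⟨R1, h1⟩ := image_fv M s (max C 1) hq (⌈R⌉₊ + 1) (c0 0)
  obtain ⟨R2, h2⟩ := pa0 (C + ε / 2) (ε / 2) ((R1 + e0 : ℕ) : ℝ) (by positivity)
  obtain ⟨R3, h3⟩ := track M s (max C 1) hq (⌈R⌉₊ + 1)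
  obtain ⟨R4, h4⟩ := mu_slow M s (max C 1) hq (c0 0)
  obtain ⟨R5, h5⟩ := hsl _ hq e0
  have cm : C ≤ max C 1 := le_max_left _ _
  have cm' : (1 : ℝ) ≤ max C 1 := le_max_right _ _
  refine ⟨max (max R2 R) ((R3 + R4 + R5 + ⌈R⌉₊ + 1 + c0 0 + e0 : ℕ) : ℝ),
    fun e he t t1 t2 σ ne cl th hth => ?_⟩
  refine H (fv (w.B e)) (dl_fv _) _ (N.U ν σ (fun a => th a + ε / 2 + ε / 2) R2)
    (N.U ν σ (fun a => th a + ε / 2) ((R1 + e0 : ℕ) : ℝ)) _ ?_ ?_ ?_
    (h2 σ ne cl _ fun a ha => ⟨by linarith [(hth a ha).1], by linarith [(hth a ha).2.1]⟩) ?_ ?_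
  · refine (IsOpen.inter ?_ (isOpen_lt continuous_const N.r.continuous)).inter
      (isOpen_lt (N.s e).continuous continuous_const)
    rw [show {x | ∃ a ∈ σ, th a + ε < ν a x} = ⋃ a ∈ σ, {x | th a + ε < ν a x} by ext; simp]
    exact isOpen_biUnion fun a _ => isOpen_lt continuous_const (ν a).continuous
  · rintro x ⟨⟨⟨a, ha, b1⟩, b2⟩, -⟩
    exact ⟨⟨a, ha, show th a + ε / 2 + ε / 2 < ν a x by linarith⟩,
      show R2 < N.r x from (max_lt_iff.1 (max_lt_iff.1 b2).1).1⟩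
  · rintro x ⟨⟨⟨a, ha, b1⟩, b2⟩, b3⟩
    exact ⟨⟨⟨a, ha, show th a < ν a x by linarith⟩,
      show R < N.r x from (max_lt_iff.1 (max_lt_iff.1 b2).1).2⟩,
      show N.s e x < t + ε by linarith [show N.s e x < t from b3]⟩
  · rintro x ⟨⟨a, ha, b1⟩, b2⟩
    obtain ⟨u, hu, b3⟩ := P.exists_lt (hν a x ▸ b1)
    refine ⟨u, hu, fun y hy => tgt e he t t1 t2 σ th a ha y fun g hg => ?_⟩
    obtain ⟨a1, a2, a3, -⟩ := hth a ha
    obtain ⟨d1, d2, d3⟩ := h1 _ _ (w.B e) a (far x R1 b2 u hu) a3 (by linarith) (hy g hg)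
    refine ⟨d1, by linarith, by_contra fun b => ?_⟩
    have := d3 (by linarith)
    linarith
  · rintro x ⟨⟨⟨a, ha, b1⟩, b2⟩, b3⟩
    obtain ⟨u, hu, b4⟩ := P.exists_lt (hν a x ▸ b1)
    obtain ⟨u', hu', b5⟩ := P.exists_gt ((hs e x).symm.trans_lt b3)
    have b6 := far x _ (max_lt_iff.1 b2).2 u hu
    have b7 := (abs_le.1 (h5 _ _ (by omega) (he0 x u hu u' hu') e)).2
    have b8 : mu M s (w.B e) (u.1.1 • o) < t + ε / 4 :=
      (hlt e _ _ he (by omega) (by linarith) (by linarith)).1 (by linarith)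
    obtain ⟨a1, a2, a3, a4⟩ := hth a ha
    refine ⟨u, hu, fun y hy => tgt e he t t1 t2 σ th a ha y fun g hg => ?_⟩
    have b9 : dl M (u.1.1 • o) (g.1.1 • o) ≤
        c0 (dl M (u.1.1 • o) (fv (w.B e) (u.1.1 • o))) := hy g hg
    rcases w.tri e a with c1 | c1 | c1
    · obtain ⟨d1, d2, d3⟩ := h3 _ _ (w.B e) (by omega) (by linarith)
        (b9.trans ((mc (dl_fv_self _ _)).trans (hc _)))
      refine ⟨d1, by linarith, by_contra fun b => ?_⟩
      have := d3 a (by linarith [a4 c1]) (by linarith)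
      linarith
    · exact absurd c1 a3
    · have d0 : ds M (w.B e) (u.1.1 • o) = 0 := ds_eq_zero.2 fun b hb hb' => w.BB e b a hb c1
        (or_iff_not_imp_left.2 fun e' => hΓ ▸ Init_clique _ hb'
          ((nu_pos s).1 (by linarith : 0 < nu M s a (u.1.1 • o))) e')
      rw [fv_eq (ds_eq_zero.1 d0), dl_self'] at b9
      have d1 := rad_lip (g.1.1 • o) (u.1.1 • o)
      rw [dl_comm'] at d1
      have d2 := (h4 _ _ (by omega) b9 (w.B e)).1 (by linarith)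
      refine ⟨by omega, by linarith, by_contra fun b => ?_⟩
      have := (h4 _ _ (by omega) b9 {a}).2 (by rw [← nu_eq]; linarith)
      rw [← nu_eq] at this
      linarith


end gen

theorem Cut_lt {ι P : Type} [DecidableEq ι] (C : Cut ι P) {e : Ed ι} {p : P} {m a : ℝ}
    (h : C.h e p = min 1 m) (h0 : 0 < a) (h1 : a ≤ 1) : C.H e p < a ↔ m < a := by
  rw [C.H_lt_iff h0 h1, h, min_lt_iff, or_iff_right h1.not_gt]

section dt

variable {ι I Tor K : Type} [DecidableEq ι] [Fintype ι] [Fintype I] [Fintype Tor] [DecidableEq I]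
  [DecidableEq Tor] [Nonempty I] [LinearOrder K] [Finite K] {D : Dt ι I Tor K}
  {G : Subgroup D.mir.G} {F : Subgroup (FreeGroup ι)} {T : Type} [TopologicalSpace T]
  [MulAction G T] [ContinuousConstSMul G T] [MulAction F T] {K₀ : Set T}
  {w : Wl ι (St ι I Tor)} (hw : IsW D w) (h : FD 4 G K₀) (E : Av G F T)

/-- **(PA1)** for the levels of `D` -/
theorem pa1_lev [Nonempty ι] [G.FiniteIndex] (H : D.mir.Cham) (k : Type) [Field k] :
    ∃ c1 : ℕ → ℕ, Monotone c1 ∧ ∀ (c : ℕ → ℕ) (s : Slow c), (∀ n, c1 n ≤ c n) →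
      (lev hw h E s).PA1 k (E.nu s) := by
  obtain ⟨c1, h1, h2⟩ := pa1_of H h E.P E.o k
  exact ⟨c1, h1, fun c s hc => h2 c s hc ι w F _ _ (cut D s).H hw.Γ (Av.sv_H s)
    (fun e x a he hx h0 h1 => Cut_lt _ (hw.B ▸ h_true D s he hx) h0 h1) (fun _ _ => rfl)
    (fun _ => rfl) (fun _ _ => rfl)
    (pa0_of H (na D) h s E.P E.o k _ hw.Γ _ (fun _ => rfl) fun _ _ => rfl)⟩

/-- **the depth functions exist** -/
theorem exists_tl [Nonempty ι] [G.FiniteIndex] (H : D.mir.Cham) (k : Type) [Field k] :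
    ∃ (c : ℕ → ℕ) (s : Slow c), Nonempty (Tl (lev hw h E s) k) := by
  obtain ⟨c, -, h1⟩ := pa1_lev hw h E H k
  obtain ⟨s⟩ := exists_slow c
  exact ⟨c, s, ⟨tl hw h E s H k (h1 c s fun _ => le_rfl)⟩⟩

end dt

section tm

variable {ι S K : Type} [DecidableEq ι] [Finite ι] [DecidableEq S] [Nonempty S]
  [MulAction (FreeGroup ι) S] [LinearOrder K] [Finite K]
  {M : Mir S K (FreeGroup ι) (Nd ι) (Ed ι)} {w : Wl ι S} (Z : TM M w)
  {G : Subgroup M.G} [G.FiniteIndex] {F : Subgroup (FreeGroup ι)} {T : Type} [TopologicalSpace T]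
  [MulAction G T] [ContinuousConstSMul G T] [MulAction F T] {K₀ : Set T}

/-- **(PA1)** for the levels of an abstract model -/
theorem pa1_tm (H : M.Cham) (h : FD 4 G K₀) (E : Av G F T) (k : Type) [Field k] :
    ∃ c1 : ℕ → ℕ, Monotone c1 ∧ ∀ (c : ℕ → ℕ) (s : Slow c), (∀ n, c1 n ≤ c n) →
      ∀ N : Lev w F T, N.r = E.rr → N.s = Z.sT E s → N.PA0 k (E.nu s) → N.PA1 k (E.nu s) := by
  obtain ⟨c1, h1, h2⟩ := pa1_of H h E.P E.o k
  exact ⟨c1, h1, fun c s hc N hr hs => h2 c s hc ι w F N _ (Z.cut s).H Z.Γ_eq (Z.sv_H s)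
    (fun e x a he hx h0 h1 => Cut_lt _ (Z.h_true s he hx) h0 h1) (fun _ _ => rfl)
    (fun _ => hr ▸ rfl) fun _ _ => hs ▸ rfl⟩

end tm

end Crest.Agent.N255.En

end
end

-- ▼ part N255/En/Pa2
section

/-!
# Row 255 (helper88): the far parts of sides, windows and vertex regions have pro-acyclic label covers
-/

set_option autoImplicit false
open Set Filter Topology

noncomputable section

namespace Crest.Agent.N255.Pa

open Crest.Agent.N255.Tp Crest.Agent.N255.Nv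

/-- far data: labels `I`, geometric edges `E` -/
structure FarD (X I E : Type) [TopologicalSpace X] where
  R : I → I → Prop
  ν : I → C(X, ℝ)
  r : C(X, ℝ)
  h : E → C(X, ℝ)
  Tw : E → Set I
  Aw : E → Set I

variable {X I E : Type} [TopologicalSpace X]

namespace FarD

variable (D : FarD X I E)

/-- union carriers -/
def U (s : Finset I) (th : I → ℝ) (R₀ : ℝ) : Set X :=
  {x | ∃ a ∈ s, th a < D.ν a x} ∩ {x | R₀ < D.r x}

/-- the far facts at scale `ε` beyond the radius `R₀` -/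
structure Big (ε R₀ : ℝ) : Prop where
  adj : ∀ x, R₀ < D.r x → ∀ a b, ε < D.ν a x → ε < D.ν b x → D.R a b
  hA1 : ∀ x, R₀ < D.r x → ∀ e, ∀ b ∈ D.Aw e, min 1 (D.ν b x) ≤ D.h e x + ε
  hA2 : ∀ x, R₀ < D.r x → ∀ e, ε < D.h e x → ∃ b ∈ D.Aw e, D.h e x < D.ν b x + ε

/-- the hypotheses -/
structure Ok (k : Type) [CommRing k] (q m : ℕ) (C : ℝ) : Prop where
  refl : ∀ a, D.R a a
  symm : ∀ a b, D.R a b → D.R b a
  card : ∀ s : Finset I, Cq D.R s → s.card ≤ q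
  pa0 : ∀ ε R₀ : ℝ, 0 < ε → ∃ R₁, ∀ (s : Finset I) (th : I → ℝ), s.Nonempty → Cq D.R s →
    (∀ a, ε ≤ th a ∧ th a + ε ≤ C) → Acy k (D.U s (fun a => th a + ε) R₁) (D.U s th R₀)
  ne0 : ∀ (a : I) (c R₀ : ℝ), c < C → ∃ x, c < D.ν a x ∧ R₀ < D.r x
  pa1 : ∀ ε R₀ : ℝ, 0 < ε → ∃ R₁, ∀ (e : E) (s : Finset I) (th : I → ℝ) (t : ℝ), s.Nonempty →
    Cq D.R s → Disjoint (s : Set I) (D.Aw e) → (∀ a, ε ≤ th a ∧ th a + ε ≤ C) →
    (∀ a ∈ s, a ∈ D.Tw e → 2 ≤ th a) → ε ≤ t → t ≤ 1 - ε →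
    Acy k (D.U s (fun a => th a + ε) R₁ ∩ {x | D.h e x < t}) (D.U s th R₀ ∩ {x | D.h e x < t + ε})
  ne1 : ∀ (e : E) (a : I) (c R₀ ε : ℝ), c < C → 0 < ε → a ∉ D.Aw e →
    ∃ x, c < D.ν a x ∧ R₀ < D.r x ∧ D.h e x < ε
  big : ∀ ε : ℝ, 0 < ε → ∃ R₀, D.Big ε R₀
  sep : ∀ e a b, D.R a b → b ∈ D.Aw e → a ∈ D.Tw e ∪ D.Aw e
  dis : ∀ e, Disjoint (D.Tw e) (D.Aw e)
  nev : ∀ e (s : Finset I), s.Nonempty → Cq D.R s → (s : Set I) ⊆ D.Tw e →
    Nev D.R m {b | b ∈ D.Aw e ∧ ∀ a ∈ s, D.R a b}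

end FarD

/-- the retreats -/
def u (n : ℕ) : ℝ := 1 / ((n : ℝ) + 1)

theorem u_pos (n : ℕ) : 0 < u n := Nat.one_div_pos_of_nat

theorem u_le (n : ℕ) : u n ≤ 1 := by
  rw [u, div_le_one (by positivity)]; simp

theorem u_anti : Antitone u := fun _ _ h => Nat.one_div_le_one_div h

theorem u_lt (n : ℕ) : u (n + 1) < u n := Nat.one_div_lt_one_div (Nat.lt_succ_self n)

theorem exists_stage (R₀ R₁ : ℝ) (n : ℕ) : ∃ n', n + 1 ≤ n' ∧ R₁ ≤ R₀ + n' := by
  obtain ⟨N, hN⟩ := exists_nat_ge (R₁ - R₀)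
  refine ⟨max (n + 1) N, le_max_left _ _, ?_⟩
  have : (N : ℝ) ≤ (max (n + 1) N : ℕ) := Nat.cast_le.2 (le_max_right _ _)
  linarith

theorem nev_card {R : I → I → Prop} : ∀ {m : ℕ} {t : Finset I}, Nev R m (t : Set I) → t.card ≤ m + 1
  | 0, t, ⟨a, h⟩ => by rw [Finset.coe_eq_singleton.1 h]; simp
  | m + 1, t, h => by
    classical
    rcases h with ⟨a, h⟩ | ⟨v, hv, h, -⟩
    · rw [Finset.coe_eq_singleton.1 h]; simp
    · rw [← Finset.coe_erase] at h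
      have := nev_card h
      rw [Finset.card_erase_of_mem hv] at this
      omega

theorem peel_nev (R : I → I → Prop) : Peel R fun t => ∃ m, Nev R m (t : Set I) := by
  classical
  rintro t ⟨m, h⟩
  cases m with
  | zero => exact Or.inl (h.imp fun a h => Finset.coe_eq_singleton.1 h)
  | succ m =>
    rcases h with ⟨a, h⟩ | ⟨v, hv, h, h'⟩
    · exact Or.inl ⟨a, Finset.coe_eq_singleton.1 h⟩
    · refine Or.inr ⟨v, hv, ⟨m, by simpa using h⟩, m, ?_⟩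
      convert h' using 1
      ext w
      simp [Lk, and_comm]

namespace FarD

variable (D : FarD X I E) (δ R₀ : ℝ)

/-- the label cover at stage `n` -/
def B (th : I → ℝ) (a : I) (n : ℕ) : Set X :=
  {x | th a - δ * u n < D.ν a x} ∩ {x | R₀ + n < D.r x}

/-- below the level `t` -/
def Lo (e : E) (t : ℝ) (n : ℕ) : Set X := {x | D.h e x < t + δ * u n}

/-- above the level `t` -/
def Hi (e : E) (t : ℝ) (n : ℕ) : Set X := {x | t - δ * u n < D.h e x}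

variable {D δ R₀} {k : Type} [CommRing k] {q m : ℕ} {C : ℝ}

theorem oB (hδ : 0 < δ) {J : Type} (th : J → I → ℝ) (a : J → I) :
    OSys fun j => D.B δ R₀ (th j) (a j) :=
  ⟨fun j _ => (isOpen_lt continuous_const (D.ν _).continuous).inter
    (isOpen_lt continuous_const D.r.continuous), fun j n n' h x hx => by
      have h1 := mul_le_mul_of_nonneg_left (u_anti h) hδ.le
      have h2 : (n : ℝ) ≤ n' := Nat.cast_le.2 h
      have h3 : th j (a j) - δ * u n' < D.ν (a j) x := hx.1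
      have h4 : R₀ + n' < D.r x := hx.2
      exact ⟨show th j (a j) - δ * u n < D.ν (a j) x by linarith, show R₀ + n < D.r x by linarith⟩⟩

theorem oLo (hδ : 0 < δ) {J : Type} (e : J → E) (t : J → ℝ) : OSys fun j => D.Lo δ (e j) (t j) :=
  ⟨fun j _ => isOpen_lt (D.h _).continuous continuous_const, fun j n n' h x hx => by
    have h1 := mul_le_mul_of_nonneg_left (u_anti h) hδ.le
    have h3 : D.h (e j) x < t j + δ * u n' := hx
    exact show D.h (e j) x < t j + δ * u n by linarith⟩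

theorem oHi (hδ : 0 < δ) {J : Type} (e : J → E) (t : J → ℝ) : OSys fun j => D.Hi δ (e j) (t j) :=
  ⟨fun j _ => isOpen_lt continuous_const (D.h _).continuous, fun j n n' h x hx => by
    have h1 := mul_le_mul_of_nonneg_left (u_anti h) hδ.le
    have h3 : t j - δ * u n' < D.h (e j) x := hx
    exact show t j - δ * u n < D.h (e j) x by linarith⟩

theorem oX (hδ : 0 < δ) {J : Type} (th : J → I → ℝ) (s : J → Finset I) :
    OSys fun j n => ⋂ a ∈ s j, D.B δ R₀ (th j) a n :=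
  OSys.biInter (B := fun j a => D.B δ R₀ (th j) a)
    (oB hδ (fun p : J × I => th p.1) fun p => p.2) id s

theorem un_B (th : I → ℝ) (s : Finset I) (n : ℕ) :
    ⋃ a ∈ s, D.B δ R₀ th a n = D.U s (fun a => th a - δ * u n) (R₀ + n) := by
  ext x
  simp only [B, U, mem_iUnion, mem_inter_iff, mem_ofPred_eq]
  exact ⟨fun ⟨a, ha, h, h'⟩ => ⟨⟨a, ha, h⟩, h'⟩, fun ⟨⟨a, ha, h⟩, h'⟩ => ⟨a, ha, h, h'⟩⟩

theorem U_mono {s : Finset I} {th th' : I → ℝ} {R₁ R₂ : ℝ} (h : ∀ a, th a ≤ th' a) (h' : R₁ ≤ R₂) :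
    D.U s th' R₂ ⊆ D.U s th R₁ := fun _ hx =>
  ⟨hx.1.imp fun a ha => ⟨ha.1, (h a).trans_lt ha.2⟩, h'.trans_lt hx.2⟩

/-- admissible thresholds -/
def Th (δ C : ℝ) (th : I → ℝ) : Prop := ∀ a, 2 * δ ≤ th a ∧ th a ≤ C

theorem eps_facts (hδ : 0 < δ) (n : ℕ) :
    0 < δ * (u n - u (n + 1)) ∧ δ * (u n - u (n + 1)) ≤ δ ∧ 0 < δ * u n ∧ δ * u n ≤ δ := by
  have h1 := u_lt n
  have h2 := u_pos (n + 1)
  have h3 := u_le n
  refine ⟨mul_pos hδ (by linarith), ?_, mul_pos hδ (u_pos n), ?_⟩ <;> nlinarith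

/-- intersections of the label cover -/
theorem Ok.pac0 [Nontrivial k] (H : D.Ok k q m C) (hδ : 0 < δ) {J : Type} (th : J → I → ℝ)
    (s : J → Finset I) (ht : ∀ j, Th δ C (th j)) (hs : ∀ j, (s j).Nonempty ∧ Cq D.R (s j)) :
    PAc k fun j n => ⋂ a ∈ s j, D.B δ R₀ (th j) a n := by
  refine (PAc.inter_of_union (k := k) (C := fun (_ : J) s => s.Nonempty ∧ Cq D.R s) (m := q)
    (B := fun j a => D.B δ R₀ (th j) a)
    ⟨fun _ _ h => h.1, fun _ _ _ h ht hn => ⟨hn, h.2.mono ht⟩, fun _ s h => H.card s h.2⟩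
    (oB hδ (fun p : J × I => th p.1) fun p => p.2) ⟨?_, fun n => ?_⟩).comp
    fun j => ⟨(j, s j), hs j⟩
  · rintro ⟨⟨j, s⟩, ⟨a, ha⟩, -⟩ n
    obtain ⟨x, hx, hx'⟩ := H.ne0 a (th j a - δ * u n) (R₀ + n)
      ((sub_lt_self _ (eps_facts hδ n).2.2.1).trans_le (ht j a).2)
    exact ⟨x, mem_iUnion₂.2 ⟨a, ha, hx, hx'⟩⟩
  · obtain ⟨e1, e2, e3, e4⟩ := eps_facts hδ n
    obtain ⟨-, -, e5, e6⟩ := eps_facts hδ (n + 1)
    obtain ⟨R₁, h⟩ := H.pa0 _ (R₀ + n) e1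
    obtain ⟨n', h1, h2⟩ := exists_stage R₀ R₁ n
    refine ⟨n', by omega, ?_⟩
    rintro ⟨⟨j, s⟩, h4, h5⟩
    have h6 := mul_le_mul_of_nonneg_left (u_anti h1) hδ.le
    simp only [un_B]
    exact acy_mono (h s _ h4 h5 fun a => ⟨by linarith [(ht j a).1], by linarith [(ht j a).2]⟩)
      (U_mono (fun a => by linarith) h2) subset_rfl

/-- below a level -/
theorem Ok.pacLo [Nontrivial k] (H : D.Ok k q m C) (hδ : 0 < δ) {J : Type} (e : J → E)
    (th : J → I → ℝ) (t : J → ℝ) (s : J → Finset I) (ht : ∀ j, Th δ C (th j))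
    (ht1 : ∀ j a, 2 + δ ≤ th j a) (hl : ∀ j, δ ≤ t j ∧ t j ≤ 1 - 2 * δ)
    (hs : ∀ j, (s j).Nonempty ∧ Cq D.R (s j) ∧ Disjoint (s j : Set I) (D.Aw (e j))) :
    PAc k fun j n => (⋂ a ∈ s j, D.B δ R₀ (th j) a n) ∩ D.Lo δ (e j) (t j) n := by
  refine ((PAc.inter_of_union (k := k)
    (C := fun (j : J) s => s.Nonempty ∧ Cq D.R s ∧ Disjoint (s : Set I) (D.Aw (e j))) (m := q)
    (B := fun j a n => D.B δ R₀ (th j) a n ∩ D.Lo δ (e j) (t j) n)
    ⟨fun _ _ h => h.1, fun _ _ _ h ht hn => ⟨hn, h.2.1.mono ht, h.2.2.mono_left ht⟩,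
      fun _ s h => H.card s h.2.1⟩
    ((oB hδ (fun p : J × I => th p.1) fun p => p.2).inter
      (oLo hδ (fun p : J × I => e p.1) fun p => t p.1)) ⟨?_, fun n => ?_⟩).comp
    fun j => ⟨(j, s j), hs j⟩).congr ?_
  · rintro ⟨⟨j, s⟩, ⟨a, ha⟩, -, h2⟩ n
    have e3 := (eps_facts hδ n).2.2.1
    obtain ⟨x, hx, hx', hx''⟩ := H.ne1 (e j) a (th j a - δ * u n) (R₀ + n) δ
      ((sub_lt_self _ e3).trans_le (ht j a).2) hδ (disjoint_left.1 h2 ha)
    refine ⟨x, mem_iUnion₂.2 ⟨a, ha, ⟨hx, hx'⟩, ?_⟩⟩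
    have := (hl j).1
    exact show D.h (e j) x < t j + δ * u n by linarith
  · obtain ⟨e1, e2, e3, e4⟩ := eps_facts hδ n
    obtain ⟨-, -, e5, e6⟩ := eps_facts hδ (n + 1)
    obtain ⟨R₁, h⟩ := H.pa1 _ (R₀ + n) e1
    obtain ⟨n', h1, h2⟩ := exists_stage R₀ R₁ n
    refine ⟨n', by omega, ?_⟩
    rintro ⟨⟨j, s⟩, h4, h5, h9⟩
    obtain ⟨h7, h8⟩ := hl j
    have h6 := mul_le_mul_of_nonneg_left (u_anti h1) hδ.le
    dsimp only at *
    simp only [← iUnion₂_inter, un_B]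
    refine acy_mono (h (e j) s (fun a => th j a - δ * u n) (t j + δ * u (n + 1)) h4 h5 h9
      (fun a => ⟨by linarith [(ht j a).1], by linarith [(ht j a).2]⟩)
      (fun a _ _ => by linarith [ht1 j a]) (by linarith) (by linarith))
      (inter_subset_inter (U_mono (fun a => by linarith) h2) fun x hx => ?_)
      (inter_subset_inter_right _ fun x hx => ?_)
    · have : D.h (e j) x < t j + δ * u n' := hx
      exact show D.h (e j) x < t j + δ * u (n + 1) by linarith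
    · have : D.h (e j) x < t j + δ * u (n + 1) + δ * (u n - u (n + 1)) := hx
      exact show D.h (e j) x < t j + δ * u n by linarith
  · intro j n
    obtain ⟨a, ha⟩ := (hs j).1
    ext x
    simp only [mem_inter_iff, mem_iInter]
    exact ⟨fun h b hb => ⟨h.1 b hb, h.2⟩, fun h => ⟨fun b hb => (h b hb).1, (h a ha).2⟩⟩

theorem Big.mono {ε R₁ R₂ : ℝ} (h : D.Big ε R₁) (hR : R₁ ≤ R₂) : D.Big ε R₂ :=
  ⟨fun x hx => h.adj x (hR.trans_lt hx), fun x hx => h.hA1 x (hR.trans_lt hx),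
    fun x hx => h.hA2 x (hR.trans_lt hx)⟩

theorem B_far {th : I → ℝ} {a : I} {n : ℕ} {x : X} (h : x ∈ D.B δ R₀ th a n) : R₀ < D.r x :=
  (le_add_of_nonneg_right (Nat.cast_nonneg n)).trans_lt h.2

theorem B_gt (hδ : 0 < δ) {th : I → ℝ} {a : I} {n : ℕ} {x : X} (h : x ∈ D.B δ R₀ th a n) :
    th a - δ < D.ν a x := (sub_le_sub_left (eps_facts hδ n).2.2.2 _).trans_lt h.1

theorem B_adj (hδ : 0 < δ) (hB : D.Big δ R₀) {th : I → ℝ} (ht : Th δ C th) {a b : I} {n : ℕ} {x : X}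
    (h : x ∈ D.B δ R₀ th a n) (h' : x ∈ D.B δ R₀ th b n) : D.R a b :=
  hB.adj x (B_far h) a b (by linarith [B_gt hδ h, (ht a).1]) (by linarith [B_gt hδ h', (ht b).1])

open Classical in
/-- above a level -/
theorem Ok.pacHi [Nontrivial k] (H : D.Ok k q m C) (hδ : 0 < δ) (hB : D.Big δ R₀) (hC : 1 ≤ C)
    {J : Type} (e : J → E) (th : J → I → ℝ) (t : J → ℝ) (s : J → Finset I)
    (ht : ∀ j, Th δ C (th j)) (hl : ∀ j, 2 * δ ≤ t j ∧ t j ≤ 1)
    (hs : ∀ j, (s j).Nonempty ∧ Cq D.R (s j) ∧ (s j : Set I) ⊆ D.Tw (e j)) :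
    PAc k fun j n => (⋂ a ∈ s j, D.B δ R₀ (th j) a n) ∩ D.Hi δ (e j) (t j) n := by
  let th' : J → I → ℝ := fun j a => if a ∈ D.Aw (e j) then t j else th j a
  have hT : ∀ j, Th δ C (th' j) := fun j a => by
    dsimp only [th']
    split_ifs
    exacts [⟨(hl j).1, (hl j).2.trans hC⟩, ht j a]
  have hN := fun j => H.nev (e j) (s j) (hs j).1 (hs j).2.1 (hs j).2.2
  let L : J → Finset I := fun j => (hN j).finite.toFinset
  have hL : ∀ j b, b ∈ L j ↔ b ∈ D.Aw (e j) ∧ ∀ a ∈ s j, D.R a b := fun j b =>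
    Finite.mem_toFinset _
  have hN' : ∀ j, Nev D.R m (L j : Set I) := fun j => by simpa only [L, Finite.coe_toFinset] using hN j
  have hO : ∀ j, OkL D.R (fun (_ : J) s => s.Nonempty ∧ Cq D.R s) j (s j) (L j) := by
    intro j w hw _ hc
    refine ⟨(hs j).1.inl, fun a ha b hb => ?_⟩
    have hw' : ∀ b ∈ w, ∀ a ∈ s j, D.R a b := fun b hb => ((hL j b).1 (hw hb)).2
    rcases Finset.mem_union.1 ha with ha | ha <;> rcases Finset.mem_union.1 hb with hb | hb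
    exacts [(hs j).2.1 a ha b hb, hw' b hb a ha, H.symm _ _ (hw' a ha b hb), hc a ha b hb]
  have h0 : PAc k fun j n => (⋂ a ∈ s j, D.B δ R₀ (th' j) a n) ∩ ⋃ a ∈ L j, D.B δ R₀ (th' j) a n :=
    (PAc.of_peel (k := k) (J := J)
    (C := fun _ s => s.Nonempty ∧ Cq D.R s) (B := fun j a => D.B δ R₀ (th' j) a) H.refl H.symm
    (peel_nev D.R) (oB hδ (fun p : J × I => th' p.1) fun p => p.2)
    (fun j a b n h => disjoint_left.2 fun x hx hx' => h (B_adj hδ hB (hT j) hx hx'))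
    (H.pac0 hδ _ _ (fun p => hT p.1.1) fun p => p.2) (m + 1)).comp
      fun j => ⟨(j, s j, L j), ⟨m, hN' j⟩, nev_card (hN' j), hO j⟩
  have hs' : ∀ j n, ∀ a ∈ s j, D.B δ R₀ (th' j) a n = D.B δ R₀ (th j) a n := fun j n a ha => by
    simp only [B, th', if_neg (disjoint_left.1 (H.dis _) ((hs j).2.2 ha))]
  refine h0.interleave ((oX hδ th s).inter (oHi hδ e t)).anti (fun n => ?_) fun n => ?_
  all_goals
    obtain ⟨e1, e2, e3, e4⟩ := eps_facts hδ n
    obtain ⟨R₁, h⟩ := H.big _ e1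
    obtain ⟨n', h1, h2⟩ := exists_stage R₀ R₁ n
    obtain ⟨-, -, e5, e6⟩ := eps_facts hδ n'
    have h6 := mul_le_mul_of_nonneg_left (u_anti h1) hδ.le
    refine ⟨n', fun j x ⟨hx, hx'⟩ => ?_⟩
    obtain ⟨h7, h8⟩ := hl j
  · obtain ⟨b, hb, hx'⟩ := mem_iUnion₂.1 hx'
    have hb' := ((hL j b).1 hb).1
    refine ⟨mem_iInter₂.2 fun a ha => ?_, ?_⟩
    · exact (oB hδ th fun _ => a).anti j (show n ≤ n' by omega)
        (hs' j n' a ha ▸ mem_iInter₂.1 hx a ha)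
    · have h10 := h.hA1 x (h2.trans_lt hx'.2) (e j) b hb'
      have h11 : t j - δ * u n' < D.ν b x := by
        simpa only [th', if_pos hb', mem_ofPred_eq] using hx'.1
      have h12 : t j - δ * u n' < min 1 (D.ν b x) := lt_min (by linarith) h11
      exact show t j - δ * u n < D.h (e j) x by linarith
  · obtain ⟨a₀, h4⟩ := (hs j).1
    have hx1 : t j - δ * u n' < D.h (e j) x := hx'
    have hx2 := mem_iInter₂.1 hx a₀ h4
    have hn : (n : ℝ) ≤ n' := Nat.cast_le.2 (by omega)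
    obtain ⟨b, hb, h10⟩ := h.hA2 x (h2.trans_lt hx2.2) (e j) (by linarith)
    have h11 : t j - δ * u n < D.ν b x := by linarith
    refine ⟨mem_iInter₂.2 fun a ha => ?_, mem_iUnion₂.2 ⟨b, (hL j b).2 ⟨hb, fun a ha => ?_⟩, ?_, ?_⟩⟩
    · rw [hs' j n a ha]
      exact (oB hδ th fun _ => a).anti j (show n ≤ n' by omega) (mem_iInter₂.1 hx a ha)
    · exact hB.adj x (B_far hx2) a b (by linarith [B_gt hδ (mem_iInter₂.1 hx a ha), (ht j a).1])
        (by linarith)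
    · simpa only [th', if_pos hb, mem_ofPred_eq] using h11
    · have : R₀ + n' < D.r x := hx2.2
      exact show R₀ + n < D.r x by linarith

/-- windows -/
theorem Ok.pacWin [Nontrivial k] (H : D.Ok k q m C) (hδ : 0 < δ) (hB : D.Big δ R₀) (hC : 1 ≤ C)
    {J : Type} (e : J → E) (th : J → I → ℝ) (t t' : J → ℝ) (s : J → Finset I)
    (ht : ∀ j, Th δ C (th j)) (ht1 : ∀ j a, 2 + δ ≤ th j a)
    (hl : ∀ j, 2 * δ ≤ t j ∧ t j ≤ t' j ∧ t' j ≤ 1 - 2 * δ)
    (hs : ∀ j, (s j).Nonempty ∧ Cq D.R (s j) ∧ (s j : Set I) ⊆ D.Tw (e j)) :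
    PAc k fun j n => ((⋂ a ∈ s j, D.B δ R₀ (th j) a n) ∩ D.Lo δ (e j) (t' j) n) ∩
        ((⋂ a ∈ s j, D.B δ R₀ (th j) a n) ∩ D.Hi δ (e j) (t j) n) := by
  refine PAc.inter ((oX hδ th s).inter (oLo hδ e t')) ((oX hδ th s).inter (oHi hδ e t))
    (H.pacLo hδ e th t' s ht ht1 (fun j => ⟨by linarith [(hl j).1, (hl j).2.1], (hl j).2.2⟩)
      fun j => ⟨(hs j).1, (hs j).2.1, (H.dis _).mono_left (hs j).2.2⟩)
    (H.pacHi hδ hB hC e th t s ht (fun j => ⟨(hl j).1, by linarith [(hl j).2.2, (hl j).2.1]⟩) hs)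
    ((H.pac0 (R₀ := R₀) hδ th s ht fun j => ⟨(hs j).1, (hs j).2.1⟩).congr fun j n => ?_)
  rw [← inter_union_distrib_left]
  refine inter_eq_left.2 fun x _ => ?_
  have := (eps_facts hδ n).2.2.1
  have := (hl j).2.1
  by_cases h : D.h (e j) x < t' j + δ * u n
  · exact Or.inl h
  · exact Or.inr (show t j - δ * u n < D.h (e j) x by linarith)

variable (D δ) in
/-- a region: upper bounds on the edges of `Jm`, lower bounds on the edges of `Jp` -/
def Reg (Jm Jp : Set E) (hi lo : E → ℝ) (n : ℕ) : Set X :=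
  {x | (∀ e ∈ Jm, x ∈ D.Lo δ e (hi e) n) ∧ ∀ e ∈ Jp, x ∈ D.Hi δ e (lo e) n}

variable (D) in
/-- the labels of a region -/
def Mod (Jm Jp : Set E) : Set I := {a | (∀ e ∈ Jm, a ∉ D.Aw e) ∧ ∀ e ∈ Jp, a ∈ D.Tw e ∪ D.Aw e}

variable (D δ) in
/-- admissible regions -/
structure Adm (Jm Jp : Set E) (hi lo : E → ℝ) : Prop where
  fm : Jm.Finite
  fp : Jp.Finite
  bm : ∀ e ∈ Jm, 2 * δ ≤ hi e ∧ hi e ≤ 1 - 2 * δ
  bp : ∀ e ∈ Jp, 2 * δ ≤ lo e ∧ lo e ≤ 1 - 2 * δ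
  le : ∀ e ∈ Jm, e ∈ Jp → lo e ≤ hi e
  dj : ∀ e ∈ Jm ∪ Jp, ∀ e' ∈ Jm ∪ Jp, e ≠ e' → Disjoint (D.Tw e) (D.Tw e')

variable {Jm Jp : Set E} {hi lo : E → ℝ}

theorem oReg (hδ : 0 < δ) {J : Type} {Jm Jp : J → Set E} {hi lo : J → E → ℝ}
    (A : ∀ j, D.Adm δ (Jm j) (Jp j) (hi j) (lo j)) :
    OSys fun j => D.Reg δ (Jm j) (Jp j) (hi j) (lo j) :=
  ⟨fun j n => by
    have : D.Reg δ (Jm j) (Jp j) (hi j) (lo j) n =
        (⋂ e ∈ Jm j, D.Lo δ e (hi j e) n) ∩ ⋂ e ∈ Jp j, D.Hi δ e (lo j e) n := by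
      ext x; simp [Reg]
    rw [this]
    exact ((A j).fm.isOpen_biInter fun e _ => (oLo hδ id (hi j)).op e n).inter
      ((A j).fp.isOpen_biInter fun e _ => (oHi hδ id (lo j)).op e n),
  fun j _ _ h _ hx => ⟨fun e he => (oLo hδ id (hi j)).anti e h (hx.1 e he),
    fun e he => (oHi hδ id (lo j)).anti e h (hx.2 e he)⟩⟩

/-- a label off the wall makes the conditions of this wall void -/
theorem Ok.void (H : D.Ok k q m C) (A : D.Adm δ Jm Jp hi lo) (hδ : 0 < δ) (hB : D.Big δ R₀)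
    {th : I → ℝ} (h1 : ∀ a, 1 + δ ≤ th a) {a : I} (ha : a ∈ D.Mod Jm Jp) {n : ℕ} {x : X}
    (hx : x ∈ D.B δ R₀ th a n) {e : E} (he : a ∉ D.Tw e) :
    (e ∈ Jm → x ∈ D.Lo δ e (hi e) n) ∧ (e ∈ Jp → x ∈ D.Hi δ e (lo e) n) := by
  have h2 := B_gt hδ hx
  have h3 := h1 a
  have e3 := (eps_facts hδ n).2.2.1
  refine ⟨fun hm => by_contra fun hn => ?_, fun hp => ?_⟩
  · have h4 : hi e + δ * u n ≤ D.h e x := not_lt.1 hn
    obtain ⟨h5, h6⟩ := A.bm e hm
    obtain ⟨b, hb, h7⟩ := hB.hA2 x (B_far hx) e (by linarith)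
    exact (H.sep e a b (hB.adj x (B_far hx) a b (by linarith) (by linarith)) hb).elim he
      (ha.1 e hm)
  · have h4 := hB.hA1 x (B_far hx) e a ((ha.2 e hp).resolve_left he)
    rw [min_eq_left (by linarith)] at h4
    have := (A.bp e hp).2
    exact show lo e - δ * u n < D.h e x by linarith

open Classical in
/-- a family which is covered by two pro-acyclic families -/
theorem _root_.Crest.Agent.N255.Tp.PAc.cases {κ J : Type} [Preorder κ] [IsDirectedOrder κ]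
    {W : J → κ → Set X} (o : OSys W) (p : J → Prop) (h1 : PAc k fun j : {j // p j} => W j.1)
    (h2 : PAc k fun j : {j // ¬ p j} => W j.1) : PAc k W := by
  refine ⟨fun j => if h : p j then h1.ne ⟨j, h⟩ else h2.ne ⟨j, h⟩, fun a => ?_⟩
  obtain ⟨b, hb, a1, a2⟩ := PAc.both (o.comp _) (o.comp _) h1 h2 a
  exact ⟨b, hb, fun j => if h : p j then a1 ⟨j, h⟩ else a2 ⟨j, h⟩⟩

/-- **the label cover of the far part of a region is pro-acyclic** -/
theorem Ok.pacReg [Nontrivial k] (H : D.Ok k q m C) (hδ : 0 < δ) (hB : D.Big δ R₀) {th : I → ℝ}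
    (ht : Th δ C th) (h1 : ∀ a, 2 + δ ≤ th a) (hC : 1 ≤ C) {J : Type} {Jm Jp : J → Set E}
    {hi lo : J → E → ℝ} (A : ∀ j, D.Adm δ (Jm j) (Jp j) (hi j) (lo j)) (s : J → Finset I)
    (hs : ∀ j, (s j).Nonempty ∧ Cq D.R (s j) ∧ (s j : Set I) ⊆ D.Mod (Jm j) (Jp j)) :
    PAc k fun j n => (⋂ a ∈ s j, D.B δ R₀ th a n) ∩ D.Reg δ (Jm j) (Jp j) (hi j) (lo j) n := by
  have o : OSys fun j n => (⋂ a ∈ s j, D.B δ R₀ th a n) ∩ D.Reg δ (Jm j) (Jp j) (hi j) (lo j) n :=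
    (oX hδ (fun _ => th) s).inter (oReg hδ A)
  have h1' : ∀ a, 1 + δ ≤ th a := fun a => by linarith [h1 a]
  have key : ∀ j, ∀ e ∈ Jm j ∪ Jp j, (s j : Set I) ⊆ D.Tw e → ∀ n x,
      x ∈ (⋂ a ∈ s j, D.B δ R₀ th a n) → (x ∈ D.Reg δ (Jm j) (Jp j) (hi j) (lo j) n ↔
        (e ∈ Jm j → x ∈ D.Lo δ e (hi j e) n) ∧ (e ∈ Jp j → x ∈ D.Hi δ e (lo j e) n)) := by
    intro j e he hT n x hx
    refine ⟨fun h => ⟨h.1 _, h.2 _⟩, fun h => ?_⟩
    obtain ⟨a, ha⟩ := (hs j).1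
    have hv := fun e' (he' : e' ∈ Jm j ∪ Jp j) (hne : e' ≠ e) =>
      H.void (A j) hδ hB h1' ((hs j).2.2 ha) (mem_iInter₂.1 hx a ha)
        (disjoint_right.1 ((A j).dj e' he' _ he hne) (hT ha))
    refine ⟨fun e' he' => ?_, fun e' he' => ?_⟩ <;> by_cases h' : e' = e
    · subst h'; exact h.1 he'
    · exact (hv e' (Or.inl he') h').1 he'
    · subst h'; exact h.2 he'
    · exact (hv e' (Or.inr he') h').2 he'
  refine PAc.cases o (fun j => ∃ e, (e ∈ Jm j ∧ e ∈ Jp j) ∧ (s j : Set I) ⊆ D.Tw e) ?_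
    (PAc.cases (o.comp _) (fun j => ∃ e ∈ Jm j.1, (s j.1 : Set I) ⊆ D.Tw e) ?_
      (PAc.cases ((o.comp _).comp _) (fun j => ∃ e ∈ Jp j.1.1, (s j.1.1 : Set I) ⊆ D.Tw e) ?_ ?_))
  · choose e he hT using fun j : {j // ∃ e, (e ∈ Jm j ∧ e ∈ Jp j) ∧ (s j : Set I) ⊆ D.Tw e} => j.2
    refine (H.pacWin hδ hB hC e (fun _ => th) (fun j => lo j.1 (e j)) (fun j => hi j.1 (e j))
      (fun j => s j.1) (fun _ => ht) (fun _ => h1)
      (fun j => ⟨((A _).bp _ (he j).2).1, (A _).le _ (he j).1 (he j).2, ((A _).bm _ (he j).1).2⟩)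
      fun j => ⟨(hs _).1, (hs _).2.1, hT j⟩).congr fun j n => ?_
    have := key j.1 _ (Or.inl (he j).1) (hT j) n
    ext x
    exact ⟨fun h => ⟨⟨h.1, ((this x h.1).1 h.2).1 (he j).1⟩, h.1, ((this x h.1).1 h.2).2 (he j).2⟩,
      fun h => ⟨h.1.1, (this x h.1.1).2 ⟨fun _ => h.1.2, fun _ => h.2.2⟩⟩⟩
  · choose e he hT using fun j : {j : {j // ¬ ∃ e, (e ∈ Jm j ∧ e ∈ Jp j) ∧
      (s j : Set I) ⊆ D.Tw e} // ∃ e ∈ Jm j.1, (s j.1 : Set I) ⊆ D.Tw e} => j.2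
    refine (H.pacLo (R₀ := R₀) hδ e (fun _ => th) (fun j => hi j.1.1 (e j))
      (fun j => s j.1.1) (fun _ => ht) (fun _ => h1)
      (fun j => ⟨by linarith [((A _).bm _ (he j)).1], ((A _).bm _ (he j)).2⟩)
      fun j => ⟨(hs _).1, (hs _).2.1, (H.dis _).mono_left (hT j)⟩).congr fun j n => ?_
    have := key j.1.1 _ (Or.inl (he j)) (hT j) n
    ext x
    exact ⟨fun h => ⟨h.1, ((this x h.1).1 h.2).1 (he j)⟩, fun h => ⟨h.1, (this x h.1).2
      ⟨fun _ => h.2, fun h' => absurd ⟨_, ⟨he j, h'⟩, hT j⟩ j.1.2⟩⟩⟩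
  · choose e he hT using fun j : {j : {j : {j // ¬ ∃ e, (e ∈ Jm j ∧ e ∈ Jp j) ∧
      (s j : Set I) ⊆ D.Tw e} // ¬ ∃ e ∈ Jm j.1, (s j.1 : Set I) ⊆ D.Tw e} //
      ∃ e ∈ Jp j.1.1, (s j.1.1 : Set I) ⊆ D.Tw e} => j.2
    refine (H.pacHi hδ hB hC e (fun _ => th) (fun j => lo j.1.1.1 (e j))
      (fun j => s j.1.1.1) (fun _ => ht)
      (fun j => ⟨((A _).bp _ (he j)).1, by linarith [((A _).bp _ (he j)).2]⟩)
      fun j => ⟨(hs _).1, (hs _).2.1, hT j⟩).congr fun j n => ?_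
    have := key j.1.1.1 _ (Or.inr (he j)) (hT j) n
    ext x
    exact ⟨fun h => ⟨h.1, ((this x h.1).1 h.2).2 (he j)⟩, fun h => ⟨h.1, (this x h.1).2
      ⟨fun h' => absurd ⟨_, h', hT j⟩ j.1.2, fun _ => h.2⟩⟩⟩
  · refine (H.pac0 (R₀ := R₀) hδ (fun _ => th) (fun j => s j.1.1.1) (fun _ => ht)
      fun j => ⟨(hs _).1, (hs _).2.1⟩).congr fun j n => ?_
    refine inter_eq_left.2 fun x hx => ⟨fun e he => ?_, fun e he => ?_⟩
    · obtain ⟨a, ha, ha'⟩ := not_subset.1 fun h => j.1.2 ⟨e, he, h⟩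
      exact (H.void (A _) hδ hB h1' ((hs _).2.2 ha) (mem_iInter₂.1 hx a ha) ha').1 he
    · obtain ⟨a, ha, ha'⟩ := not_subset.1 fun h => j.2 ⟨e, he, h⟩
      exact (H.void (A _) hδ hB h1' ((hs _).2.2 ha) (mem_iInter₂.1 hx a ha) ha').2 he

end FarD

end Crest.Agent.N255.Pa

end
end

-- ▼ part N255/En/Reg
section

/-!
# Row 255 (helper88): the label cover of the far part of an admissible region is pro-acyclic
-/

set_option autoImplicit false
set_option linter.unusedSectionVars false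
open Set Filter Topology

noncomputable section

namespace Crest.Agent.N255.En

open Tp Nv Pt Lv Pa

variable {ι S : Type} [DecidableEq ι] [MulAction (FreeGroup ι) S] {w : Wl ι S}
  {F : Subgroup (FreeGroup ι)} {X : Type} [TopologicalSpace X] [MulAction F X] {N : Lev w F X}
  {k : Type} [CommRing k]

/-- the clamped level -/
def Lev.cl (N : Lev w F X) (e : Ed ι) : C(X, ℝ) :=
  ⟨fun x => max 0 (min 1 (N.s e x)), by fun_prop⟩

theorem Lev.cl_lt {e : Ed ι} {x : X} {t : ℝ} (h0 : 0 < t) (h1 : t ≤ 1) :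
    N.cl e x < t ↔ N.s e x < t := by
  change max 0 (min 1 (N.s e x)) < t ↔ _
  rw [max_lt_iff, min_lt_iff]
  exact ⟨fun h => h.2.resolve_left (not_lt.2 h1), fun h => ⟨h0, Or.inr h⟩⟩

theorem Lev.lt_cl {e : Ed ι} {x : X} {t : ℝ} (h0 : 0 ≤ t) (h1 : t < 1) :
    t < N.cl e x ↔ t < N.s e x := by
  change t < max 0 (min 1 (N.s e x)) ↔ _
  rw [lt_max_iff, lt_min_iff]
  exact ⟨fun h => (h.resolve_left (not_lt.2 h0)).2, fun h => Or.inr ⟨h1, h⟩⟩

namespace Tl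

variable (L : Tl N k)

/-- the abstract far data -/
def fd : FarD X S {e : Ed ι // pos e} :=
  ⟨Cl w.Γ, L.ν, N.r, fun e => N.cl e.1, fun e => w.T e.1, fun e => w.B e.1⟩

theorem big (ε : ℝ) (hε : 0 < ε) : ∃ R₀, L.fd.Big ε R₀ := by
  obtain ⟨R₁, h1⟩ := L.adj ε hε
  obtain ⟨R₂, h2⟩ := L.hA1 ε hε
  obtain ⟨R₃, h3⟩ := L.hA2 ε hε
  refine ⟨max R₁ (max R₂ R₃), fun x hx a b => h1 x a b ((le_max_left _ _).trans_lt hx),
    fun x hx e b hb => ?_, fun x hx e h => ?_⟩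
  · have h := h2 e.1 x b e.2 (((le_max_left _ _).trans (le_max_right _ _)).trans_lt hx) hb
    change min 1 (L.ν b x) ≤ max 0 (min 1 (N.s e.1 x)) + ε
    rcases le_total 1 (N.s e.1 x) with h' | h'
    · rw [min_eq_left h', max_eq_right zero_le_one]
      linarith [min_le_left 1 (L.ν b x)]
    · rwa [min_eq_right h']
  · have h4 : ε < min 1 (N.s e.1 x) := (lt_max_iff.1 h).resolve_left (not_lt.2 hε.le)
    obtain ⟨b, hb, h5⟩ := h3 e.1 x e.2 (((le_max_right _ _).trans (le_max_right _ _)).trans_lt hx)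
      (lt_min_iff.1 h4).2
    refine ⟨b, hb, ?_⟩
    change max 0 (min 1 (N.s e.1 x)) < _
    rwa [max_eq_right (hε.le.trans h4.le)]

theorem ok (C : ℝ) : ∃ m, L.fd.Ok k 4 m C := by
  obtain ⟨m, hm⟩ := w.nev
  refine ⟨m, Cl.rfl, fun _ _ => Cl.symm, w.dim, fun ε R₀ hε => ?_, fun a c R₀ _ => ?_,
    fun ε R₀ hε => ?_, fun e a c R₀ ε _ hε ha => ?_, L.big, fun e a b h hb => ?_,
    fun e => disjoint_left.2 (w.TB e.1), fun e s h1 h2 h3 => hm e.1 s h1 h3 h2⟩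
  · obtain ⟨R₁, h⟩ := L.pa0 C ε R₀ hε
    exact ⟨R₁, fun s th h1 h2 h3 => h s h1 h2 th fun a _ => ⟨(h3 a).1, by linarith [(h3 a).2]⟩⟩
  · obtain ⟨x, h1, h2, -⟩ := L.ne a c 1 R₀ one_pos
    exact ⟨x, h2, h1⟩
  · obtain ⟨R₁, h⟩ := L.pa1 C ε R₀ hε
    refine ⟨R₁, fun e s th t h1 h2 h3 h4 h5 h6 h7 => ?_⟩
    refine acy_mono (h e.1 e.2 t h6 (by linarith) s h1 h2 th fun a ha => ⟨(h4 a).1,
      by linarith [(h4 a).2], disjoint_left.1 h3 ha, fun hT => by linarith [h5 a ha hT]⟩)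
      (inter_subset_inter_right _ fun x hx => ?_) (inter_subset_inter_right _ fun x hx => ?_)
    · exact (Lev.cl_lt (by linarith) (by linarith)).1 hx
    · exact (Lev.cl_lt (by linarith) (by linarith)).2 hx
  · obtain ⟨R₁, hB⟩ := L.big (ε / 3) (by linarith)
    obtain ⟨x, h1, h2, h3⟩ := L.ne a c (ε / 3) (max R₀ R₁) (by linarith)
    refine ⟨x, h2, (le_max_left _ _).trans_lt h1, by_contra fun hn => ?_⟩
    have h4 : ε ≤ L.fd.h e x := not_lt.1 hn
    obtain ⟨b, hb, h5⟩ := hB.hA2 x ((le_max_right _ _).trans_lt h1) e (by linarith)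
    have h6 : L.fd.ν b x < ε / 3 := h3 b fun h => ha (h ▸ hb)
    linarith
  · rcases w.tri e.1 a with h' | h' | h'
    exacts [Or.inl h', Or.inr h', absurd h.symm (w.BB e.1 b a hb h')]

/-- the retreating regions -/
def _root_.Crest.Agent.N255.En.Lev.Rn (N : Lev w F X) (δ R₀ : ℝ) (J : Finset (Ed ι))
    (t : Ed ι → ℝ) (n : ℕ) : Set X := N.Reg J (fun e => t e + δ * u n) (R₀ + n)

/-- the label cover of the retreating regions -/
def Vc (δ c R₀ : ℝ) (J : Finset (Ed ι)) (t : Ed ι → ℝ) (a : S) (n : ℕ) : Set X :=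
  {x | c - δ * u n < L.ν a x} ∩ N.Rn δ R₀ J t n

/-- thresholds with margin `δ` -/
def _root_.Crest.Agent.N255.En.Mg (δ : ℝ) (J : Finset (Ed ι)) (t : Ed ι → ℝ) : Prop :=
  ∀ e ∈ J, 2 * δ ≤ t e ∧ t e + 2 * δ ≤ 1 ∧ (rev e ∈ J → 1 ≤ t e + t (rev e))

theorem _root_.Crest.Agent.N255.En.Adm.mg {J : Finset (Ed ι)} {t t' : Ed ι → ℝ} (h : Adm J t t') :
    ∃ δ, 0 < δ ∧ δ ≤ 1 ∧ Mg δ J t ∧ ∀ e ∈ J, t e + δ ≤ t' e := by
  have h1 : ∀ᶠ δ in 𝓝[>] (0 : ℝ), ∀ e ∈ J, δ < min (t e / 2) (min ((1 - t e) / 2) (t' e - t e)) := by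
    refine (eventually_all_finset J).2 fun e he => mem_nhdsWithin_of_mem_nhds (Iio_mem_nhds ?_)
    obtain ⟨a, b, c, -⟩ := h e he
    exact lt_min (by linarith) (lt_min (by linarith) (by linarith))
  obtain ⟨δ, ⟨h2, h3⟩, h4⟩ := ((h1.and (mem_nhdsWithin_of_mem_nhds (Iio_mem_nhds one_pos))).and
    self_mem_nhdsWithin).exists
  refine ⟨δ, h4, le_of_lt h3, fun e he => ?_, fun e he => ?_⟩ <;>
    obtain ⟨a, b, c⟩ : δ < t e / 2 ∧ δ < (1 - t e) / 2 ∧ δ < t' e - t e := by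
      simpa only [lt_min_iff] using h2 e he
  · exact ⟨by linarith, by linarith, fun h' => ((h e he).2.2.2 h').le⟩
  · linarith

theorem _root_.Crest.Agent.N255.En.Wl.T_disj (w : Wl ι S) {e e' : Ed ι} (h : e' ≠ e)
    (h' : e' ≠ rev e) : Disjoint (w.T e) (w.T e') := by
  have key : ∀ e e', Bey e e' → Disjoint (w.T e) (w.T e') := fun e e' h =>
    disjoint_left.2 fun a ha ha' => w.TB e a ha (w.bey e e' h (Or.inl ha'))
  rcases bey_total e e' with h1 | h1 | h1 | h1 | h1 | h1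
  · exact absurd h1 h
  · exact absurd h1 h'
  all_goals simpa only [w.T_rev] using key _ _ h1

theorem fadm {δ : ℝ} {J : Finset (Ed ι)} {t : Ed ι → ℝ} (h : Mg δ J t) :
    L.fd.Adm δ {e | e.1 ∈ J} {e | rev e.1 ∈ J} (fun e => t e.1) fun e => 1 - t (rev e.1) :=
  ⟨J.finite_toSet.preimage Subtype.val_injective.injOn,
    J.finite_toSet.preimage (f := fun e : {e : Ed ι // pos e} => rev e.1) fun a _ b _ hab =>
      Subtype.ext (by simpa using congrArg rev hab),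
    fun e he => ⟨(h _ he).1, by linarith [(h _ he).2.1]⟩,
    fun e he => ⟨by linarith [(h _ he).2.1], by linarith [(h _ he).1]⟩,
    fun e he he' => by linarith [(h _ he).2.2 he'],
    fun e _ e' _ hne => w.T_disj (fun h => hne (Subtype.ext h.symm))
      fun h => (pos_rev _).1 (h ▸ e'.2) e.2⟩

theorem fmod {J : Finset (Ed ι)} :
    w.Mod J ⊆ L.fd.Mod {e | e.1 ∈ J} {e | rev e.1 ∈ J} := fun a ha =>
  ⟨fun e he => ha _ he, fun e he => by
    rcases w.tri e.1 a with h | h | h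
    exacts [Or.inl h, Or.inr h, absurd h (ha _ he)]⟩

theorem freg {δ : ℝ} (hδ : 0 < δ) {J : Finset (Ed ι)} {t : Ed ι → ℝ} (h : Mg δ J t) (n : ℕ)
    (x : X) : x ∈ L.fd.Reg δ {e | e.1 ∈ J} {e | rev e.1 ∈ J} (fun e => t e.1)
      (fun e => 1 - t (rev e.1)) n ↔ ∀ e ∈ J, N.s e x < t e + δ * u n := by
  obtain ⟨-, -, e3, e4⟩ := FarD.eps_facts hδ n
  have h1 : ∀ e ∈ J, (N.cl e x < t e + δ * u n ↔ N.s e x < t e + δ * u n) := fun e he =>
    Lev.cl_lt (by linarith [(h e he).1]) (by linarith [(h e he).2.1])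
  have h2 : ∀ e, rev e ∈ J → (1 - t (rev e) - δ * u n < N.cl e x ↔
      N.s (rev e) x < t (rev e) + δ * u n) := fun e he => by
    rw [Lev.lt_cl (by linarith [(h _ he).2.1]) (by linarith [(h _ he).1]), N.s_rev]
    constructor <;> intro <;> linarith
  refine ⟨fun hx e he => ?_, fun hx => ⟨fun e he => (h1 _ he).2 (hx _ he),
    fun e he => (h2 _ he).2 (hx _ he)⟩⟩
  by_cases hp : pos e
  · exact (h1 e he).1 (hx.1 ⟨e, hp⟩ he)
  · have he' : rev (rev e) ∈ J := by rwa [rev_rev]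
    have := (h2 _ he').1 (hx.2 ⟨rev e, (pos_rev e).2 hp⟩ he')
    rwa [rev_rev] at this

theorem _root_.Crest.Agent.N255.En.Lev.oRn {δ : ℝ} (hδ : 0 < δ) (R₀ : ℝ) {P : Type}
    (J : P → Finset (Ed ι)) (t : P → Ed ι → ℝ) : OSys fun p => N.Rn δ R₀ (J p) (t p) :=
  ⟨fun p n => by
    have : N.Rn δ R₀ (J p) (t p) n = {x | R₀ + n < N.r x} ∩
        ⋂ e ∈ J p, {x | N.s e x < t p e + δ * u n} := by
      ext x; simp [Lev.Rn, Lev.Reg]
    rw [this]
    exact (isOpen_lt continuous_const N.r.continuous).inter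
      (isOpen_biInter_finset fun e _ => isOpen_lt (N.s e).continuous continuous_const),
  fun p n n' h x hx => by
    have h1 := mul_le_mul_of_nonneg_left (u_anti h) hδ.le
    have h2 : (n : ℝ) ≤ n' := Nat.cast_le.2 h
    exact ⟨by linarith [hx.1], fun e he => by linarith [hx.2 e he]⟩⟩

theorem oVc {δ : ℝ} (hδ : 0 < δ) (c R₀ : ℝ) {P : Type} (J : P → Finset (Ed ι))
    (t : P → Ed ι → ℝ) (a : P → S) : OSys fun p => L.Vc δ c R₀ (J p) (t p) (a p) :=
  OSys.inter (U := fun p n => {x | c - δ * u n < L.ν (a p) x})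
    ⟨fun _ _ => isOpen_lt continuous_const (L.ν _).continuous, fun p n n' h x hx => by
      have h1 := mul_le_mul_of_nonneg_left (u_anti h) hδ.le
      have h2 : c - δ * u n' < L.ν (a p) x := hx
      exact show c - δ * u n < L.ν (a p) x by linarith⟩ (Lev.oRn hδ R₀ J t)

/-- **the label cover is pro-acyclic**, uniformly in the region -/
theorem pac [Nontrivial k] {δ c : ℝ} (hδ : 0 < δ) (hc : 2 + 2 * δ ≤ c) : ∃ R₁, ∀ R₀, R₁ ≤ R₀ →
    ∀ {P : Type} (J : P → Finset (Ed ι)) (t : P → Ed ι → ℝ) (s : P → Finset S),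
      (∀ p, Mg δ (J p) (t p)) →
      (∀ p, (s p).Nonempty ∧ Cq (Cl w.Γ) (s p) ∧ (s p : Set S) ⊆ w.Mod (J p)) →
      PAc k fun p n => ⋂ a ∈ s p, L.Vc δ c R₀ (J p) (t p) a n := by
  obtain ⟨m, H⟩ := L.ok c
  obtain ⟨R₁, hB⟩ := L.big _ hδ
  refine ⟨R₁, fun R₀ hR P J t s hA hs => (H.pacReg hδ (hB.mono hR) (th := fun _ => c)
    (fun _ => ⟨by linarith, le_rfl⟩) (fun _ => by linarith) (by linarith)
    (fun p => L.fadm (hA p)) s
    fun p => ⟨(hs p).1, (hs p).2.1, (hs p).2.2.trans L.fmod⟩).congr fun p n => ?_⟩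
  obtain ⟨a, ha⟩ := (hs p).1
  ext x
  rw [mem_inter_iff, L.freg hδ (hA p), mem_iInter₂, mem_iInter₂]
  exact ⟨fun h => ⟨fun b hb => ⟨(h b hb).1, (h b hb).2.1⟩, (h a ha).2.2⟩,
    fun h b hb => ⟨(h.1 b hb).1, (h.1 b hb).2, h.2⟩⟩

/-- the same for unions -/
theorem pacU [Nontrivial k] {δ c : ℝ} (hδ : 0 < δ) (hc : 2 + 2 * δ ≤ c) : ∃ R₁, ∀ R₀, R₁ ≤ R₀ →
    ∀ {P : Type} (J : P → Finset (Ed ι)) (t : P → Ed ι → ℝ) (s : P → Finset S),
      (∀ p, Mg δ (J p) (t p)) →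
      (∀ p, (s p).Nonempty ∧ Cq (Cl w.Γ) (s p) ∧ (s p : Set S) ⊆ w.Mod (J p)) →
      PAc k fun p n => ⋃ a ∈ s p, L.Vc δ c R₀ (J p) (t p) a n := by
  obtain ⟨R₁, h⟩ := L.pac hδ hc
  refine ⟨R₁, fun R₀ hR P J t s hA hs => (PAc.union_of_inter (k := k) (m := 4)
    (C := fun p s => s.Nonempty ∧ Cq (Cl w.Γ) s ∧ (s : Set S) ⊆ w.Mod (J p))
    (B := fun p a => L.Vc δ c R₀ (J p) (t p) a)
    ⟨fun _ _ h => h.1, fun _ _ _ h ht hn => ⟨hn, h.2.1.mono ht, subset_trans ht h.2.2⟩,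
      fun _ s h => w.dim s h.2.1⟩
    (L.oVc hδ c R₀ (fun p : P × S => J p.1) (fun p => t p.1) fun p => p.2)
    (h R₀ hR _ _ _ (fun p => hA p.1.1) fun p => p.2)).comp fun p => ⟨(p, s p), hs p⟩⟩

/-- the cover property: far points of the region lie in the set of their label -/
theorem mem_Vc {δ : ℝ} (c : ℝ) (hδ : 0 < δ) : ∃ R₁, ∀ R₀, R₁ ≤ R₀ → ∀ J t, Mg δ J t → ∀ n,
    ∀ x ∈ N.Rn δ R₀ J t n, N.lab x ∈ w.Mod J ∧ x ∈ L.Vc δ c R₀ J t (N.lab x) n := by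
  obtain ⟨R₁, h1⟩ := L.deep c
  obtain ⟨R₂, h2⟩ := N.lab_side δ hδ
  refine ⟨max R₁ R₂, fun R₀ hR J t hA n x hx => ?_⟩
  obtain ⟨-, -, e3, e4⟩ := FarD.eps_facts hδ n
  have h3 : max R₁ R₂ < N.r x := by
    have : (0 : ℝ) ≤ n := Nat.cast_nonneg n
    linarith [hx.1]
  refine ⟨fun e he => h2 e x ((le_max_right _ _).trans_lt h3) ?_, ?_, hx⟩
  · linarith [hx.2 e he, (hA e he).2.1]
  · have := h1 x ((le_max_left _ _).trans_lt h3)
    exact show c - δ * u n < L.ν (N.lab x) x by linarith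


/-- a small set which contains a far point `x` is deep behind the label of `x` -/
theorem small_deep (c : ℝ) : ∃ R₁, ∀ U ∈ N.cv, ∀ x ∈ U, ∀ y ∈ U, R₁ < N.r x → R₁ < N.r y →
    c < L.ν (N.lab x) y := by
  obtain ⟨R₁, h1⟩ := L.deep (c + 1)
  obtain ⟨R₂, h2⟩ := L.slow c 1 one_pos
  refine ⟨max R₁ R₂, fun U hU x hx y hy h3 h4 => by_contra fun hn => ?_⟩
  have h5 := h2 (N.lab x) U hU y hy x hx ((le_max_right _ _).trans_lt h4) (not_lt.1 hn)
  have h6 := h1 x ((le_max_left _ _).trans_lt h3)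
  linarith [not_lt.1 hn]

end Tl

end Crest.Agent.N255.En

end
end

-- ▼ part N255/Nv/Nrv
section

/-!
# Row 255 (helper2): the pro-nerve theorem in cohomological form
-/

set_option autoImplicit false
open Set Finsupp

noncomputable section

namespace Crest.Agent.N255.Nv.Nr

open Crest.Agent.N255.Tp

/-- a pro-acyclic cover of `Q` with labels -/
structure Sy (k X I : Type) [CommRing k] [TopologicalSpace X] where
  R : I → I → Prop
  M : Set I
  cv : Set (Set X)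
  V : I → ℕ → Set X
  Q : Set X
  l : X → I
  refl : ∀ a, R a a
  symm : ∀ a b, R a b → R b a
  op : ∀ U ∈ cv, IsOpen U
  cov : univ ⊆ ⋃₀ cv
  anti : ∀ a, Antitone (V a)
  ne : ∀ a ∈ M, ∀ n, (V a n).Nonempty
  ac : ∀ n, ∃ n', n ≤ n' ∧ ∀ s : Finset I, s.Nonempty → ↑s ⊆ M → Cq R s →
    Acy k (⋃ a ∈ s, V a n') (⋃ a ∈ s, V a n)
  VQ : ∀ a ∈ M, V a 0 ⊆ Q
  lM : ∀ x ∈ Q, l x ∈ M
  cl : ∀ U ∈ cv, ∀ x ∈ U, ∀ y ∈ U, x ∈ Q → y ∈ Q → R (l x) (l y)
  ad : ∀ a ∈ M, ∀ U ∈ cv, ∀ x ∈ U, ∀ y ∈ U, x ∈ V a 0 → y ∈ Q → R a (l y)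

variable {k X I : Type} [CommRing k] [TopologicalSpace X] {A : Type} [AddCommGroup A] [Module k A]

theorem pick2 {B M M' : Type} [AddCommGroup M] [Module k M] [AddCommGroup M'] [Module k M']
    {F : (B →₀ k) →ₗ[k] M'} {d : M' →ₗ[k] M} {z : (B →₀ k) →ₗ[k] M} {N : B → Submodule k M'}
    (hF : F = pick d z N) (a : B) (w : M) (hw : z (single a 1) = w) (h : ∃ b ∈ N a, d b = w) :
    F (single a 1) ∈ N a ∧ d (F (single a 1)) = w := by
  subst hF hw; exact pick_spec h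

namespace Sy

variable (S : Sy k X I) {n m N : ℕ}

/-- small simplices in a set -/
abbrev Sb (B : Set X) : Tp.Sb X := (On B).inf (Sm S.cv)

/-- small chains in the carrier of `s` -/
def SC (s : Set I) (r m : ℕ) : Submodule k (Ch k m X) := (S.Sb (⋃ a ∈ s, S.V a r)).ch k m

/-- clique tuples -/
abbrev C (n : ℕ) : Set (Tu I n) := CT S.R S.M n

theorem Sb_le {B B' : Set X} (h : B ⊆ B') : (S.Sb B).Le (S.Sb B') :=
  fun n _ hσ => ⟨On_le h n hσ.1, hσ.2⟩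

theorem SC_mono {s s' : Set I} {r r' : ℕ} (h : s ⊆ s') (hr : r' ≤ r) : S.SC s r m ≤ S.SC s' r' m :=
  Tp.Sb.ch_mono (S.Sb_le (iUnion₂_subset fun a ha =>
    (S.anti a hr).trans (subset_biUnion_of_mem (u := fun a => S.V a r') (h ha))))

theorem SC_le {s : Set I} {r : ℕ} (h : s ⊆ S.M) : S.SC s r m ≤ (S.Sb S.Q).ch k m :=
  Tp.Sb.ch_mono (S.Sb_le (iUnion₂_subset fun a ha =>
    (S.anti a (Nat.zero_le r)).trans (S.VQ a (h ha))))

/-- one retreat -/
def Stp (r' r : ℕ) : Prop := r ≤ r' ∧ ∀ s : Finset I, s.Nonempty → ↑s ⊆ S.M → Cq S.R s →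
  Acy k (⋃ a ∈ s, S.V a r') (⋃ a ∈ s, S.V a r)

theorem exists_st (N : ℕ) : ∃ st : ℕ → ℕ, ∀ n < N, S.Stp (st n) (st (n + 1)) := by
  choose ρ hρ using S.ac
  refine ⟨fun n => ρ^[N - n] 0, fun n hn => ?_⟩
  simp only [show N - n = N - (n + 1) + 1 by omega, Function.iterate_succ_apply']
  exact hρ _

variable {S}

theorem fill {r r' : ℕ} (h : S.Stp r' r) {v : Tu I n} (hv : v ∈ S.C n) {c : Ch k m X}
    (hc : c ∈ S.SC (range v) r' m) (h0 : c ∈ rcyc k X m) :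
    ∃ b ∈ S.SC (range v) r (m + 1), bd k b = c := by
  classical
  have e : ((Finset.univ.image v : Finset I) : Set I) = range v := by simp
  have a := h.2 (Finset.univ.image v) (Finset.univ_nonempty.image v) (e ▸ hv.1) (e ▸ hv.2)
  simp only [← Finset.mem_coe, e] at a
  obtain ⟨b, hb, rfl⟩ := a m ⟨Tp.Sb.ch_mono Tp.Sb.inf_le_left hc, h0⟩
  obtain ⟨s, hs, d, -, hd⟩ := smChS_holds k X _ S.cv S.op ((subset_univ _).trans S.cov) m b hb
    (Tp.Sb.ch_mono Tp.Sb.inf_le_right hc)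
  refine ⟨s, hs, ?_⟩
  rw [← sub_eq_zero, ← map_sub, ← neg_sub, ← hd, map_neg, bd_bd, neg_zero]


theorem single_C {v : Tu I (n + 1)} :
    tb k n (single v 1) ∈ supported k k {ω : Tu I n | range ω ⊆ range v} :=
  tb_mem (P := fun t => t ⊆ range v) (fun _ _ h h' => h.trans h')
    (single_mem_supported k 1 Subset.rfl)

theorem tb_C {v : Tu I (n + 1)} (hv : v ∈ S.C (n + 1)) :
    tb k n (single v 1) ∈ supported k k (S.C n) :=
  supported_mono (fun _ hω => CT.of_sub hv.1 hv.2 hω) single_C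

variable (S) (st : ℕ → ℕ)

open Classical in
/-- the chain map back -/
def jj : ∀ n, (Tu I n →₀ k) →ₗ[k] Ch k n X
  | 0 => linearCombination k fun v =>
      if h : (S.V (v 0) (st 0)).Nonempty then sg k (ContinuousMap.const _ h.some) else 0
  | n + 1 => pick (bd k) (jj n ∘ₗ tb k n) fun v => S.SC (range v) (st (n + 1)) (n + 1)

theorem jj_succ (n : ℕ) : S.jj st (n + 1) =
    pick (bd k) (S.jj st n ∘ₗ tb k n) fun v => S.SC (range v) (st (n + 1)) (n + 1) := rfl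

variable {S st}

theorem jj_zero {v : Tu I 0} (hv : v ∈ S.C 0) : S.jj st 0 (single v 1) ∈ S.SC (range v) (st 0) 0 ∧
    aug k (S.jj st 0 (single v 1)) = 1 := by
  have h := S.ne _ (hv.1 ⟨0, rfl⟩) (st 0)
  rw [jj, linearCombination_single, one_smul, dif_pos h]
  obtain ⟨U, hU, hx⟩ := S.cov (mem_univ h.some)
  refine ⟨Tp.Sb.sg_mem ⟨?_, U, hU, ?_⟩, aug_sg _⟩
  · rintro _ ⟨t, rfl⟩; exact mem_biUnion (mem_range_self 0) h.some_mem
  · rintro _ ⟨t, rfl⟩; exact hx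

theorem aug_jj {c : Tu I 0 →₀ k} (hc : c ∈ supported k k (S.C 0)) : aug k (S.jj st 0 c) = ta k c :=
  eq_of (F := aug k ∘ₗ S.jj st 0) (fun v hv => by
    rw [LinearMap.comp_apply, (jj_zero hv).2, ta_single]) hc

variable (hs : ∀ n < N, S.Stp (st n) (st (n + 1)))
include hs

theorem jj_spec : ∀ n ≤ N, (∀ v ∈ S.C n, S.jj st n (single v 1) ∈ S.SC (range v) (st n) n) ∧
    (∀ c ∈ supported k k (S.C (n + 1)), S.jj st n (tb k n c) ∈ rcyc k X n) ∧
    ∀ m, n = m + 1 → ∀ c ∈ supported k k (S.C (m + 1)),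
      bd k (S.jj st (m + 1) c) = S.jj st m (tb k m c) := by
  intro n
  induction n with
  | zero =>
    exact fun _ => ⟨fun v hv => (jj_zero hv).1, fun c hc => mem_of
      (F := S.jj st 0 ∘ₗ tb k 0) (fun v hv => show aug k _ = 0 by
        rw [LinearMap.comp_apply, aug_jj (tb_C hv), ta_tb]) hc, fun m h => by omega⟩
  | succ n ih =>
    intro hn
    obtain ⟨h1, h2, -⟩ := ih (by omega)
    have key : ∀ v ∈ S.C (n + 1), S.jj st (n + 1) (single v 1) ∈ S.SC (range v) (st (n + 1)) (n + 1) ∧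
        bd k (S.jj st (n + 1) (single v 1)) = S.jj st n (tb k n (single v 1)) := fun v hv =>
      (pick2 (S.jj_succ st n) v _ rfl (fill (hs n (by omega)) hv (mem_of (F := S.jj st n) (fun ω hω =>
        S.SC_mono hω le_rfl (h1 ω (CT.of_sub hv.1 hv.2 hω))) single_C)
        (h2 _ (single_mem_supported k 1 hv))) : _)
    have k2 : ∀ c ∈ supported k k (S.C (n + 1)), bd k (S.jj st (n + 1) c) = S.jj st n (tb k n c) :=
      fun c hc => eq_of (F := bd k ∘ₗ S.jj st (n + 1)) (F' := S.jj st n ∘ₗ tb k n)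
        (fun v hv => (key v hv).2) hc
    refine ⟨fun v hv => (key v hv).1, fun c hc => mem_of (F := S.jj st (n + 1) ∘ₗ tb k (n + 1))
      (fun v hv => show bd k _ = 0 from ?_) hc, fun m h => ?_⟩
    · rw [LinearMap.comp_apply, k2 _ (tb_C hv), tb_tb, map_zero]
    · obtain rfl : n = m := by omega
      exact k2

theorem jj_mem (hn : n ≤ N) {v : Tu I n} (hv : v ∈ S.C n) :
    S.jj st n (single v 1) ∈ S.SC (range v) (st n) n := (jj_spec hs n hn).1 v hv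

theorem bd_jj (hn : n + 1 ≤ N) {c : Tu I (n + 1) →₀ k} (hc : c ∈ supported k k (S.C (n + 1))) :
    bd k (S.jj st (n + 1) c) = S.jj st n (tb k n c) := (jj_spec hs _ hn).2.2 n rfl c hc

omit hs

/-- the relation restricted to `M` -/
def R' (S : Sy k X I) (a b : I) : Prop := S.R a b ∧ a ∈ S.M ∧ b ∈ S.M

/-- carriers of tuples -/
abbrev TC (S : Sy k X I) (s : Set I) (n : ℕ) : Set (Tu I n) := Un (St S.R') ∅ s n

theorem TC_C {s : Set I} {ω : Tu I n} (h : ω ∈ S.TC s n) : ω ∈ S.C n := by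
  obtain ⟨a, -, ha⟩ := h.2
  exact ⟨fun x hx => (ha x (Or.inr hx) x (Or.inr hx)).2.1,
    fun x hx y hy => (ha x (Or.inr hx) y (Or.inr hy)).1⟩

theorem TC_mono {s s' : Set I} (h : s ⊆ s') : S.TC s n ⊆ S.TC s' n :=
  fun _ hω => ⟨hω.1, hω.2.imp fun _ ha => ⟨h ha.1, ha.2⟩⟩

theorem self_TC {v : Tu I n} (hv : v ∈ S.C n) : v ∈ S.TC (range v) n :=
  ⟨fun _ h => h.elim, v 0, ⟨0, rfl⟩, by
    change Cq _ (insert _ _)
    rw [insert_eq_of_mem (mem_range_self 0)]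
    exact fun x hx y hy => ⟨hv.2 x hx y hy, hv.1 hx, hv.1 hy⟩⟩

theorem vl_C {σ : Sx n X} (h : σ ∈ (S.Sb S.Q).S n) : vl S.l σ ∈ S.C n := by
  obtain ⟨h1, U, hU, h2⟩ := h
  refine ⟨?_, ?_⟩
  · rintro _ ⟨i, rfl⟩; exact S.lM _ (h1 ⟨_, rfl⟩)
  · rintro _ ⟨i, rfl⟩ _ ⟨j, rfl⟩
    exact S.cl U hU _ (h2 ⟨_, rfl⟩) _ (h2 ⟨_, rfl⟩) (h1 ⟨_, rfl⟩) (h1 ⟨_, rfl⟩)

theorem lb_TC {s : Set I} {r : ℕ} (h : s ⊆ S.M) {c : Ch k n X} (hc : c ∈ S.SC s r n) :
    lb k S.l n c ∈ supported k k (S.TC s n) :=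
  Tp.Sb.map_mem _ _ (fun σ hσ => by
    rw [lb_sg]
    have hQ : σ ∈ (S.Sb S.Q).S n := S.Sb_le (iUnion₂_subset fun a ha =>
      (S.anti a (Nat.zero_le r)).trans (S.VQ a (h ha))) n hσ
    have hC := vl_C hQ
    obtain ⟨h1, U, hU, h2⟩ := hσ
    obtain ⟨a, ha, hx⟩ := mem_iUnion₂.1 (h1 ⟨stdSimplex.vertex 0, rfl⟩)
    have had : ∀ y ∈ range (vl S.l σ), S.R a y := by
      rintro _ ⟨i, rfl⟩
      exact S.ad a (h ha) U hU _ (h2 ⟨_, rfl⟩) _ (h2 ⟨_, rfl⟩) (S.anti a (Nat.zero_le r) hx)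
        (hQ.1 ⟨_, rfl⟩)
    refine single_mem_supported k 1 ⟨fun _ h => h.elim, a, ha, ?_⟩
    rintro x (rfl | hx') y (rfl | hy)
    exacts [⟨S.refl _, h ha, h ha⟩, ⟨had y hy, h ha, hC.1 hy⟩,
      ⟨S.symm _ _ (had x hx'), hC.1 hx', h ha⟩, ⟨hC.2 x hx' y hy, hC.1 hx', hC.1 hy⟩]) hc

theorem fillT {v : Tu I n} (hv : v ∈ S.C n) {c : Tu I m →₀ k}
    (hc : c ∈ supported k k (S.TC (range v) m)) (h0 : c ∈ rc (tb k) (ta k) m) :
    ∃ b ∈ supported k k (S.TC (range v) (m + 1)), tb k m b = c := by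
  classical
  have e : ((Finset.univ.image v : Finset I) : Set I) = range v := by simp
  have a := ac_st (k := k) (R := S.R') (Finset.univ.image v) (Finset.univ_nonempty.image v)
    (e ▸ fun x hx y hy => ⟨hv.2 x hx y hy, hv.1 hx, hv.1 hy⟩)
  rw [e] at a
  exact a m c hc h0

variable (S st)

/-- the homotopy on tuples -/
def ht : ∀ n, (Tu I n →₀ k) →ₗ[k] (Tu I (n + 1) →₀ k)
  | 0 => pick (tb k 0) (LinearMap.id - lb k S.l 0 ∘ₗ S.jj st 0) fun v =>
      supported k k (S.TC (range v) 1)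
  | n + 1 => pick (tb k (n + 1)) (LinearMap.id - lb k S.l (n + 1) ∘ₗ S.jj st (n + 1) - ht n ∘ₗ tb k n)
      fun v => supported k k (S.TC (range v) (n + 2))

/-- the homotopy on singular chains -/
def hx : ∀ n, Ch k n X →ₗ[k] Ch k (n + 1) X
  | 0 => pick (bd k) (LinearMap.id - S.jj st 0 ∘ₗ lb k S.l 0) fun σ =>
      S.SC (range (vl S.l σ)) (st 1) 1
  | n + 1 => pick (bd k) (LinearMap.id - S.jj st (n + 1) ∘ₗ lb k S.l (n + 1) - hx n ∘ₗ bd k)
      fun σ => S.SC (range (vl S.l σ)) (st (n + 2)) (n + 2)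

theorem ht_zero : S.ht st 0 = pick (tb k 0) (LinearMap.id - lb k S.l 0 ∘ₗ S.jj st 0) fun v =>
    supported k k (S.TC (range v) 1) := rfl

theorem ht_succ (n : ℕ) : S.ht st (n + 1) = pick (tb k (n + 1))
    (LinearMap.id - lb k S.l (n + 1) ∘ₗ S.jj st (n + 1) - S.ht st n ∘ₗ tb k n)
      fun v => supported k k (S.TC (range v) (n + 2)) := rfl

theorem hx_zero : S.hx st 0 = pick (bd k) (LinearMap.id - S.jj st 0 ∘ₗ lb k S.l 0) fun σ =>
    S.SC (range (vl S.l σ)) (st 1) 1 := rfl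

theorem hx_succ (n : ℕ) : S.hx st (n + 1) = pick (bd k)
    (LinearMap.id - S.jj st (n + 1) ∘ₗ lb k S.l (n + 1) - S.hx st n ∘ₗ bd k)
      fun σ => S.SC (range (vl S.l σ)) (st (n + 2)) (n + 2) := rfl

variable {S st}
include hs

theorem ht_spec : ∀ n ≤ N, (∀ v ∈ S.C n, S.ht st n (single v 1) ∈
      supported k k (S.TC (range v) (n + 1))) ∧
    (n + 1 ≤ N → ∀ c ∈ supported k k (S.C (n + 1)), tb k n (S.ht st n (tb k n c)) =
      tb k n (c - lb k S.l (n + 1) (S.jj st (n + 1) c))) ∧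
    ∀ m, n = m + 1 → ∀ v ∈ S.C (m + 1), tb k (m + 1) (S.ht st (m + 1) (single v 1)) =
      single v 1 - lb k S.l (m + 1) (S.jj st (m + 1) (single v 1)) -
        S.ht st m (tb k m (single v 1)) := by
  have hm : ∀ n ≤ N, ∀ v ∈ S.C n, single v 1 - lb k S.l n (S.jj st n (single v 1)) ∈
      supported k k (S.TC (range v) n) := fun n hn v hv =>
    Submodule.sub_mem _ (single_mem_supported k 1 (self_TC hv)) (lb_TC hv.1 (jj_mem hs hn hv))
  intro n
  induction n with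
  | zero =>
    intro hn
    have key : ∀ v ∈ S.C 0, S.ht st 0 (single v 1) ∈ supported k k (S.TC (range v) 1) ∧
        tb k 0 (S.ht st 0 (single v 1)) = single v 1 - lb k S.l 0 (S.jj st 0 (single v 1)) :=
      fun v hv => (pick2 (S.ht_zero st) v _ rfl (fillT hv (hm 0 hn v hv)
        (show ta k (single v 1 - lb k S.l 0 (S.jj st 0 (single v 1))) = 0 by
          rw [map_sub, ta_lb, (jj_zero hv).2, ta_single, sub_self])) : _)
    refine ⟨fun v hv => (key v hv).1, fun h1 c hc => ?_, fun m h => by omega⟩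
    rw [map_sub, tb_lb, bd_jj hs h1 hc]
    exact eq_of (F := tb k 0 ∘ₗ S.ht st 0) (F' := LinearMap.id - lb k S.l 0 ∘ₗ S.jj st 0)
      (fun v hv => (key v hv).2) (mem_of (fun v hv => tb_C hv) hc)
  | succ n ih =>
    intro hn
    obtain ⟨h1, h2, -⟩ := ih (by omega)
    have key : ∀ v ∈ S.C (n + 1), S.ht st (n + 1) (single v 1) ∈
        supported k k (S.TC (range v) (n + 2)) ∧ tb k (n + 1) (S.ht st (n + 1) (single v 1)) =
        single v 1 - lb k S.l (n + 1) (S.jj st (n + 1) (single v 1)) -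
          S.ht st n (tb k n (single v 1)) := fun v hv =>
      (pick2 (S.ht_succ st n) v (single v 1 - lb k S.l (n + 1) (S.jj st (n + 1) (single v 1)) -
          S.ht st n (tb k n (single v 1))) rfl
        (fillT hv (Submodule.sub_mem _ (hm _ hn v hv) (mem_of (F := S.ht st n) (fun ω hω =>
          supported_mono (TC_mono hω) (h1 ω (CT.of_sub hv.1 hv.2 hω))) single_C))
          ((map_sub (tb k n) _ _).trans
            (sub_eq_zero.2 (h2 hn _ (single_mem_supported k 1 hv)).symm))) : _)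
    refine ⟨fun v hv => (key v hv).1, fun h3 c hc => ?_, fun m h => ?_⟩
    · rw [map_sub, tb_lb, bd_jj hs h3 hc]
      have := eq_of (F := tb k (n + 1) ∘ₗ S.ht st (n + 1))
        (F' := LinearMap.id - lb k S.l (n + 1) ∘ₗ S.jj st (n + 1) - S.ht st n ∘ₗ tb k n)
        (fun v hv => (key v hv).2) (mem_of (fun v hv => tb_C hv) hc)
      simpa [tb_tb] using this
    · obtain rfl : n = m := by omega
      exact fun v hv => (key v hv).2

omit hs in
/-- **injectivity of the pull back** -/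
theorem inj (S : Sy k X I) {ψ : Tu I (n + 1) → A} (hψ : ∀ v ∈ S.C (n + 2), td k ψ v = 0)
    (h : rs S.l ψ ∈ (S.Sb S.Q).Ex k A (n + 1)) :
    ∃ η : Tu I n → A, ∀ v ∈ S.C (n + 1), ψ v = td k η v := by
  obtain ⟨st, hs⟩ := S.exists_st (n + 1)
  obtain ⟨θ, hθ⟩ := Tp.Sb.mem_Ex.1 h
  obtain ⟨h1, -, h2⟩ := ht_spec hs (n + 1) le_rfl
  refine ⟨fun ω => ev k θ (S.jj st n (single ω 1)) +
    linearCombination k ψ (S.ht st n (single ω 1)), fun v hv => ?_⟩
  have e1 := congrArg (linearCombination k ψ) (h2 n rfl v hv)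
  rw [lc_tb, lc_zero hψ (supported_mono (fun _ => TC_C) (h1 v hv)), map_sub, map_sub, ← ev_rs,
    Tp.Sb.ev_congr hθ (S.SC_le hv.1 (jj_mem hs le_rfl hv)), ← ev_bd,
    bd_jj hs le_rfl (single_mem_supported k 1 hv), linearCombination_single, one_smul] at e1
  rw [td_eq, tu_ext (T := ev k θ ∘ₗ S.jj st n + linearCombination k ψ ∘ₗ S.ht st n)
    (fun τ => by simp)]
  rw [← sub_eq_zero, e1]
  simp only [LinearMap.add_apply, LinearMap.comp_apply]
  abel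

variable {Q' : Set X} (hQ : Q' ⊆ S.Q)
  (hV : ∀ U ∈ S.cv, ∀ x ∈ U, ∀ y ∈ U, x ∈ Q' → y ∈ Q' → y ∈ S.V (S.l x) (st 0))
include hQ hV

theorem hx_spec : ∀ n, n + 1 ≤ N → (∀ σ ∈ (S.Sb Q').S n, S.hx st n (sg k σ) ∈
      S.SC (range (vl S.l σ)) (st (n + 1)) (n + 1)) ∧
    (∀ c ∈ (S.Sb Q').ch k (n + 1), bd k (S.hx st n (bd k c)) =
      bd k (c - S.jj st (n + 1) (lb k S.l (n + 1) c))) ∧
    (n = 0 → ∀ σ ∈ (S.Sb Q').S 0, bd k (S.hx st 0 (sg k σ)) =
      sg k σ - S.jj st 0 (lb k S.l 0 (sg k σ))) ∧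
    ∀ m, n = m + 1 → ∀ σ ∈ (S.Sb Q').S (m + 1), bd k (S.hx st (m + 1) (sg k σ)) =
      sg k σ - S.jj st (m + 1) (lb k S.l (m + 1) (sg k σ)) - S.hx st m (bd k (sg k σ)) := by
  have hC : ∀ {n} {σ : Sx n X}, σ ∈ (S.Sb Q').S n → vl S.l σ ∈ S.C n :=
    fun h => vl_C (S.Sb_le hQ _ h)
  have lC : ∀ {n} {c : Ch k n X}, c ∈ (S.Sb Q').ch k n → lb k S.l n c ∈ supported k k (S.C n) :=
    fun h => Tp.Sb.map_mem _ _ (fun σ hσ => by
      rw [lb_sg]; exact single_mem_supported k 1 (hC hσ)) h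
  have st0 : ∀ n ≤ N, st n ≤ st 0 := fun n => by
    induction n with
    | zero => exact fun _ => le_rfl
    | succ n ih => exact fun h => (hs n (by omega)).1.trans (ih (by omega))
  have hm : ∀ n ≤ N, ∀ σ ∈ (S.Sb Q').S n, sg k σ - S.jj st n (lb k S.l n (sg k σ)) ∈
      S.SC (range (vl S.l σ)) (st n) n := fun n hn σ hσ => by
    refine Submodule.sub_mem _ (S.SC_mono Subset.rfl (st0 n hn) (Tp.Sb.sg_mem ⟨?_, hσ.2⟩)) ?_
    · obtain ⟨h1, U, hU, h2⟩ := hσ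
      exact fun y hy => mem_biUnion (mem_range_self 0)
        (hV U hU _ (h2 ⟨_, rfl⟩) y (h2 hy) (h1 ⟨_, rfl⟩) (h1 hy))
    · rw [lb_sg]; exact jj_mem hs hn (hC hσ)
  intro n
  induction n with
  | zero =>
    intro hn
    have key : ∀ σ ∈ (S.Sb Q').S 0, S.hx st 0 (sg k σ) ∈ S.SC (range (vl S.l σ)) (st 1) 1 ∧
        bd k (S.hx st 0 (sg k σ)) = sg k σ - S.jj st 0 (lb k S.l 0 (sg k σ)) := fun σ hσ =>
      (pick2 (S.hx_zero st) σ _ rfl (fill (hs 0 hn) (hC hσ) (hm 0 (by omega) σ hσ)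
        (show aug k (sg k σ - S.jj st 0 (lb k S.l 0 (sg k σ))) = 0 by
          rw [map_sub, lb_sg, (jj_zero (hC hσ)).2, aug_sg, sub_self])) : _)
    refine ⟨fun σ hσ => (key σ hσ).1, fun c hc => ?_, fun _ σ hσ => (key σ hσ).2,
      fun m h => by omega⟩
    rw [map_sub, bd_jj hs hn (lC hc), tb_lb]
    exact eq_of (F := bd k ∘ₗ S.hx st 0) (F' := LinearMap.id - S.jj st 0 ∘ₗ lb k S.l 0)
      (fun σ hσ => (key σ hσ).2) (Tp.Sb.bd_mem hc)
  | succ n ih =>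
    intro hn
    obtain ⟨h1, h2, -⟩ := ih (by omega)
    have key : ∀ σ ∈ (S.Sb Q').S (n + 1), S.hx st (n + 1) (sg k σ) ∈
        S.SC (range (vl S.l σ)) (st (n + 2)) (n + 2) ∧ bd k (S.hx st (n + 1) (sg k σ)) =
        sg k σ - S.jj st (n + 1) (lb k S.l (n + 1) (sg k σ)) - S.hx st n (bd k (sg k σ)) :=
      fun σ hσ => (pick2 (S.hx_succ st n) σ
        (sg k σ - S.jj st (n + 1) (lb k S.l (n + 1) (sg k σ)) - S.hx st n (bd k (sg k σ))) rfl
        (fill (hs (n + 1) hn) (hC hσ) (Submodule.sub_mem _ (hm _ (by omega) σ hσ) (by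
          rw [Tp.bd_sg, map_sum]
          refine Submodule.sum_mem _ fun i _ => ?_
          rw [map_smul]
          refine Submodule.smul_mem _ _ (S.SC_mono ?_ le_rfl (h1 _ ((S.Sb Q').fc_mem n σ i hσ)))
          rw [vl_fc]; exact range_tf _ i))
          ((map_sub (bd k) _ _).trans (sub_eq_zero.2 (h2 _ (Tp.Sb.sg_mem hσ)).symm))) : _)
    refine ⟨fun σ hσ => (key σ hσ).1, fun c hc => ?_, fun h => by omega, fun m h => ?_⟩
    · rw [map_sub, bd_jj hs hn (lC hc), tb_lb]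
      have := eq_of (F := bd k ∘ₗ S.hx st (n + 1))
        (F' := LinearMap.id - S.jj st (n + 1) ∘ₗ lb k S.l (n + 1) - S.hx st n ∘ₗ bd k)
        (fun σ hσ => (key σ hσ).2) (Tp.Sb.bd_mem hc)
      simpa [bd_bd] using this
    · obtain rfl : n = m := by omega
      exact fun σ hσ => (key σ hσ).2

omit hs hQ hV in
/-- **surjectivity of the pull back** -/
theorem sur (S : Sy k X I) (N : ℕ) : ∃ r, ∀ Q' ⊆ S.Q,
    (∀ U ∈ S.cv, ∀ x ∈ U, ∀ y ∈ U, x ∈ Q' → y ∈ Q' → y ∈ S.V (S.l x) r) → ∀ n ≤ N,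
    ∀ (A : Type) [AddCommGroup A] [Module k A], ∀ φ ∈ (S.Sb S.Q).Z k A n,
      ∃ ψ : Tu I n → A, (∀ v ∈ S.C (n + 1), td k ψ v = 0) ∧ φ - rs S.l ψ ∈ (S.Sb Q').Ex k A n := by
  obtain ⟨st, hs⟩ := S.exists_st (N + 1)
  refine ⟨st 0, fun Q' hQ hV n hn A _ _ φ hφ => ?_⟩
  have e : ∀ c, linearCombination k (fun v => ev k φ (S.jj st n (single v 1))) c =
      ev k φ (S.jj st n c) := tu_ext (T := ev k φ ∘ₗ S.jj st n) fun τ => by simp
  obtain ⟨h1, -, h2, h3⟩ := hx_spec hs hQ hV n (by omega)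
  have h0 : ∀ σ ∈ (S.Sb Q').S n, ev k φ (bd k (S.hx st n (sg k σ))) = 0 := fun σ hσ =>
    Tp.Sb.ev_B hφ (Tp.Sb.bd_mem_B (S.SC_le (vl_C (S.Sb_le hQ _ hσ)).1 (h1 σ hσ)))
  refine ⟨fun v => ev k φ (S.jj st n (single v 1)), fun v hv => ?_, ?_⟩
  · rw [td_eq, e, ← bd_jj hs (by omega) (single_mem_supported k 1 hv)]
    exact Tp.Sb.ev_B hφ (Tp.Sb.bd_mem_B (S.SC_le hv.1 (jj_mem hs (by omega) hv)))
  · cases n with
    | zero =>
      intro σ hσ
      have := h0 σ hσ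
      rwa [h2 rfl σ hσ, map_sub, Tp.ev_sg, lb_sg] at this
    | succ n =>
      refine Tp.Sb.mem_Ex.2 ⟨fun τ => ev k φ (S.hx st n (sg k τ)), fun σ hσ => ?_⟩
      have := h0 σ hσ
      rw [h3 n rfl σ hσ, map_sub, map_sub, Tp.ev_sg, lb_sg,
        show ev k φ (S.hx st n (bd k (sg k σ))) = _ from map_eq_ev (ev k φ ∘ₗ S.hx st n) _, Tp.ev_bd,
        Tp.ev_sg] at this
      exact this

end Sy

end Crest.Agent.N255.Nv.Nr

end
private theorem rz_ca64bec34d : type_of% @_root_.Crest.Agent.N255.Nv.Nr.Sy.jj.eq_def := @_root_.Crest.Agent.N255.Nv.Nr.Sy.jj.eq_def -- L112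
private theorem rz_1ab6a72fc4 : type_of% @_root_.Crest.Agent.N255.Nv.Nr.Sy.jj.eq_1 := @_root_.Crest.Agent.N255.Nv.Nr.Sy.jj.eq_1 -- L112
end

-- ▼ part N255/En/L1
section

/-!
# Row 255 (helper88): far cocycles are pulled back from the model (`L0`, `L1`, `L2`)
-/

set_option autoImplicit false
set_option linter.unusedSectionVars false
open Set Filter Topology

noncomputable section

namespace Crest.Agent.N255.En

open Tp Nv Pt Lv Pa

variable {ι S : Type} [DecidableEq ι] [MulAction (FreeGroup ι) S] {w : Wl ι S}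
  {F : Subgroup (FreeGroup ι)} {X : Type} [TopologicalSpace X] [MulAction F X] {N : Lev w F X}
  {k : Type} [CommRing k]

theorem Lev.Reg_le {J : Finset (Ed ι)} {t t' : Ed ι → ℝ} {R R' : ℝ} (h : ∀ e ∈ J, t e ≤ t' e)
    (hR : R ≤ R') : N.Reg J t R' ⊆ N.Reg J t' R :=
  fun _ hx => ⟨hR.trans_lt hx.1, fun e he => (hx.2 e he).trans_le (h e he)⟩

theorem Adm.shrink {J : Finset (Ed ι)} {t t' : Ed ι → ℝ} (h : Adm J t t') : ∃ t₀, Adm J t₀ t := by
  have h1 : ∀ᶠ η in 𝓝[>] (0 : ℝ), ∀ e ∈ J,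
      η < t e ∧ (rev e ∈ J → η < (t e + t (rev e) - 1) / 2) := by
    refine (eventually_all_finset J).2 fun e he => mem_nhdsWithin_of_mem_nhds ?_
    obtain ⟨a, -, -, d⟩ := h e he
    refine Eventually.and (Iio_mem_nhds a) ?_
    by_cases h' : rev e ∈ J
    · exact (show ∀ᶠ η in 𝓝 (0 : ℝ), η < (t e + t (rev e) - 1) / 2 from
        Iio_mem_nhds (by linarith [d h'])).mono fun _ h _ => h
    · exact Eventually.of_forall fun _ h => absurd h h'
  obtain ⟨η, h2, h3⟩ := (h1.and self_mem_nhdsWithin).exists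
  have h4 : 0 < η := h3
  refine ⟨fun e => t e - η, fun e he => ⟨by linarith [(h2 e he).1], by linarith,
    by linarith [(h e he).2.1, (h e he).2.2.1], fun h' => by linarith [(h2 e he).2 h']⟩⟩

namespace Tl

variable (L : Tl N k)
include L

/-- the nerve system of an admissible region -/
theorem exists_sy [Nontrivial k] {J : Finset (Ed ι)} {t t' : Ed ι → ℝ} (h : Adm J t t') (R : ℝ) :
    ∃ Y : Nr.Sy k X S, Y.R = Cl w.Γ ∧ Y.M = w.Mod J ∧ Y.cv = N.cv ∧ Y.l = N.lab ∧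
      Y.Q ⊆ N.Reg J t' R ∧ ∀ r, ∃ R', N.Reg J t R' ⊆ Y.Q ∧ ∀ U ∈ N.cv, ∀ x ∈ U, ∀ y ∈ U,
        x ∈ N.Reg J t R' → y ∈ N.Reg J t R' → y ∈ Y.V (N.lab x) r := by
  obtain ⟨δ, hδ, hδ1, hm, ht⟩ := h.mg
  obtain ⟨R₁, h1⟩ := L.pacU (c := 4) hδ (by linarith)
  obtain ⟨R₂, h2⟩ := L.mem_Vc 4 hδ
  obtain ⟨R₃, h3⟩ := L.small_deep 4
  obtain ⟨R₄, h4⟩ := L.adj 1 one_pos
  obtain ⟨R₀, a0, a1, a2, a3, a4, a5⟩ :
      ∃ R₀, R ≤ R₀ ∧ R₁ ≤ R₀ ∧ R₂ ≤ R₀ ∧ R₃ ≤ R₀ ∧ R₄ ≤ R₀ ∧ N.R0 ≤ R₀ :=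
    ⟨max (max R (max R₁ R₂)) (max R₃ (max R₄ N.R0)), by simp, by simp, by simp, by simp, by simp,
      by simp⟩
  have hP := h1 R₀ a1 (P := {s : Finset S // s.Nonempty ∧ Cq (Cl w.Γ) s ∧ (s : Set S) ⊆ w.Mod J})
    (fun _ => J) (fun _ => t) (fun s => s.1) (fun _ => hm) fun s => s.2
  have far : ∀ {n x}, x ∈ N.Rn δ R₀ J t n → R₀ < N.r x := fun {n x} hx =>
    (le_add_of_nonneg_right (Nat.cast_nonneg n)).trans_lt hx.1
  have e4 := (FarD.eps_facts hδ 0).2.2.2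
  refine ⟨⟨Cl w.Γ, w.Mod J, N.cv, L.Vc δ 4 R₀ J t, N.Rn δ R₀ J t 0, N.lab, Cl.rfl,
    fun _ _ => Cl.symm, N.cv_open, N.cv_cover,
    fun a => (L.oVc hδ 4 R₀ (fun _ => J) (fun _ => t) id).anti a, fun a ha n => ?_, fun n => ?_,
    fun a _ => inter_subset_right, fun x hx => (h2 R₀ a2 J t hm 0 x hx).1,
    fun U hU x hx y hy hx' hy' => N.lab_cl U hU x hx y hy (a5.trans_lt (far hx'))
      (a5.trans_lt (far hy')), fun a _ U hU x hx y hy hx' hy' => ?_⟩, rfl, rfl, rfl, rfl,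
    Lev.Reg_le (fun e he => by linarith [ht e he]) (by simpa using a0), fun r => ⟨R₀ + r, ?_, ?_⟩⟩
  · simpa using hP.ne ⟨{a}, by simp, by simpa [Cq] using Cl.rfl a, by simpa using ha⟩ n
  · obtain ⟨n', hn, h5⟩ := hP.ac n
    exact ⟨n', hn, fun s s1 s2 s3 => h5 ⟨s, s1, s3, s2⟩⟩
  · have h5 := h3 U hU y hy x hx (a3.trans_lt (far hy')) (a3.trans_lt (far hx'.2))
    have h6 : 4 - δ * u 0 < L.ν a x := hx'.1
    exact h4 x a _ (a4.trans_lt (far hx'.2)) (by linarith) (by linarith)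
  · exact Lev.Reg_le (fun e _ => by linarith [(FarD.eps_facts hδ 0).2.2.1]) (by simp)
  · intro U hU x hx y hy hx' hy'
    have e3 := (FarD.eps_facts hδ r).2.2.1
    have hr : (0 : ℝ) ≤ r := Nat.cast_nonneg r
    have h5 := h3 U hU x hx y hy (by linarith [hx'.1]) (by linarith [hy'.1])
    exact ⟨show 4 - δ * u r < L.ν (N.lab x) y by linarith,
      Lev.Reg_le (fun e _ => by linarith) le_rfl hy'⟩

/-- far cocycles of any bounded degree are pulled back -/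
theorem sur [Nontrivial k] {J : Finset (Ed ι)} {t t' : Ed ι → ℝ} (h : Adm J t t') (R : ℝ) (m : ℕ) :
    ∃ R', ∀ n ≤ m, ∀ (A : Type) [AddCommGroup A] [Module k A] (φ : Co A n X),
      φ ∈ (N.Sb (N.Reg J t' R)).Z k A n → ∃ ψ : Tu S n → A,
        (∀ v ∈ w.Ct (w.Mod J) (n + 1), td k ψ v = 0) ∧
        φ - rs N.lab ψ ∈ (N.Sb (N.Reg J t R')).Ex k A n := by
  obtain ⟨Y, e1, e2, e3, e4, hQ, hV⟩ := L.exists_sy h R
  obtain ⟨r, hr⟩ := Y.sur m
  obtain ⟨R', h1, h2⟩ := hV r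
  refine ⟨R', fun n hn A _ _ φ hφ => ?_⟩
  have := hr _ h1 (by rw [e3, e4]; exact h2) n hn A φ
    (Sb.Z_mono (P := Y.Sb Y.Q) (Q := N.Sb (N.Reg J t' R))
      (fun _ _ hσ => ⟨hσ.1.trans hQ, e3 ▸ hσ.2⟩) hφ)
  simpa only [Nr.Sy.C, Nr.Sy.Sb, e1, e2, e3, e4] using this

/-- a model cocycle whose pull back is exact is exact -/
theorem inj [Nontrivial k] {J : Finset (Ed ι)} {t t' : Ed ι → ℝ} (h : Adm J t t') (R : ℝ) {n : ℕ}
    {A : Type} [AddCommGroup A] [Module k A] (ψ : Tu S (n + 1) → A)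
    (hψ : ∀ v ∈ w.Ct (w.Mod J) (n + 2), td k ψ v = 0)
    (hx : rs N.lab ψ ∈ (N.Sb (N.Reg J t' R)).Ex k A (n + 1)) :
    ∃ η : Tu S n → A, ∀ v ∈ w.Ct (w.Mod J) (n + 1), ψ v = td k η v := by
  obtain ⟨Y, e1, e2, e3, e4, hQ, -⟩ := L.exists_sy h R
  have := Y.inj (ψ := ψ) (by simpa only [Nr.Sy.C, e1, e2] using hψ)
    (Sb.Ex_mono (P := Y.Sb Y.Q) (Q := N.Sb (N.Reg J t' R))
      (fun _ _ hσ => ⟨hσ.1.trans hQ, e3 ▸ hσ.2⟩) (e4 ▸ hx))
  simpa only [Nr.Sy.C, e1, e2] using this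

theorem reg_nonempty [Nontrivial k] {J : Finset (Ed ι)} {t t' : Ed ι → ℝ} (h : Adm J t t')
    (hM : (w.Mod J).Nonempty) (R : ℝ) : (N.Reg J t R).Nonempty := by
  obtain ⟨t₀, h0⟩ := h.shrink
  obtain ⟨Y, -, e2, -, -, hQ, -⟩ := L.exists_sy h0 R
  obtain ⟨a, ha⟩ := hM
  rw [← e2] at ha
  exact (Y.ne a ha 0).mono ((Y.VQ a ha).trans hQ)

theorem l0 [Nontrivial k] : N.L0 k := fun J t t' h => ⟨L.reg_nonempty h, fun R => by
  obtain ⟨R', h1⟩ := L.sur h R 0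
  refine ⟨R', fun A _ _ φ hφ => (h1 0 le_rfl A φ hφ).imp fun ψ hψ => ⟨hψ.1, fun σ hσ => ?_⟩⟩
  obtain ⟨U, hU, hx⟩ := N.cv_cover (mem_univ (σ (stdSimplex.vertex 0)))
  exact hψ.2 σ ⟨hσ, U, hU, by rw [Tp.range_zero]; simpa using hx⟩⟩

theorem l1 [Nontrivial k] : N.L1 k := fun _ _ _ h R => by
  obtain ⟨R', h1⟩ := L.sur h R 2
  exact ⟨R', fun n hn A _ _ φ hφ => h1 (n + 1) (by omega) A φ hφ⟩

theorem l2 [Nontrivial k] : N.L2 k := fun _ _ _ h R _ _ _ _ _ ψ hψ hx => L.inj h R ψ hψ hx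

/-- **the end structure** -/
def toEnd [Nontrivial k] : End w F k X := ⟨N, L.l0, L.l1, L.l2⟩

end Tl

end Crest.Agent.N255.En

end
end

-- ▼ part N255/Ma/GeoA

/-!
# Row 255 / 233 (helper32): the geometric side `GeoS`
-/

set_option autoImplicit false
set_option linter.unusedSectionVars false

noncomputable section

namespace Crest.Agent.N255.Ma
open Set Tp Uc Gs Ce Fa Lv Pt En
open scoped Pointwise

section gen
variable {S K F0 Nd' Ed' : Type} [DecidableEq S] [Group F0] [MulAction F0 Nd'] [MulAction F0 Ed']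
  [LinearOrder K] [Finite K] {M : Mir S K F0 Nd' Ed'} {G : Subgroup M.G}
  {T : Type} [TopologicalSpace T] [MulAction G T]

/-- the action of the core group -/
theorem exists_act (g : GM 4 G T) (o : Vt M) (F : Subgroup F0) (hF : ∀ f ∈ F, inF M f ∈ G) :
    ∃ (_ : MulAction F T) (_ : ContinuousConstSMul F T),
      haveI := g.cont; Nonempty (Av G F T) := by
  have := g.cont
  let φ : F →* G := ((inF M).comp F.subtype).codRestrict G fun f => hF f.1 f.2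
  let _ : MulAction F T := MulAction.compHom T φ
  obtain ⟨P⟩ := g.exists_pu
  obtain ⟨E, -⟩ := exists_av P o φ (fun _ => rfl) (fun _ _ => rfl) g.free
  exact ⟨_, ⟨fun f => continuous_const_smul (φ f)⟩, ⟨E⟩⟩

variable [G.FiniteIndex] [ContinuousConstSMul G T] {K₀ : Set T} {h : FD 4 G K₀} {k : Type} [Field k]
  {L : Gs.Lab G (M.ug.res G).X} (H : M.Cham)

theorem ori_nd (g : Mp (cell (M.ug.res G).fr k L) (h.sing k)) : (ori g (Dg.lfc G H k)).ND := by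
  have := h.gm.t2
  obtain ⟨_⟩ := h.gm.chart
  exact ((qd_univ H).res G).nd g

theorem ori_inv (g : Mp (cell (M.ug.res G).fr k L) (h.sing k)) {F : Subgroup F0} [MulAction F T]
    [ContinuousConstSMul F T] (E : Av G F T) (f : F) (C : Set T) (z : Tp.Ch k 4 T) (hC : IsCompact C)
    (hz : (ori g (Dg.lfc G H k)).Fund C z) :
    (ori g (Dg.lfc G H k)).Fund (f • C) (push k (Uc.tr f) z) := by
  have e : (Uc.tr f : C(T, T)) = Uc.tr (E.φ f) := ContinuousMap.ext (E.act f)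
  have e' : f • C = E.φ f • C := image_congr fun x _ => E.act f x
  rw [e, e']
  exact ori_smul g _ (fun γ x => congrArg Int.cast (H.oc_smul γ.1 x.1)) _ hC hz

end gen

section tm
variable {S K : Type} [DecidableEq S] [Nonempty S] [MulAction F3 S] [LinearOrder K] [Finite K]
  {M : Mir S K F3 (Nd (Fin 3)) (Ed (Fin 3))} {w : Wl (Fin 3) S}

/-- **the geometric side for any mirror model over the tree** -/
theorem geoG (Z : TM M w) (Lo : Ch.Loc M) {H : M.Cham} (hH : H.or = Lo.or) {m : En.Md w} (L : Gm w m)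
    (u : ℤˣ) (hw : ∀ e, ∃ e', w.T e = M.sp (M.tgt e') ∧ (∀ a ∈ M.sp (M.src (Lo.op e')), a ∉ w.B (rev e)) ∧
      (∀ a ∈ M.sp (M.src e'), a ∉ w.B e) ∧
      Md.p2 M e' (Lo.ω e') (fun a b c => m.mer e a b * m.mer (rev e) b c) = u)
    {G : Subgroup M.G} [G.FiniteIndex] {T : Type} [TopologicalSpace T] [MulAction G T] (g : GM 4 G T)
    (F : Subgroup F3) (hF : ∀ f ∈ F, inF M f ∈ G) : HasGeo F T := by
  have := g.cont
  obtain ⟨_, _, ⟨E⟩⟩ := exists_act g (1, ⟨1, none⟩) F hF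
  have := gm_countable g
  obtain ⟨K₀, h⟩ := exists_FD g
  obtain ⟨c, -, h1⟩ := pa1_tm Z H h E (ZMod 3)
  obtain ⟨s⟩ := exists_slow c
  have t := tlG Z h E s H (ZMod 3) (h1 c s (fun _ => le_rfl) _ rfl rfl
    (pa0_of H (naG Z) h s E.P E.o _ _ Z.Γ_eq _ (fun _ => rfl) fun _ _ => rfl))
  obtain ⟨L'⟩ := nonempty_lab (M.ug.res G).fr
  obtain ⟨g0⟩ := exists_mp (cell (M.ug.res G).fr (ZMod 3) L') (h.sing (ZMod 3))
  have d := (Dg.degA_loc Lo hH (Dg.dt_av H (Dg.sp_fin Lo) g0 (Dg.lfc G H _) E (levG Z h E s) Z.Γ_eq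
    (fun _ => rfl) fun d => ⟨4 * d, fun _ _ a b => Z.lb_init' b a⟩) Z.Γ_eq m u hw).deg (by norm_num)
  exact ⟨_, _, S, _, ⟨⟨w, m, L, t.toEnd, _, ori_nd H g0, ori_inv H g0 E, _, d, g.acy' _⟩⟩⟩

/-- the same with the model number as the only input -/
theorem geoG1 (Z : TM M w) (Lo : Ch.Loc M) {H : M.Cham} (hH : H.or = Lo.or) (ho : Lo.op = rev)
    {m : En.Md w} (L : Gm w m) (u : ℤˣ)
    (hp : ∀ e, Md.p2 M e (Lo.ω e) (fun a b c => m.mer e a b * m.mer (rev e) b c) = u)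
    {G : Subgroup M.G} [G.FiniteIndex] {T : Type} [TopologicalSpace T] [MulAction G T] (g : GM 4 G T)
    (F : Subgroup F3) (hF : ∀ f ∈ F, inF M f ∈ G) : HasGeo F T :=
  have k : ∀ e, ∀ a ∈ M.sp (M.src e), a ∉ w.B e := fun e a ha c => by
    rw [Z.src_eq] at ha
    exact not_hs_v e ((Z.mem_B _ _).1 c _ ((Z.sp_none _ _).1 ha))
  geoG Z Lo hH L u (fun e => ⟨e, Set.ext fun a => by rw [Z.tgt_eq]; exact (Z.sp_tgt e a).symm,
    ho ▸ k (rev e), k e, hp e⟩) g F hF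

end tm

/-- **the geometric side for the data of row 255** and any subgroup of finite index -/
theorem geoD {G : Subgroup Da.D.mir.G} [G.FiniteIndex] {T : Type} [TopologicalSpace T] [MulAction G T]
    (g : GM 4 G T) (F : Subgroup F3) (hF : ∀ f ∈ F, inF Da.D.mir f ∈ G) : HasGeo F T := by
  have := g.cont
  obtain ⟨_, _, ⟨E⟩⟩ := exists_act g (1, ⟨1, none⟩) F hF
  have := gm_countable g
  obtain ⟨K₀, h⟩ := exists_FD g
  obtain ⟨c, s, ⟨t⟩⟩ := exists_tl (w := wl) ⟨rfl, rfl, rfl⟩ h E Da.cham (ZMod 3)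
  obtain ⟨L'⟩ := nonempty_lab (Da.D.mir.ug.res G).fr
  obtain ⟨g0⟩ := exists_mp (cell (Da.D.mir.ug.res G).fr (ZMod 3) L') (h.sing (ZMod 3))
  exact ⟨_, _, _, _, ⟨⟨wl, md, gmD, t.toEnd, _, ori_nd Da.cham g0, ori_inv Da.cham g0 E, _,
    Dg.deg_D g0 _ E _ rfl (fun _ => rfl) (fun _ => rfl) (fun _ => rfl) (fun _ => rfl) md
      fun _ _ ha _ hb c => mr_wall ha hb c, g.acy' _⟩⟩⟩

/-- **the geometric side of row 255** -/
theorem geoS_holds : GeoS := fun _ _ _ g => geoD g ⊤ fun _ _ => trivial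


end Crest.Agent.N255.Ma

end
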