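import Crest.Agent.N255.Ma.Geo
import Crest.Agent.N255.Core.TypK

/-! Row 255 (helper45): `Lab F ↔ ¬ NoLab F`; the producer may use `coreK`. -/

set_option autoImplicit false

namespace Crest.Agent.N255.Ma
open Tp Pt Lv N255.Core

variable {F : Subgroup F3}

theorem lab_iff : Lab F ↔ ¬NoLab F := by
  constructor
  · rintro ⟨b, h1, h2, h3⟩ h
    obtain ⟨v, t, ht⟩ := h fun c => b (rp c)
    obtain ⟨i, hi⟩ := h3 v t
    obtain ⟨f, hf⟩ := exists_rp (F := F) (st v t i)
    have e := ht i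
    change b (rp (cl F (st v t i))) = t i at e
    rw [← h1 f.1 f.2, hf, pe_eq] at e
    cases h : t i
    · rw [if_neg (by simp [h]), h2, hi, h] at e
      simp at e
    · rw [if_pos (by simp [h]), hi, h] at e
      simp at e
  · intro h
    simp only [NoLab, not_forall, not_exists] at h
    obtain ⟨σ, h⟩ := h
    refine ⟨fun e => σ (cl F e) == e.k.2, fun f hf e => by
      simp [cl_smul (F := F) ⟨f, hf⟩ e], fun e => ?_, fun v t => ?_⟩
    · simp only [cl_rev, rev_k, op]
      cases σ (cl F e) <;> cases e.k.2 <;> rfl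
    · obtain ⟨i, hi⟩ := h v t
      exact ⟨i, by simpa [st] using hi⟩

theorem not_lab_chi (χ : F3 →* Multiplicative ℤ) {n : ℤ} (hn : Odd n) (i0 : Fin 3)
    (h0 : χ (FreeGroup.of i0) = 1) (hF : ∀ f, n ∣ (χ f).toAdd → f ∈ F) : ¬Lab F :=
  fun h => lab_iff.1 h (noLab_chi χ hn i0 h0 hF)


end Crest.Agent.N255.Ma
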