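import Crest.Agent.N255.Ma.Wd
import Crest.Agent.N255.En.Sb

/-!
# Row 255 (helper18): wall chains of a wall `Wd`: existence, degree, radii
-/

set_option autoImplicit false
open Set

noncomputable section

namespace Crest.Agent.N255.Ma
open Tp Nv Pt Lv En Wn Le Cs


namespace Wd

variable {F : Subgroup F3} {S : Type} [MulAction F3 S] {X : Type} [TopologicalSpace X]
  [MulAction F X] [ContinuousConstSMul F X] {u R₀ R R' : ℝ} {n m m' : ℕ}
  {J : Type} [Fintype J] {τ : Ty J} {e : Ed (Fin 3)} {o : Bool}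

section scalar
variable {k : Type} [Field k] {g : Geo F k S X} (ω : Wd g u R₀ n τ e o) {σ : Ch k 3 X}

theorem l_lt_r (m m' : ℕ) : ω.l m < ω.r m' := ω.win.lt m m'

theorem a_lt_l (m : ℕ) : ω.a < ω.l m := ω.al.trans_le (ω.win.ml.monotone (Nat.zero_le m))

theorem r_lt_b (m : ℕ) : ω.r m < ω.b := (ω.win.ar.antitone (Nat.zero_le m)).trans_lt ω.rb

theorem u_lt_l (m : ℕ) : u < ω.l m := ω.ua.trans_lt (ω.a_lt_l m)

theorem r_lt_u (m : ℕ) : ω.r m < 1 - u := (ω.r_lt_b m).trans_le ω.bu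





theorem lm_lt_rm (m m' : ℕ) : ω.lm m < ω.rm m' := by
  have := ω.l_lt_r m m'; have := ω.l_lt_r m' m
  unfold lm rm; split_ifs <;> linarith

theorem u_lt_lm (m : ℕ) : u < ω.lm m := by
  have := ω.u_lt_l m; have := ω.r_lt_u m
  unfold lm; split_ifs <;> linarith

theorem rm_lt_u (m : ℕ) : ω.rm m < 1 - u := by
  have := ω.u_lt_l m; have := ω.r_lt_u m
  unfold rm; split_ifs <;> linarith



theorem Tw_me : g.w.T (me e o) = g.w.T e := by
  cases o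
  exacts [g.w.T_rev e, rfl]

include ω in
/-- far small simplices of the thick wall are labelled by the wall -/
theorem fw_lb (hR : R₀ ≤ R) {a b : ℝ} (ha : u ≤ a) (hb : b ≤ 1 - u) :
    (g.E.toLev.Sb (fw (g.E.s e) g.E.r a b R)).Le (g.E.toLev.Lb R₀ (g.w.T (me e o))) :=
  Tw_me (g := g) (e := e) (o := o) ▸ (ω.big.mono le_rfl hR).fw hR ha hb

variable {ω}

/-- the wall chain is small in the centre, its boundary is far -/
theorem Sig.mem (h : ω.Sig R σ) : σ ∈ (g.E.toLev.Sb (Wn.win (g.E.s e) (ω.l n) (ω.r n))).ch k 3 ∧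
    bd k σ ∈ (g.E.toLev.Sb (fw (g.E.s e) g.E.r (ω.l n) (ω.r n) R)).ch k 2 := by
  have := h.wr.mem g.E.cv_open g.E.cv_cover
  have q : σ ∈ (On (Wn.win (g.E.s e) (ω.l n) (ω.r n))).ch k 3 ∧
      bd k σ ∈ (On (fw (g.E.s e) g.E.r (ω.l n) (ω.r n) R)).ch k 2 := by
    split_ifs at this
    exacts [this, ⟨neg_mem_iff.1 this.1, neg_mem_iff.1 (map_neg (bd k) σ ▸ this.2)⟩]
  exact ⟨Sml.mem_inf q.1 h.sm, Sml.mem_inf q.2 (Sb.bd_mem h.sm)⟩


variable [T2Space X]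

/-- the wall chain in the coordinate of the `M` orientation -/
theorem Sig.wr_me (h : ω.Sig R σ) :
    Wr g.O g.E.cv (g.E.s (me e o)) g.E.r (ω.lm n) (ω.rm n) R σ := by
  have := h.wr
  cases o
  · simpa [lm, rm] using Vc.wr_neg g.E.cv_open g.E.cv_cover (g.E.s_rev e) this
  · exact this


theorem Sig.mono (h : ω.Sig R' σ) (hR : R ≤ R') : ω.Sig R σ :=
  ⟨h.wr.mono g.E.cv_open g.E.cv_cover le_rfl le_rfl hR (box_cpt _ e _ _ R), h.sm, h.lb⟩

/-- **the degree of the torus of a wall chain** -/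
theorem Sig.T_s (h : ω.Sig R σ) (hR : R₀ ≤ R) : h.T.s = g.u :=
  Lev.tor_s_big g.deg ω.big ω.u0 hR (ω.u_lt_lm n).le (ω.lm_lt_rm n n) (ω.rm_lt_u n).le h.wr_me h.sm
    h.lb (bd_bd σ)

theorem Sig.T_ne (h : ω.Sig R σ) (hR : R₀ ≤ R) : h.T.s ≠ 0 := h.T_s hR ▸ g.u.ne_zero

variable (ω)


omit [T2Space X] in
/-- the linear classes have compact support -/
theorem ct_cc (j : J) : ω.ct j ∈ Cc k univ k 1 := Wv.ct_Cc (ω.mem j).1

omit [T2Space X] in
theorem cx_cc (x : J ⊕ Bool) : ω.cx x ∈ Cc k univ k 1 := by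
  rcases x with j | _ | _
  exacts [ω.ct_cc j, neg_mem ω.bz.cc, zero_mem _]

omit [T2Space X] in
theorem Hp_cc (f : Co k 2 X) : ω.Hp f ∈ Cc k univ k 1 :=
  ω.Hp_apply f ▸ add_mem (ω.nf.mem f) (sum_mem fun j _ => Submodule.smul_mem _ _ (ω.ct_cc j))

omit [T2Space X] in
theorem exists_cx_far : ∃ R₁, ∀ R, R₁ ≤ R → ∀ x, ω.cx x ∈ (On (hi g.E.r R)).van k k 1 := by
  choose ρ h using fun x => Cc_far g.E.r (ω.cx_cc x)
  obtain ⟨R₁, h1⟩ := (finite_range ρ).bddAbove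
  exact ⟨R₁, fun R hR x => h x R ((h1 ⟨x, rfl⟩).trans hR)⟩

end scalar

section fam
variable {p : ℕ} [Fact p.Prime] {g : Geo F (ZMod p) S X} (ω : Wd g u R₀ n τ e o)

theorem Far.mono {ω : Wd g u R₀ n τ e o} (h : ω.Far R) (hR : R ≤ R') : ω.Far R' :=
  ⟨h.1.trans hR, fun σ hσ => h.2 σ (Subset.trans hσ (hi_mono hR))⟩

/-- **far out the family is the base** -/
theorem exists_far : ∃ R₁, ∀ R, R₁ ≤ R → ω.Far R := by
  obtain ⟨B, hB, h⟩ := ω.fam.far ω.Hp_cc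
  obtain ⟨R₁, h1⟩ := (hB.image g.E.r.continuous).bddAbove
  obtain ⟨R₂, h2⟩ := ω.exists_cx_far
  refine ⟨max R₀ (max R₁ R₂), fun R hR => ⟨(le_max_left _ _).trans hR, fun σ hσ => ?_⟩⟩
  have r1 : R₁ ≤ R := ((le_max_left _ _).trans (le_max_right _ _)).trans hR
  have r2 : R₂ ≤ R := ((le_max_right _ _).trans (le_max_right _ _)).trans hR
  rw [h σ fun x hx hb => (show R < g.E.r x from hσ hx).not_ge ((h1 ⟨x, hb, rfl⟩).trans r1)]
  exact Lp.pl_eq (by simp [Lp.src, h2 R r2 _ σ hσ])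

end fam

end Wd

end Crest.Agent.N255.Ma

end
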