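import Crest.Agent.N255.Ma.Lab
import Crest.Agent.N255.Wt.Std
import Crest.Agent.N255.Or.Be
import Crest.Agent.N255.Le.Phi
import Crest.Agent.N255.Lp.Fam
import Crest.Agent.N255.En.Vt
import Crest.Agent.N255.Wv.Var
import Crest.Agent.N255.Cs.OnO
import Crest.Agent.N255.Cs.CapW
import Crest.Agent.N255.Tr.Kit

/-!
# Row 255 (helper8): the scalar data `Wd` of a wall, its family `gU`, its potential and `Wall`
-/

set_option autoImplicit false
open Set Module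

noncomputable section

namespace Crest.Agent.N255.Ma
open Tp Nv Pt Lv En Wn Le Cs Cs.Tw _root_.N255.Core _root_.N255.Dr _root_.N255.Dr.O

section sets
variable {X : Type} [TopologicalSpace X]

/-- the outer side: `b = true` is the low side -/
def Bs (s : C(X, ℝ)) (l r : ℕ → ℝ) (b : Bool) (m : ℕ) : Set X :=
  if b then lo s (r m) else hi s (l m)

/-- the inner side -/
def As (s : C(X, ℝ)) (l r : ℕ → ℝ) (b : Bool) (m : ℕ) : Set X :=
  if b then lo s (l m) else hi s (r m)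

/-- the zones of the window `(l i, r i)`: centre, left annuli, right annuli -/
def zs (s : C(X, ℝ)) (l r : ℕ → ℝ) (n i : ℕ) : Set (Set X) :=
  {U | U = win s (l n) (r n) ∨
    ∃ z, i ≤ z ∧ z < n ∧ (U = win s (l z) (l (z + 2)) ∨ U = win s (r (z + 2)) (r z))}

/-- normal forms `E`, parametrix `H + ∑ lam j • ct j`, locality -/
structure Nf {k J : Type} [Field k] [Fintype J] (cv : Set (Set X)) (𝒵 : ℕ → Set (Set X)) (n : ℕ)
    (ct : J → Co k 1 X) (sc : J → ℕ) (H : Co k 2 X →ₗ[k] Co k 1 X) (lam : J → Dual k (Co k 2 X))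
    (E : Submodule k (Co k 2 X)) : Prop where
  mem : ∀ f, H f ∈ CC k X 1
  nf : ∀ f, f - cob k (H f) - ∑ j, lam j f • cob k (ct j) ∈ E
  s1 : ∀ U ∈ 𝒵 0, ∀ f ∈ E, ∀ θ ∈ CC k X 1, f - cob k θ ∈ vo k cv U 2 → f ∈ vo k cv U 2
  fl : ∀ i, 1 ≤ i → i < n → ∀ f ∈ vs k cv (𝒵 i) 2, H f ∈ vs k cv (𝒵 (i + 1)) 1
  lam0 : ∀ i j, 1 ≤ i → i < sc j → ∀ f ∈ vs k cv (𝒵 i) 2, lam j f = 0
  low : vs k cv (𝒵 0) 2 ≤ E
  zero : ∀ f ∈ vs k cv (𝒵 0) 2, H f = 0
  fl2 : ∀ i < n, ∀ f ∈ vs k cv (𝒵 i) 2,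
    H f ∈ vs k cv (𝒵 (i + 1)) 1 ∧ ∀ j, i ≤ sc j → lam j f = 0

end sets

/-- the types of the classes of a wall: `kd j = true` iff `j` lives on the `M` side -/
structure Ty (J : Type) where
  kd : J → Bool
  sc : J → ℕ
  dp : J → ℕ

/-- the orientation with the `M` side behind; `o = true` iff the `M` side is behind `e` -/
def me {ι : Type} (e : Ed ι) (o : Bool) : Ed ι := if o then e else rev e

@[simp] theorem me_true {ι : Type} (e : Ed ι) : me e true = e := rfl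

@[simp] theorem me_false {ι : Type} (e : Ed ι) : me e false = rev e := rfl

theorem me_tk {ι : Type} {F : Subgroup (FreeGroup ι)} (ka : Wo F → Bool) (e : Ed ι) :
    me e (tk ka e) = ek ka e := rfl

variable {F : Subgroup F3} {S : Type} [MulAction F3 S] {X : Type} [TopologicalSpace X]
  [MulAction F X] [ContinuousConstSMul F X]

section scalar
variable {k : Type} [Field k]

/-- **the scalar data of a wall seen from behind `e`** (`n` annuli on each side) -/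
structure Wd (g : Geo F k S X) (u R₀ : ℝ) (n : ℕ) {J : Type} [Fintype J] (τ : Ty J)
    (e : Ed (Fin 3)) (o : Bool) where
  l : ℕ → ℝ
  r : ℕ → ℝ
  a : ℝ
  b : ℝ
  u0 : 0 < u
  big : g.E.toLev.Big u R₀
  ua : u ≤ a
  al : a < l 0
  rb : r 0 < b
  bu : b ≤ 1 - u
  win : Wv.Win k 0 (g.E.s e) l r
  h : J → Co k 1 X
  sc_lt : ∀ j, τ.sc j < n
  mem : ∀ j, h j ∈ ZP k (Bs (g.E.s e) l r (τ.kd j == o) (τ.sc j + 1)) k 1
  van : ∀ j m, m < τ.sc j → h j ∈ (On (As (g.E.s e) l r (τ.kd j == o) m)).van k k 1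
  span : ∀ c m, m < n → ∀ φ ∈ ZP k (Bs (g.E.s e) l r c (m + 1)) k 1, ∃ x : J → k,
    (∀ j, x j ≠ 0 → (τ.kd j == o) = c ∧ τ.sc j ≤ m) ∧
      φ - ∑ j, x j • h j ∈ BP k (Bs (g.E.s e) l r c (m + 2)) k 1
  η : Co k 1 X
  hw : Co k 1 X
  bz : Or.Bz g.M g.E (rev (me e o)) (if o then 1 - a else b) R₀ η hw
  H : Co k 2 X →ₗ[k] Co k 1 X
  lam : J → Dual k (Co k 2 X)
  E : Submodule k (Co k 2 X)
  nf : Nf g.E.cv (zs (g.E.s e) l r n) n
    (fun j => Wv.ct (Bs (g.E.s e) l r (τ.kd j == o) (τ.sc j + 1)) (h j)) τ.sc H lam E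

namespace Wd
variable {g : Geo F k S X} {u R₀ : ℝ} {n : ℕ} {J J' : Type} [Fintype J] [Fintype J'] {τ : Ty J}
  {τ' : Ty J'} {e e' : Ed (Fin 3)} {o o' : Bool} (ω : Wd g u R₀ n τ e o)

/-- the outer sides -/
abbrev B (c : Bool) (m : ℕ) : Set X := Bs (g.E.s e) ω.l ω.r c m

/-- the inner sides -/
abbrev A (c : Bool) (m : ℕ) : Set X := As (g.E.s e) ω.l ω.r c m

/-- the zones of the window `i` -/
abbrev Z (i : ℕ) : Set (Set X) := zs (g.E.s e) ω.l ω.r n i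

/-- the cut classes -/
def ct (j : J) : Co k 1 X := Wv.ct (ω.B (τ.kd j == o) (τ.sc j + 1)) (ω.h j)

theorem nf' : Nf g.E.cv ω.Z n ω.ct τ.sc ω.H ω.lam ω.E := ω.nf

/-- the full parametrix -/
def Hp : Co k 2 X →ₗ[k] Co k 1 X := ω.H + ∑ j, (ω.lam j).smulRight (ω.ct j)

theorem Hp_apply (f : Co k 2 X) : ω.Hp f = ω.H f + ∑ j, ω.lam j f • ω.ct j := by simp [Hp]

/-- the linear classes: `inl j` the cut class, `inr false` (holonomy `w`), `inr true` (`y`) -/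
def cx : J ⊕ Bool → Co k 1 X := Sum.elim ω.ct fun c => if c then 0 else -ω.η

/-- the left ends in the coordinate of the `M` orientation -/
def lm (m : ℕ) : ℝ := if o then ω.l m else 1 - ω.r m

/-- the right ends in the coordinate of the `M` orientation -/
def rm (m : ℕ) : ℝ := if o then ω.r m else 1 - ω.l m

/-- `ω'` is the translate of `ω` by `f`, possibly seen from the other side -/
structure Rel (f : F) (ω : Wd g u R₀ n τ e o) (ω' : Wd g u R₀ n τ e' o') : Prop where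
  ed : f.1 • me e o = me e' o'
  l : ω'.lm = ω.lm
  r : ω'.rm = ω.rm
  h : ∀ j, Tr.pl (Uc.tr f) (ω'.h j) = ω.h j
  η : Tr.pl (Uc.tr f) ω'.η = ω.η
  H : ∀ q, Tr.pl (Uc.tr f) (ω'.H q) = ω.H (Tr.pl (Uc.tr f) q)
  lam : ∀ j q, ω'.lam j q = ω.lam j (Tr.pl (Uc.tr f) q)

/-- near classes of `ω` are, beyond `e'`, combinations of far classes of `ω'` of smaller depth -/
def Dep (ω : Wd g u R₀ n τ e o) (ω' : Wd g u R₀ n τ' e' o') : Prop :=
  ∀ j, τ.kd j = o → ∃ x : J' → k,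
    (∀ j', x j' ≠ 0 → τ'.kd j' ≠ o' ∧ τ'.sc j' = 0 ∧ τ.sc j = 0 ∧ τ'.dp j' < τ.dp j) ∧
      ω.h j - ∑ j', x j' • ω'.h j' ∈ BP k (hi (g.E.s e') (ω'.l 2)) k 1

/-- the wall chain: `σ` is the boundary of the `M` side -/
structure Sig (R : ℝ) (σ : Ch k 3 X) : Prop where
  wr : Wr g.O g.E.cv (g.E.s e) g.E.r (ω.l n) (ω.r n) R (if o then σ else -σ)
  sm : σ ∈ (Sm g.E.cv).ch k 3
  lb : bd k σ ∈ (g.E.toLev.Lb R₀ (g.w.T (me e o))).ch k 2

/-- the torus at the end of the wall chain -/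
def Sig.T {ω : Wd g u R₀ n τ e o} {R : ℝ} {σ : Ch k 3 X} (h : ω.Sig R σ) : To k X :=
  g.E.toLev.tor g.M R₀ (me e o) (bd k σ) h.lb (bd_bd σ)

end Wd

/-- one wall for each orbit, with the transfer property for all translates -/
structure Sys (g : Geo F k S X) (ka : Wo F → Bool) (u R₀ : ℝ) (n : ℕ) {J : Wo F → Type}
    [∀ c, Fintype (J c)] (τ : ∀ c, Ty (J c)) where
  ω : ∀ c, Wd g u R₀ n (τ c) (rk ka c) true
  dep : ∀ c c' (f f' : F) e e' o o' (ω₁ : Wd g u R₀ n (τ c) e o) (ω₂ : Wd g u R₀ n (τ c') e' o'),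
    Wd.Rel f (ω c) ω₁ → Wd.Rel f' (ω c') ω₂ → Bey (rev e) e' → ω₁.Dep ω₂

end scalar

/-! ### the ring of a wall -/

variable (p : ℕ) [Fact p.Prime] (J : Type) [Fintype J]

/-- the variables of a wall -/
abbrev Uv : Type := (J ⊕ Bool) × Cs.Gm p

/-- the ring of a wall -/
abbrev OU : Type := O p (ZMod p) (Uv p J)

/-- its grading -/
def GU : Gr (Cs.Gm p) (ZMod p) (OU p J) := Tg.grO p (ZMod p) Prod.snd

theorem GU_z (x : Uv p J) : (GU p J).Hg x.2 (z x) := Tg.grO_z Prod.snd x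

theorem GU_mx : (GU p J).Id mx := Tg.id_mx (GU_z p J)

variable {J}

/-- the unit `1 + x` -/
def uv (x : J ⊕ Bool) : (Tw (GU p J))ˣ := uz (GU_z p J) Finset.univ fun γ => (x, γ)

/-- the variable `x` as an element of the twisted ring -/
def xv (x : J ⊕ Bool) : Tw (GU p J) := up (GU p J) (∑ γ, z (x, γ))

theorem uv_sub (x : J ⊕ Bool) : (uv p x).val - 1 = xv p x := uz_sub _ _ _

theorem uv_U (x : J ⊕ Bool) : uv p x ∈ U (GU_mx p J) := uz_mem _ _ fun _ _ => z_mem _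

theorem xv_in (x : J ⊕ Bool) : In mx (xv p x) := uv_sub p x ▸ uv_U p x

/-- the kinds of the variables -/
def Ty.kdU (τ : Ty J) (x : Uv p J) : Option Bool :=
  x.1.elim (fun j => some (τ.kd j)) fun c => if c then none else some false

/-- the signature of the weights -/
def Ty.sg (τ : Ty J) {c : ℕ} (h : ∀ j, τ.dp j ≤ c) : _root_.N255.Wt.Sg c (Uv p J) where
  kd := τ.kdU p
  hol x := x.1.elim (fun _ => false) fun c => !c
  sc x := x.1.elim τ.sc fun _ => 0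
  dp x := x.1.elim τ.dp fun _ => 0
  dp_le := by rintro ⟨j | c, γ⟩; exacts [h j, Nat.zero_le _]
  sc_y := by rintro ⟨j | c, γ⟩ h; exacts [by simp [Ty.kdU] at h, rfl]
  sc_w := by rintro ⟨j | c, γ⟩ h; exacts [by simp at h, rfl]

variable {p}

theorem cf_of_hg {σ : Type} [Fintype σ] {G : Gr (Cs.Gm p) (ZMod p) (O p (ZMod p) σ)} {d : σ → Cs.Gm p}
    (hO : ∀ i, G.Hg (d i) (z i)) {δ : Cs.Gm p} {W : O p (ZMod p) σ} (h : G.Hg δ W) (a : σ → ℕ)
    (ha : cf a W ≠ 0) : ∑ i, a i • d i = δ := by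
  classical
  by_contra hn
  have key : cf a ∘ₗ G.pr δ = 0 := lin_ext fun b _ => by
    have h1 : G.Hg _ (zm b) := Tg.hg_zm (AlgHom.id (ZMod p) _) hO b
    simp only [LinearMap.comp_apply, h1.pr, LinearMap.zero_apply]
    split_ifs with e
    · rw [cf_zm, if_neg]; rintro ⟨rfl, -⟩; exact hn e.symm
    · exact map_zero _
  exact ha (h ▸ LinearMap.congr_fun key W)

namespace Wd
variable {g : Geo F (ZMod p) S X} {u R₀ : ℝ} {n : ℕ} {τ : Ty J} {e : Ed (Fin 3)} {o : Bool}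
  (ω : Wd g u R₀ n τ e o)

/-- the base `a ^ α b ^ β` -/
def g0 {R : Type} [Ring R] (_ω : Wd g u R₀ n τ e o) (a b : Rˣ) : Sx 1 X → Rˣ := fun σ =>
  a ^ g.E.toLev.mz g.M R₀ (me e o) σ * b ^ g.E.toLev.mz g.M R₀ (rev (me e o)) σ


/-- base plus linear terms -/
def g1 : Cn (GU p J) X :=
  Lp.pl (hm := GU_mx p J) Tg.mx_nil (ω.g0 (uv p (.inr true)) (uv p (.inr false)))
    (fun _ => mul_mem (zpow_mem (uv_U p _) _) (zpow_mem (uv_U p _) _)) (Lp.src ω.cx (xv p))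
    (Lp.src_in (xv_in p))

/-- the sources -/
def Sr : Co (Tw (GU p J)) 2 X := Lp.src (fun j => cob (ZMod p) (ω.ct j)) fun j => xv p (.inl j)

theorem exists_gU : ∃ G, Lp.Fam (GU_mx p J) ω.Hp ω.g1 ω.Sr G :=
  Lp.exists_fam Tg.mx_nil _ (fun _ => Lp.pl_U _) (Lp.src_in fun _ => xv_in p _)

/-- **the family of the wall** -/
def gU : Cn (GU p J) X := ω.exists_gU.choose

theorem fam : Lp.Fam (GU_mx p J) ω.Hp ω.g1 ω.Sr ω.gU := ω.exists_gU.choose_spec

/-- beyond the radius `R` the family is the base on the thick wall -/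
def Far (R : ℝ) : Prop := R₀ ≤ R ∧ ∀ σ ∈ (On (hi g.E.r R)).S 1,
  ω.gU σ = ω.g0 (uv p (.inr true)) (uv p (.inr false)) σ

variable {ω} {R : ℝ} {σ : Ch (ZMod p) 3 X}

/-- **the potential** -/
def Sig.W (h : ω.Sig R σ) : OU p J := h.T.W σ ω.gU (uv p (.inr true)) (uv p (.inr false))

/-- **the wall** -/
def Sig.wall (h : ω.Sig R σ) {c : ℕ} (hc : ∀ j, τ.dp j ≤ c) : Wall p (Cs.Gm p) (Cs.g0 p) (Uv p J) where
  kd := τ.kdU p
  F := (τ.sg p hc).F
  deg := Prod.snd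
  W := h.W
  W2 := h.T.W_sq (P := On univ) (ω.fam.cu _) (fun _ _ => subset_univ _) (uv_U p _) (uv_U p _)
  hom := cf_of_hg (GU_z p J) (h.T.W_hg _ _ _ _)
  inj := by
    rintro ⟨j | _ | _, γ⟩ ⟨j' | _ | _, γ'⟩ h1 h2 h3 <;> simp_all [Ty.kdU]

end Wd

/-- **the walls exist**, with bounds that do not depend on the number of scales -/
def WallS : Prop :=
  ∀ (F : Subgroup F3) [F.FiniteIndex] (S : Type) [MulAction F3 S] (X : Type) [TopologicalSpace X]
    [T2Space X] [ChartedSpace (EE 4) X] [SecondCountableTopology X] [MulAction F X]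
    [ContinuousConstSMul F X] (g : Geo F (ZMod 3) S X),
    ∃ (ka : Wo F → Bool) (u R₀ : ℝ) (N : ℕ) (cnt : ℕ → ℕ), ∀ n, 0 < n →
      ∃ (J : Wo F → Type) (_ : ∀ c, Fintype (J c)) (τ : ∀ c, Ty (J c)),
        Nonempty (Sys g ka u R₀ n τ) ∧ (∀ c j, (τ c).dp j ≤ N) ∧
          ∀ c m, (Finset.univ.filter fun j => (τ c).sc j ≤ m).card ≤ cnt m

end Crest.Agent.N255.Ma

end
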