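import Crest.Agent.N255.Wg.Df
import Crest.Agent.N255.Wn.WdM
import Crest.Agent.N255.Wf.Out_Mg
import Crest.Agent.N255.Ma.Sig
import Crest.Agent.N255.Vd.End
import Crest.Agent.N255.Ma.Top2
import Crest.Agent.N255.Vf.Adm

-- ▼ part N255/Wg/Wf
section

/-!
# Row 255 (helper7): the family of a wall is a normalised wall family
-/

set_option autoImplicit false
set_option linter.unusedSectionVars false
open Set

noncomputable section

namespace Crest.Agent.N255.Ma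
open Tp Nv Pt Lv En Wn Le Cs Cs.Tw Ku Tg _root_.N255.Dr _root_.N255.Dr.O _root_.N255.Wt

variable {F : Subgroup F3} {S : Type} [MulAction F3 S] {X : Type} [TopologicalSpace X]
  [MulAction F X] [ContinuousConstSMul F X] {J : Type} [Fintype J] {τ : Ty J}

namespace Wd

section scalar
variable {k : Type} [Field k] {g : Geo F k S X} {u R₀ R : ℝ} {n : ℕ} {e : Ed (Fin 3)} {o : Bool}
  (ω : Wd g u R₀ n τ e o) {σ : Ch k 3 X}

theorem Zb_le {m i : ℕ} (h : m ≤ i) (h' : m ≤ n) :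
    (ω.Zb i).Le (g.E.toLev.Sb (Wn.win (g.E.s e) (ω.l m) (ω.r m))) :=
  fun _ _ ⟨⟨_, hU, h1⟩, h2⟩ => ⟨h1.trans (zs_sub ω.lr h' (zs_anti h hU)), h2⟩

theorem win_B (c : Bool) (m : ℕ) : Wn.win (g.E.s e) (ω.l m) (ω.r m) ⊆ ω.B c m := by
  cases c; exacts [win_hi, win_lo]

theorem ct_Z (j : J) : ω.ct j ∈ (On (ω.B (τ.kd j == o) (τ.sc j + 1))).Z k k 1 :=
  (Wv.ct_ZP (ω.mem j) subset_rfl).2

theorem ct_Zb {i : ℕ} {j : J} (h : τ.sc j < i) : ω.ct j ∈ (ω.Zb i).Z k k 1 :=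
  Sb.Z_mono ((ω.Zb_le h (ω.sc_lt j)).trans (Sb.inf_le_left.trans (On_le (ω.win_B _ _)))) (ω.ct_Z j)

theorem ct_Pc (j : J) : ω.ct j ∈ ω.Pc.Z k k 1 := Sb.Z_mono (ω.Pc_le n) (ω.ct_Zb (ω.sc_lt j))

theorem xw_Z : ω.xw ∈ (g.E.toLev.Sb (Wn.win (g.E.s e) ω.a ω.b)).Z k k 1 := by
  refine Sb.Z_mono (sb_mono fun x hx => ?_) ω.bz.cl
  cases o
  · show g.E.s (rev (rev e)) x < ω.b
    rw [rev_rev]; exact hx.2
  · show g.E.s (rev e) x < 1 - ω.a
    rw [g.E.s_rev]; exact sub_lt_sub_left hx.1 1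

theorem xw_Zb (i : ℕ) : ω.xw ∈ (ω.Zb i).Z k k 1 :=
  Sb.Z_mono ((ω.Zb_le (Nat.zero_le i) (Nat.zero_le n)).trans
    (sb_mono (win_mono ω.al.le ω.rb.le))) ω.xw_Z

theorem Hp_zero (hn : 0 < n) {f : Co k 2 X} (h : f ∈ (ω.Zb 0).van k k 2) : ω.Hp f = 0 := by
  rw [Hp_apply, ω.nf.zero f h, zero_add]
  exact Finset.sum_eq_zero fun j _ => by rw [(ω.nf.fl2 0 hn f h).2 j (Nat.zero_le _), zero_smul]

variable {ω}

/-- the torus of the wall, supported beyond the radius `R` -/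
def Sig.Ts (h : ω.Sig R σ) : To k X :=
  h.T.shr (h.T.P.inf (On (hi g.E.r R))) Sb.inf_le_left
    (Sml.mem_inf h.lb (Sb.ch_mono (Sb.inf_le_left.trans (On_le fun _ hx => hx.1)) h.mem.2))

end scalar

end Wd

variable {p : ℕ} [Fact p.Prime]

theorem kdU_none {x : Uv p J} : τ.kdU p x = none ↔ x.1 = .inr true := by
  rcases x with ⟨j | _ | _, γ⟩ <;> simp [Ty.kdU]

theorem pd_uv_ne {x : Uv p J} {y : J ⊕ Bool} (h : x.1 ≠ y) : pd x (o (GU p J) (uv p y)) = 0 :=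
  pd_uz_zero _ fun _ _ e => h (congrArg Prod.fst e)

theorem pd_uv_self (x : Uv p J) : pd x (o (GU p J) (uv p x.1)) = 1 :=
  pd_uz_one (GU_z p J) (v := fun γ => (x.1, γ)) (fun _ _ _ _ e => congrArg Prod.snd e)
    (Finset.mem_univ x.2)

theorem pd_src {n : ℕ} (q : J ⊕ Bool → Co (ZMod p) n X) (x : Uv p J) (σ : Sx n X) :
    pd x (o (GU p J) (Lp.src q (xv p) σ)) = algebraMap (ZMod p) _ (q x.1 σ) := by
  have e : ∀ y, pd x (o (GU p J) (xv p y)) = pd x (o (GU p J) (uv p y)) := fun y => by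
    rw [← uv_sub, map_sub, map_sub, o_one, Derivation.map_one_eq_zero, sub_zero]
  rw [Lp.src, map_sum, map_sum, Finset.sum_eq_single x.1]
  · rw [map_smul, Derivation.map_smul, e, pd_uv_self, Algebra.algebraMap_eq_smul_one]
  · intro y _ hy
    rw [map_smul, Derivation.map_smul, e, pd_uv_ne hy.symm, smul_zero]
  · simp

namespace Wd

variable {g : Geo F (ZMod p) S X} {u R₀ R : ℝ} {n : ℕ} {e : Ed (Fin 3)} {o : Bool}
  (ω : Wd g u R₀ n τ e o) {σ : Ch (ZMod p) 3 X}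

/-- beyond the radius `R` the family is the base and there are no sources -/
structure Rad (R : ℝ) : Prop where
  far : ω.Far R
  cx : ∀ x, ω.cx x ∈ (On (hi g.E.r R)).van (ZMod p) (ZMod p) 1

theorem exists_rad : ∃ R₁, ∀ R, R₁ ≤ R → ω.Rad R :=
  let ⟨a, ha⟩ := ω.exists_far
  let ⟨b, hb⟩ := ω.exists_cx_far
  ⟨max a b, fun R h => ⟨ha R ((le_max_left _ _).trans h), hb R ((le_max_right _ _).trans h)⟩⟩

/-- the linear classes of the base -/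
def q1 : J ⊕ Bool → Co (ZMod p) 1 X :=
  Sum.elim ω.ct fun c => if c then Or.Xe g.E.toLev g.M _ (me e o) R₀ else ω.xw

/-- the classes of the sources -/
def q2 : J ⊕ Bool → Co (ZMod p) 2 X := Sum.elim (fun j => cob (ZMod p) (ω.ct j)) fun _ => 0

theorem Sr_eq : ω.Sr = Lp.src ω.q2 (xv p) :=
  funext fun τ => by simp [Sr, Lp.src, q2, Fintype.sum_sum_type]

theorem g1_lin (τ : Sx 1 X) : In (mx * mx) ((ω.g1 τ).val - 1 - Lp.src ω.q1 (xv p) τ) := by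
  refine (Lp.zz_lin (K := ZMod p) (uv_U p (J := J) (.inr true)) (uv_U p (.inr false))
    (g.E.toLev.mz g.M R₀ (me e o) τ) (g.E.toLev.mz g.M R₀ (rev (me e o)) τ)).eq ?_
  rw [g1, Lp.val_pl, uv_sub, uv_sub, Lev.mz_cast, Lev.mz_cast]
  simp only [Lp.src, Fintype.sum_sum_type, Fintype.sum_bool, q1, cx, xw, Sum.elim_inl, Sum.elim_inr,
    if_true, Bool.false_eq_true, if_false, Pi.zero_apply, zero_smul, Pi.neg_apply, Pi.sub_apply,
    neg_smul, sub_smul, g0]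
  show _ = _ - (Or.Xe g.E.toLev g.M _ (me e o) R₀ τ • _ + Or.Xe g.E.toLev g.M _ (rev (me e o)) R₀ τ • _)
  abel

/-- **the linear part of the family** -/
theorem gU_lin (τ : Sx 1 X) : In (mx * mx) ((ω.gU τ).val - 1 -
    Lp.src (fun x => ω.q1 x - ω.Hp (cob (ZMod p) (ω.q1 x) - ω.q2 x)) (xv p) τ) :=
  Lp.Fam.lin (ω.Sr_eq ▸ ω.fam) ω.g1_lin τ

theorem pd_gU (x : Uv p J) (τ : Sx 1 X) : pd x (Tw.o (GU p J) (ω.gU τ)) -
    algebraMap (ZMod p) _ ((ω.q1 x.1 - ω.Hp (cob (ZMod p) (ω.q1 x.1) - ω.q2 x.1)) τ) ∈ mx := by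
  have := der_mem_pow (pd x) 1 (sq (mx : Ideal (OU p J)) ▸ ω.gU_lin τ)
  rwa [pow_one, map_sub, map_sub, pd_src, map_sub, map_sub, o_one, Derivation.map_one_eq_zero,
    sub_zero] at this

/-- the linear classes near the wall chain -/
def ka (x : Uv p J) : Co (ZMod p) 1 X := x.1.elim ω.h fun c => if c then 0 else ω.hw

theorem Sr_van {P : Sb X} (h : ∀ j, ω.ct j ∈ P.Z (ZMod p) (ZMod p) 1) :
    ω.Sr ∈ P.van (ZMod p) (Tw (GU p J)) 2 :=
  fun τ hτ => Finset.sum_eq_zero fun j _ => smul_eq_zero_of_left (h j τ hτ) _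

variable {ω}

theorem Rad.mono (h : ω.Rad R) {R' : ℝ} (hR : R ≤ R') : ω.Rad R' :=
  ⟨h.far.mono hR, fun x => van_mono (hi_mono hR) (h.cx x)⟩

theorem Rad.cur (h : ω.Rad R) {I : Ideal (OU p J)} (hI : (GU p J).Id I)
    (c : In I ((uv p (.inr true)).val * (uv p (.inr false)).val -
      (uv p (J := J) (.inr false)).val * (uv p (.inr true)).val)) {a b : ℝ} (ha : u ≤ a)
    (hb : b ≤ 1 - u) : CI (g.E.toLev.Sb (fw (g.E.s e) g.E.r a b R)) I (cur ω.gU - ω.Sr) := by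
  have q : (g.E.toLev.Sb (fw (g.E.s e) g.E.r a b R)).Le (On (hi g.E.r R)) :=
    Sb.inf_le_left.trans (On_le fun _ hx => hx.1)
  intro τ hτ
  rw [Pi.sub_apply, ω.Sr_van (fun j => Sb.van_le_Z (Sb.van_mono q (h.cx (.inl j)))) τ hτ, sub_zero]
  exact Lev.cur_gs0 hI c (ω.fw_lb h.far.1 ha hb) (fun x hx => h.far.2 x (q 1 hx)) τ hτ

/-- **the family of a wall is normalised** -/
theorem Sig.wf [T2Space X] [ChartedSpace (EE 4) X] (h : ω.Sig R σ) (hR : ω.Rad R) {c n' : ℕ}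
    (hc : ∀ j, τ.dp j ≤ c) (h1 : 3 ≤ c) (n1 : 3 * (n' + 1) ≤ n) (n2 : n ≤ 3 * (n' + 2)) :
    Wf.WF (GU_z p J) h.Ts σ ω.gU (uv p (.inr true)) (uv p (.inr false)) (fun x => τ.kdU p x = none)
      ω.ka (cur ω.gU - ω.Sr) (fun i => ω.Zb (3 * i)) ω.Pc n' (ω.Nr R)
      (fun x => N0 c + (τ.sg p hc).F x) (fun i => N0 c + 6 * i) (N0 c) where
  s_ne := h.T_ne hR.far.1
  hσ := h.pc
  hb := rfl
  le i _ := ω.Pc_le _
  hg := ω.fam.u
  bc τ hτ := hR.far.2 τ hτ.2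
  ha := uz_mem _ _ fun _ _ => Wf.Ny_le.1 le_rfl _ rfl
  hb' := uv_U p _
  pa x hx := pd_uv_ne (mt kdU_none.2 hx)
  py γ := ⟨(.inr true, γ), rfl, rfl, by rw [pd_uv_self (.inr true, γ), sub_self]; exact zero_mem _⟩
  cl := by
    rintro ⟨j | _ | _, δ⟩ hx
    exacts [ω.h_Pc j, ω.hw_Pc, absurd rfl hx]
  lin x hx τ hτ := by
    convert ω.pd_gU x τ using 3
    rcases x with ⟨j | _ | _, δ⟩
    · simpa [ka, q1, q2] using (sub_eq_zero.1 (ω.ct_sub_h j τ hτ)).symm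
    · have : ω.hw τ = ω.xw τ := sub_eq_zero.1 (ω.bz.sm τ hτ.2)
      simpa [ka, q1, q2, ω.Hp_zero (by omega) (ω.xw_Zb 0)] using this
    · exact absurd rfl hx
  full x hx δ := ⟨(x.1, δ), hx, rfl, rfl⟩
  src i _ := by
    rw [sub_sub_cancel]
    refine Lp.src_ci fun j => (lt_or_ge (τ.sc j) (3 * i)).elim (fun q => .inr (ω.ct_Zb q)) fun q => .inl ?_
    refine sum_mem fun δ _ => (flt_Ge _).anti ?_ (z_mem_Ge _ _)
    have : 2 + 2 * τ.sc j ≤ _ := Sg.le_F (σ := τ.sg p hc) (by omega) (.inl j, δ)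
    omega
  scl i _ := by
    rw [sub_sub_cancel, Sb.mem_Z, Sr, Lp.cob_src]
    exact fun τ _ => Finset.sum_eq_zero fun j _ => smul_eq_zero_of_left (congrFun (cob_cob _) τ) _
  sP := by rw [sub_sub_cancel]; exact ω.Sr_van ω.ct_Pc
  nr l hl := ⟨Lp.Fam.nfE (H := ω.H) (lam := ω.lam) (ct := ω.ct) ω.fam ω.nf.nf l,
    ci_iff.1 (hR.cur (I := Wf.cc _ _) ((GU p J).id_sp _) (Gr.mem_sp rfl) (ω.u_lt_l 0).le
      (ω.r_lt_u 0).le) l hl⟩
  det i hi q hq hz hp := h.det le_rfl (by omega) (by omega) hq hz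
    (fun j _ => hp (.inl j, 0) (by simp [Ty.kdU])) (hp (.inr false, 0) (by simp [Ty.kdU]))
  die x hx := by
    have hy : ∀ y, τ.kdU p y = none → N0 c + (τ.sg p hc).F y = 52 * c :=
      fun y => Sg.F_y (σ := τ.sg p hc)
    by_cases hF : (τ.sg p hc).F x < 12 * c
    · exact .inl ⟨by unfold N0; omega, fun y q => by rw [hy y q]; unfold N0; omega⟩
    rcases x with ⟨j | _ | _, δ⟩
    · have e1 : _ = 2 + 2 * τ.dp j + 2 * τ.sc j := Sg.F_cl (σ := τ.sg p hc) (x := (.inl j, δ)) hx rfl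
      have e2 := hc j
      have e3 := ω.sc_lt j
      exact .inr ⟨pd_uv_ne (by simp), min n' ((τ.sc j - 2) / 3), min_le_left _ _, by unfold N0; omega,
        fun f hf => h.die le_rfl (by omega) hf⟩
    · have := Sg.F_w (σ := τ.sg p hc) (x := (.inr false, δ)) hx rfl
      omega
    · exact absurd rfl hx
  hF _ := Nat.le_add_right _ _
  w0 := le_rfl
  ws i _ := by unfold N0; omega
  wm i hi := by omega

/-- **the wall facts** of the wall of a wall chain -/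
structure Wfa {c : ℕ} (h : ω.Sig R σ) (hc : ∀ j, τ.dp j ≤ c) (L : ℤ)
    (f : _root_.N255.Sl.Wf (h.wall hc) (N0 c)) : Prop where
  W0 : _root_.N255.Sl.W0w (h.wall hc)
  hN : f.I ≤ Ge p (ZMod p) (fun x => N0 c + (h.wall hc).F x) (N1 c)
  hK : f.KU ≤ mx ^ 2 ⊓ Ge p (ZMod p) (fun x => N0 c + (h.wall hc).F x) L
  hY : f.I ≤ mx * mx ⊔ Wf.Ny p (ZMod p) fun x => τ.kdU p x = none
  gr : (GU p J).Id f.I
  ci : CI ω.Pc f.I (cur ω.gU)

theorem Sig.wfa [T2Space X] [ChartedSpace (EE 4) X] (h : ω.Sig R σ) (hR : ω.Rad R) {c : ℕ} {L : ℤ}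
    (hc : ∀ j, τ.dp j ≤ c) (h1 : 3 ≤ c) (hn : 3 ≤ n) (hL : L ≤ 2 * n) : ∃ f, Wfa h hc L f := by
  have w := h.wf hR hc h1 (n' := n / 3 - 1) (by omega) (by omega)
  have h2 : 0 < N0 c + 6 * (n / 3 - 1) := by unfold N0; omega
  exact ⟨w.wf (w := h.wall hc) rfl, w.w0', w.wf_N (w := h.wall hc) rfl h2 (by unfold N0 N1; omega)
    fun y hy => (Sg.F_y (σ := τ.sg p hc) hy).ge, w.wf_K (w := h.wall hc) rfl h2 (by unfold N0; omega),
    w.I_le h2, w.wf_id (w := h.wall hc) rfl, w.wf_cur (w := h.wall hc) rfl⟩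

/-- **the wall facts hold beyond a radius** -/
theorem exists_wfa [T2Space X] [ChartedSpace (EE 4) X] (ω : Wd g u R₀ n τ e o) {c : ℕ} {L : ℤ}
    (hc : ∀ j, τ.dp j ≤ c) (h1 : 3 ≤ c) (hn : 3 ≤ n) (hL : L ≤ 2 * n) :
    ∃ R₁, ∀ R, R₁ ≤ R → ∀ σ (h : ω.Sig R σ), ∃ f, Wfa h hc L f :=
  let ⟨R₁, H⟩ := ω.exists_rad; ⟨R₁, fun R hR _ h => h.wfa (H R hR) hc h1 hn hL⟩

end Wd

end Crest.Agent.N255.Ma

end
end

-- ▼ part N255/Ma/Vy

/-!
# Row 255 (helper39): the vertex identity `VxW` from the facts on `Vd`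
-/

set_option autoImplicit false
open Set Module Sum

noncomputable section

namespace Crest.Agent.N255.Ma.Vd
open Tp Nv Pt Lv En Wn Le Cs Cs.Tw _root_.N255.Core _root_.N255.Dr _root_.N255.Dr.O
open _root_.N255.Wt (La)

variable {F : Subgroup F3} {S : Type} [MulAction F3 S] {X : Type} [TopologicalSpace X]
  [MulAction F X] [ContinuousConstSMul F X] {p : ℕ} [Fact p.Prime] {J : Fin 3 → Type}
  [∀ i, Fintype (J i)] {g : Geo F (ZMod p) S X} {u R₀ : ℝ} {n : ℕ} {τ : ∀ i, Ty (J i)} {v : F3}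
  {h o : Fin 3 → Bool} (D : Vd g u R₀ n τ v h o)

open Classical in
/-- the graded variables -/
abbrev yu : Gu p (fun i => Uv p (J i)) o (Σ i, Uv p (J i)) where
  ys _ := Finset.univ.image fun γ => (inr true, γ)
  cu i y := ⟨i, y⟩
  G := G2 p J
  d := d2 p J
  hO := G2_z p J
  b := D.bV
  hb := D.bV_U

theorem yu_a : D.yu.a = aV p J := funext fun i => Units.ext <| by
  classical
  rw [← sub_left_inj (a := 1), Gu.a, aV, uV, uz_sub, uz_sub]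
  exact congrArg _ (Finset.sum_image fun _ _ _ _ e => (Prod.ext_iff.1 e).2)

theorem yu_x : D.yu.x = xM p J o := funext fun i => by
  rcases Bool.eq_false_or_eq_true (o i) with q | q
  · rw [Gu.x_M _ q, yu_a, aV_M i q]
  · rw [Gu.x_L _ q]; exact D.bV_L q

theorem yu_N : D.yu.N = NV p J o := by
  refine le_antisymm ((id_NV p o).sp_le.2 ?_) (Ideal.span_le.2 ?_)
  · rintro _ ⟨j, rfl⟩
    rw [yu_x]; exact xM_N p o j
  · rintro _ ⟨j, γ, rfl⟩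
    have := D.yu.id_N γ _ (D.yu.x_N j)
    rw [yu_x, xM, uV_sub] at this
    exact Io.pr_x2 (G2_z p J) j (inr (o j)) γ ▸ this

theorem yu_XI {Tv : Vt (ZMod p) X o} (e : ∀ j, Tv.la (xM p J o) j = D.V0.la (xM p J o) j) :
    D.yu.XI Tv = D.XV := by
  refine le_antisymm (sup_le (D.id_XV.sp_le.2 ?_) (D.yu_N ▸ D.N3_le_XV))
    (sup_le ((D.yu.id_XI Tv).sp_le.2 ?_) (D.yu_N ▸ le_sup_right))
  · rintro _ ⟨j, q, rfl⟩
    have := D.ja_end j
    rw [Ms.ja, if_neg (by simp [q])] at this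
    rw [yu_x, yu_a, e]; exact this
  · rintro _ ⟨j, rfl⟩
    rcases Bool.eq_false_or_eq_true (o j) with q | q
    · rw [Ms.ja_M q (aV_M j q), map_zero]; exact zero_mem _
    · have := D.yu.a_XI Tv q
      rw [yu_x, yu_a, e] at this
      rw [Ms.ja, if_neg (by simp [q])]; exact this

variable {w : ∀ i, Wall p (Cs.Gm p) (Cs.g0 p) (Uv p (J i))}

/-- the standard structure -/
def ygs (hk : ∀ i x, (w i).kd x = (τ i).kdU p x) (hd : ∀ i x, (w i).deg x = x.2) : Gs w D.yu where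
  hys i := Finset.ext fun x => by
    classical
    rw [mem_ys, hk, Io.kdU_none]
    exact Finset.mem_image.trans ⟨fun ⟨_, _, e⟩ => e ▸ rfl, fun e => ⟨x.2, Finset.mem_univ _, e ▸ rfl⟩⟩
  cu _ _ _ := rfl
  hd q := (hd q.1 q.2).symm
  sur i γ := ⟨(inr true, γ), hk _ _, hd _ _⟩
  wv _ y := (inr false, Cs.g0 p - y.2)
  nr i y _ := by rw [hk]; simp [Ty.kdU]
  hb i y q _ := by
    show (G2 p J).pr _ (Tw.o (G2 p J) ((D.bV i).val - 1)) = _
    rw [D.bV_L q, xM, q, uV_sub, hd]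
    exact Io.pr_x2 (G2_z p J) i (inr false) _

variable (K : Set X) (ρ : D.Ix → Ch (ZMod p) 4 X)

/-- the generator of a far variable -/
def ybe (hk : ∀ i x, (w i).kd x = (τ i).kdU p x) (b : _root_.N255.Wt.B w o) : D.Ga K ρ :=
  inl (⟨⟨b.1.1, b.1.2.1⟩, (hk _ _).symm.trans b.2⟩, b.1.2.2)

theorem ybe_inj (hk : ∀ i x, (w i).kd x = (τ i).kdU p x) : Function.Injective (D.ybe K ρ hk) := by
  rintro ⟨⟨i, x, γ⟩, a⟩ ⟨⟨i', x', γ'⟩, a'⟩ e
  obtain ⟨e, e'⟩ := Prod.ext_iff.1 (inl_injective e)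
  cases congrArg Subtype.val e
  cases e'
  rfl

theorem ybe_range (hk : ∀ i x, (w i).kd x = (τ i).kdU p x) {a : D.Ga K ρ}
    (ha : a ∉ range (D.ybe K ρ hk)) : ∃ b, a = inr b := by
  rcases a with ⟨⟨⟨i, x⟩, e⟩, γ⟩ | b
  · exact (ha ⟨⟨⟨i, x, γ⟩, (hk _ _).trans e⟩, rfl⟩).elim
  · exact ⟨b, rfl⟩

theorem Z_eps (a : Fr τ o) (γ : Cs.Gm p) : (D.Z K ρ).ε (inl (a, γ)) = z ⟨a.1.1, a.1.2, γ⟩ :=
  Io.pr_x2 (G2_z p J) _ _ _

theorem XV_le_Pu : D.XV ≤ (D.Z K ρ).Pu := by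
  rw [← D.span_bX, Ideal.span_le]
  rintro _ ⟨i, rfl⟩
  exact Ideal.mem_iSup_of_mem (inr (inl i)) (Ideal.mem_iSup_of_mem ⟨rfl, rfl⟩
    (Ideal.mem_span_singleton_self _))

theorem Z_row (b : (D.Y K ρ).Bx D.GV D.ε D.βX) :
    (D.Z K ρ).E (inr b) ∈ D.XV ∨ n ≤ (D.Z K ρ).pa (inr b) + 4 := by
  rcases b with i | i
  · exact .inl (D.span_bX ▸ Ideal.subset_span ⟨i, rfl⟩)
  · rcases Lz.Gz.bx_inr (dp := D.dp) (b := D.bX) i with e | ⟨e, -⟩
    · exact .inl (show (D.Y K ρ).bx _ _ _ _ _ ∈ _ from e ▸ zero_mem _)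
    · exact .inr e

theorem LV_le_sup : D.LV ≤ D.XV ⊔ (D.Z K ρ).Eps :=
  sup_le_sup_left (Ideal.span_mono (by
    rintro _ ⟨i, γ, q, rfl⟩
    exact ⟨inl (⟨⟨i, inr false⟩, by simp [Ty.kb, q]⟩, γ), D.Z_eps K ρ _ _⟩)) _

theorem Z_IK (C : D.Cmp) (i : Fin 3) {I : Ideal (OU p (J i))} (gr : (GU p (J i)).Id I)
    (ci : CI (D.ω i).Pc I (cur (D.ω i).gU)) : (D.Z K ρ).IK i ≤ I.map (C.io i) ⊔ mx ^ (n - 2) :=
  Lz.Gz.IK_le (C.hom i) (fun a => D.src.q_ce a i) ((G2_mx p J).pow _) (D.P_ce i ▸ C.cmp i) gr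
    (by rw [← D.P_ce i] at ci; exact ci) bot_le

variable {D K} {R : ℝ} {σ : Fin 3 → Ch (ZMod p) 3 X} {c B : ℕ}

/-- the weights of the three walls -/
def yT (hs : ∀ i, (D.ω i).Sig R (σ i)) (hc : ∀ i j, (τ i).dp j ≤ c) (h3 : 3 ≤ c)
    (hB : ∀ i, (Finset.univ.filter fun x => ((τ i).sg p (hc i)).sc x ≤ 60 * c).card ≤ B) :
    _root_.N255.Wt.Ty (fun i => (hs i).wall (hc i)) c B :=
  ⟨fun i => (τ i).sg p (hc i), fun _ _ => rfl, fun _ _ => rfl, h3, hB⟩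

/-- **the vertex identity on `Vd`** -/
theorem vxW [T2Space X] (hp : p ≠ 2) (hs : ∀ i, (D.ω i).Sig R (σ i)) (hc : ∀ i j, (τ i).dp j ≤ c)
    (h3 : 3 ≤ c) (hB : ∀ i, (Finset.univ.filter fun x => ((τ i).sg p (hc i)).sc x ≤ 60 * c).card ≤ B)
    (hn : La p c B + 16 ≤ n) (O : D.Off K R) (r : D.Rc K R σ) (C : D.Cmp)
    (wf : ∀ i, ∃ f, Wd.Wfa (hs i) (hc i) (3 * La p c B + 1) f)
    (ok : (D.Z K r.ρ).Ok)
    (hJ : ∀ a, (D.Z K r.ρ).E a ∈
      Jt.Jl p (ZMod p) {q : Σ i, Uv p (J i) | (τ q.1).kb q.2.1 ≠ some (!o q.1)}) :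
    VxW (fun i => (hs i).wall (hc i)) o c B := by
  choose f wf using wf
  have hk : ∀ i x, ((hs i).wall (hc i)).kd x = (τ i).kdU p x := fun _ _ => rfl
  have eX : D.yu.XI (D.vt hs O.le r) = D.XV := D.yu_XI fun _ => rfl
  have hm : (mx : Ideal (OV p J)) ^ (n - 2) ≤ mx ^ La p c B := Ideal.pow_le_pow_right (by omega)
  let x : PVxM (yT hs hc h3 hB) D.yu (D.vt hs O.le r) D.Ix (D.Ga K r.ρ) :=
    { f := f
      W0 := fun i => (wf i).W0
      hN := fun i => (wf i).hN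
      hK := fun i => (wf i).hK
      io := C.io
      hy := C.hy (T := yT hs hc h3 hB) (hc := hc) fun _ => rfl
      adm := C.adm (hc := hc) fun _ => rfl
      Z := D.Z K r.ρ
      ok := ok
      hm := rfl
      hγ := show 2 * 4 ≤ 3 * c by omega
      be := D.ybe K r.ρ hk
      be_inj := D.ybe_inj K r.ρ hk
      eps := fun b => D.Z_eps K r.ρ _ _
      eps0 := fun a ha => by obtain ⟨b, rfl⟩ := D.ybe_range K r.ρ hk ha; rfl
      pa := fun _ => le_rfl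
      hE := fun a => Jt.Jl_mx (hJ a)
      DE := fun b a => Jt.pd_Jl (not_not.2 b.2) (hJ a)
      hI := fun i => (D.Z_IK K r.ρ C i (wf i).gr (wf i).ci).trans (sup_le_sup_left hm _)
      xi := eX ▸ D.XV_le_Pu K r.ρ
      row := fun a ha => by
        obtain ⟨b, rfl⟩ := D.ybe_range K r.ρ hk ha
        exact (D.Z_row K r.ρ b).imp (eX ▸ id) fun q => show La p c B + 3 * 4 ≤ _ by omega
      GU := fun i => GU p (J i)
      gU := fun i => (D.ω i).gU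
      aU := fun _ => uv p (inr true)
      bU := fun _ => uv p (inr false)
      σ := σ
      hW := fun _ => rfl
      hio := C.hom
      b := D.bV
      ioa := fun j => D.yu_a ▸ C.a j
      iob := C.b
      g := D.GV
      PK := fun i => (D.ω i).Pc
      hσ := fun i => (hs i).mem.1
      hg := fun _ => D.fam.cu _
      cmp := fun i e he => (C.cmp i e he).mono hm
      ρ := ∑ k, r.ρ k
      hρ := r.bd
      pp := Lz.Gz.pp_dec (hm := G2_mx p J) r.mem (fun a _ q => D.src.q_van a q.ne') fun _ => D.fam.cu _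
      L := D.LV
      hL := D.id_LV
      Lm := D.LV_le
      XL := eX ▸ D.XV_le_LV
      LX := eX ▸ D.LV_le_sup K r.ρ
      hb := D.yu_x ▸ vt_hb hs O.le r
      eh := D.yu_x ▸ eh hs O.le r O
      ee := D.yu_a ▸ ee hs O.le r O }
  exact x.vx (D.ygs hk fun _ _ => rfl) (by
    rw [vt_e]; exact_mod_cast Lev.eps_sq g.L) ((hs 0).T_ne O.le) hp (fun _ _ => rfl) fun _ _ => rfl

end Crest.Agent.N255.Ma.Vd

end
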