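import Crest.Agent.N255.Ma.GeoA
import Crest.Agent.N255.Ma.Top2
import Crest.Agent.N255.Wz.Sys
import Crest.Agent.N255.Tr.All
import Crest.Agent.N255.Ma.Vy
import Crest.Agent.N255.Jt.Vd_Mg

-- ▼ part N255/Ma/Prd
section

/-!
# Row 255 (helper20): the producer and the non manifold clause from the vertex statement
-/

set_option autoImplicit false

namespace Crest.Agent.N255.Ma

/-- the producer from the vertex statement -/
theorem prdS_of_vtx (h : VtxS) : PrdS := prdS_of_parts Wz.wallS trS_holds h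

/-- the non manifold clause from the vertex statement -/
theorem noMf_of_vtx (h : VtxS) : Ce.NoMf Da.D.mir.G := noMf_of geoS_holds (prdS_of_vtx h)

end Crest.Agent.N255.Ma
end

-- ▼ part N255/Ma/Vx2

/-!
# Row 255 (helper49): the vertex half from its parts
-/

set_option autoImplicit false
open Set

noncomputable section

namespace Crest.Agent.N255.Ma
open Tp Nv Pt Lv En Wn Cs _root_.N255.Core _root_.N255.Wt

/-- the located equations have no linear term in the far variables -/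
def HjS : Prop :=
  ∀ (F : Subgroup F3) (S : Type) [MulAction F3 S] (X : Type)
    [TopologicalSpace X] [T2Space X] [ChartedSpace (EE 4) X] [SecondCountableTopology X]
    [MulAction F X] [ContinuousConstSMul F X] (g : Geo F (ZMod 3) S X) (u R₀ : ℝ) (n : ℕ)
    (J : Fin 3 → Type) [∀ i, Fintype (J i)] (τ : ∀ i, Ty (J i)) (v : F3) (h t : Fin 3 → Bool)
    (D : Vd g u R₀ n τ v h t) (K : Set X) (R : ℝ) (σ : Fin 3 → Ch (ZMod 3) 3 X)
    (_ : ∀ i, (D.ω i).Sig R (σ i)) (_ : D.Off K R) (r : D.Rc K R σ) (a : D.Ga K r.ρ),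
    (D.Z K r.ρ).E a ∈ Jt.Jl 3 (ZMod 3) {q : Σ i, Uv 3 (J i) | (τ q.1).kb q.2.1 ≠ some (!t q.1)}

/-- **the vertex half of the producer** -/
theorem vtxS_of_hj (hJ : HjS) : VtxS := by
  refine ⟨3, fun c B => 2 * La 3 c B + 16, ?_⟩
  intro F S _ X _ _ _ _ _ _ g u R₀ n c B J _ τ v h t ω hc _ h3 hn cnt dep
  replace hn : 2 * La 3 c B + 16 ≤ n := hn
  obtain ⟨D, rfl⟩ := exists_vd (by omega) ω dep (Le.exists_VF' (by omega) ω)
  obtain ⟨K, R₁, hO⟩ := D.exists_off
  obtain ⟨C⟩ := D.nonempty_cmp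
  choose R₂ hW using fun i =>
    (D.ω i).exists_wfa (L := 3 * La 3 c B + 1) (hc i) h3 (by omega) (by omega)
  obtain ⟨R₃, hR₃⟩ := exists_ub R₂
  refine ⟨max R₁ R₃, fun R hR σ s => ?_⟩
  have O := hO R ((le_max_left _ _).trans hR)
  obtain ⟨r⟩ := D.exists_rc O s
  exact Vd.vxW (by decide) s hc h3 cnt (by omega) O r C
    (fun i => hW i R ((hR₃ i).trans ((le_max_right _ _).trans hR)) _ (s i)) (O.Z_ok s r)
    (hJ F S X g u R₀ n J τ v h t D K R σ s O r)

theorem hjS_holds : HjS := by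
  intro F S _ X _ _ _ _ _ _ g u R₀ n J _ τ v h t D K R σ _ _ r a
  exact D.hJ48 K r.ρ a

/-- **the vertex statement** -/
theorem vtxS_holds : VtxS := vtxS_of_hj hjS_holds


end Crest.Agent.N255.Ma

end
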